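import Vale.Agent.P299.H835.IX.Fock

/-!
# P299, index theorem: calculus for the second quantisation of matrix valued functions
-/

open scoped ContDiff ComplexOrder Topology Matrix
open Vale.Agent.P272.K Vale.Agent.P272.K.C2

noncomputable section

namespace Vale.Agent.P299.IX

namespace Fock

variable {n N : ℕ}

theorem epsV_mulVec (v : Fin n → ℂ) (a : Fk n) (K : FI n) :
    (epsV v *ᵥ a) K = ∑ p, v p * (eps p *ᵥ a) K := by
  unfold epsV
  rw [Matrix.sum_mulVec, Finset.sum_apply]
  refine Finset.sum_congr rfl fun p _ => ?_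
  rw [Matrix.smul_mulVec, Pi.smul_apply, smul_eq_mul]

theorem iotV_mulVec (v : Fin n → ℂ) (a : Fk n) (K : FI n) :
    (iotV v *ᵥ a) K = ∑ p, v p * (iot p *ᵥ a) K := by
  unfold iotV
  rw [Matrix.sum_mulVec, Finset.sum_apply]
  refine Finset.sum_congr rfl fun p _ => ?_
  rw [Matrix.smul_mulVec, Pi.smul_apply, smul_eq_mul]

/-- an invariance principle: `lam (M y)` inherits properties that are stable under sums and
products -/
theorem lam_induction {P : (Cm N → ℂ) → Prop} (h0 : ∀ c : ℂ, P fun _ => c)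
    (hs : ∀ (s : Finset (Fin n)) (f : Fin n → Cm N → ℂ), (∀ i ∈ s, P (f i)) →
      P fun y => ∑ i ∈ s, f i y)
    (hm : ∀ f g, P f → P g → P fun y => f y * g y)
    {M : Cm N → Matrix (Fin n) (Fin n) ℂ} (hM : ∀ i j, P fun y => M y i j) (K I : FI n) :
    P fun y => lam (M y) K I := by
  have key : ∀ K, P fun y => (lam (M y) *ᵥ ev I) K := by
    induction I using Finset.induction_on_min with
    | empty =>
      intro K
      simp only [lam_ev_empty]
      exact h0 _
    | insert i I hi ih =>
      intro K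
      have h1 : (fun y => (lam (M y) *ᵥ ev (insert i I)) K) = fun y => ∑ p ∈ K,
          M y p i * (sg p K * (lam (M y) *ᵥ ev I) (K.erase p)) := by
        ext y
        rw [lam_ev_insert (M y) hi, epsV_mulVec]
        simp only [eps_mulVec, mul_ite, mul_zero]
        rw [Finset.sum_ite_mem, Finset.univ_inter]
      rw [h1]
      refine hs K _ fun p _ => hm _ _ (hM p i) (hm _ _ (h0 _) (ih _))
  have h2 := key K
  simp only [mulVec_ev] at h2
  exact h2

theorem MD_lam {M : Cm N → Matrix (Fin n) (Fin n) ℂ} {z : Cm N} (h : MD M z) :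
    MD (fun y => lam (M y)) z := fun K I =>
  lam_induction (P := fun f => DifferentiableAt ℝ f z) (fun c => differentiableAt_const c)
    (fun _ _ hf => DifferentiableAt.fun_sum hf) (fun _ _ hf hg => hf.fun_mul hg) h K I

theorem MC_const {r : WithTop ℕ∞} {ι κ : Type*} (A : Matrix ι κ ℂ) (z : Cm N) :
    MC r (fun _ => A) z := fun _ _ => contDiffAt_const

end Fock

open Fock

variable {n N : ℕ}

theorem MC_lam {r : WithTop ℕ∞} {M : Cm N → Matrix (Fin n) (Fin n) ℂ} {z : Cm N} (h : MC r M z) :
    MC r (fun y => lam (M y)) z := fun K I =>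
  lam_induction (P := fun f => ContDiffAt ℝ r f z) (fun _ => contDiffAt_const)
    (fun _ _ hf => ContDiffAt.sum hf) (fun _ _ hf hg => hf.mul hg) h K I

namespace Fock

theorem MD_const {ι κ : Type*} (A : Matrix ι κ ℂ) (z : Cm N) : MD (fun _ => A) z :=
  fun _ _ => differentiableAt_const _

theorem epsV_apply (v : Fin n → ℂ) (K I : FI n) : epsV v K I = ∑ p, v p * eps p K I := by
  unfold epsV
  rw [Matrix.sum_apply]
  refine Finset.sum_congr rfl fun p _ => ?_
  rw [Matrix.smul_apply, smul_eq_mul]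

theorem MD_epsV {v : Cm N → Fin n → ℂ} {z : Cm N} (h : ∀ p, DifferentiableAt ℝ (fun y => v y p) z) :
    MD (fun y => epsV (v y)) z := by
  intro K I
  simp only [epsV_apply]
  exact DifferentiableAt.fun_sum fun p _ => (h p).mul_const _

theorem DM_epsV {v : Cm N → Fin n → ℂ} {z : Cm N} (h : ∀ p, DifferentiableAt ℝ (fun y => v y p) z)
    (k : Fin N) : DM k (fun y => epsV (v y)) z = epsV fun p => dz k (fun y => v y p) z := by
  ext K I
  rw [DM_apply, epsV_apply]
  simp only [epsV_apply]
  rw [dz_sum k Finset.univ (fun p _ => (h p).mul_const _)]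
  refine Finset.sum_congr rfl fun p _ => ?_
  rw [dz_mul_const k _ (h p)]

theorem DMb_epsV {v : Cm N → Fin n → ℂ} {z : Cm N} (h : ∀ p, DifferentiableAt ℝ (fun y => v y p) z)
    (k : Fin N) : DMb k (fun y => epsV (v y)) z = epsV fun p => dzb k (fun y => v y p) z := by
  ext K I
  rw [DMb_apply, epsV_apply]
  simp only [epsV_apply]
  rw [dzb_sum k Finset.univ (fun p _ => (h p).mul_const _)]
  refine Finset.sum_congr rfl fun p _ => ?_
  rw [dzb_mul_const k _ (h p)]

/-- the abstract form of the derivative of `lam` -/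
theorem deriv_lam {M M' B : Matrix (Fin n) (Fin n) ℂ} {X : FM n} (hB : B * M = M')
    (h0 : X *ᵥ ev ∅ = 0)
    (h : ∀ l, X * eps l = epsV (fun p => M' p l) * lam M + epsV (fun p => M p l) * X) :
    X = dlam B * lam M := by
  have h1 : X - dlam B * lam M = 0 := by
    refine ext_eps (E := fun l => epsV fun p => M p l) ?_ (fun l => ?_) (fun l => by simp)
    · rw [Matrix.sub_mulVec, h0, ← Matrix.mulVec_mulVec, lam_ev_empty, dlam_ev_empty, sub_zero,
        Matrix.zero_mulVec]
    · have h2 : B *ᵥ (fun p => M p l) = fun p => M' p l := by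
        ext p
        exact congrFun (congrFun hB p) l
      rw [Matrix.sub_mul, Matrix.mul_sub, h, Matrix.mul_assoc, lam_eps_col, ← Matrix.mul_assoc,
        dlam_epsV, h2, Matrix.add_mul, Matrix.mul_assoc]
      abel
  exact sub_eq_zero.1 h1

theorem DM_lam' {M : Cm N → Matrix (Fin n) (Fin n) ℂ} {z : Cm N} (h : MD M z) {k : Fin N}
    {B : Matrix (Fin n) (Fin n) ℂ} (hB : B * M z = DM k M z) :
    DM k (fun y => lam (M y)) z = dlam B * lam (M z) := by
  refine deriv_lam hB ?_ fun l => ?_
  · ext K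
    rw [mulVec_ev, DM_apply]
    have h1 : (fun y => lam (M y) K ∅) = fun _ => ev ∅ K := by
      ext y
      rw [← mulVec_ev (lam (M y)) ∅ K, lam_ev_empty]
    rw [h1, dz_const]
    rfl
  · have h1 : DM k (fun y => lam (M y) * eps l) z = DM k (fun y => lam (M y)) z * eps l := by
      rw [DM_mul (MD_lam h) (MD_const _ z), DM_const, Matrix.mul_zero, add_zero]
    have h2 : (fun y => lam (M y) * eps l) = fun y => epsV (fun p => M y p l) * lam (M y) := by
      ext y
      rw [lam_eps_col]
    rw [← h1, h2, DM_mul (MD_epsV fun p => h p l) (MD_lam h), DM_epsV fun p => h p l]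
    rfl

theorem DMb_lam' {M : Cm N → Matrix (Fin n) (Fin n) ℂ} {z : Cm N} (h : MD M z) {k : Fin N}
    {B : Matrix (Fin n) (Fin n) ℂ} (hB : B * M z = DMb k M z) :
    DMb k (fun y => lam (M y)) z = dlam B * lam (M z) := by
  refine deriv_lam hB ?_ fun l => ?_
  · ext K
    rw [mulVec_ev, DMb_apply]
    have h1 : (fun y => lam (M y) K ∅) = fun _ => ev ∅ K := by
      ext y
      rw [← mulVec_ev (lam (M y)) ∅ K, lam_ev_empty]
    rw [h1, dzb_const]
    rfl
  · have h1 : DMb k (fun y => lam (M y) * eps l) z = DMb k (fun y => lam (M y)) z * eps l := by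
      rw [DMb_mul (MD_lam h) (MD_const _ z), DMb_const, Matrix.mul_zero, add_zero]
    have h2 : (fun y => lam (M y) * eps l) = fun y => epsV (fun p => M y p l) * lam (M y) := by
      ext y
      rw [lam_eps_col]
    rw [← h1, h2, DMb_mul (MD_epsV fun p => h p l) (MD_lam h), DMb_epsV fun p => h p l]
    rfl

end Fock

theorem DM_lam {M : Cm N → Matrix (Fin n) (Fin n) ℂ} {z : Cm N} (h : MC 1 M z)
    (h0 : (M z).det ≠ 0) (k : Fin N) :
    DM k (fun y => lam (M y)) z = dlam (DM k M z * (M z)⁻¹) * lam (M z) :=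
  DM_lam' (h.md one_ne_zero) (by
    rw [Matrix.mul_assoc, Matrix.nonsing_inv_mul _ (isUnit_iff_ne_zero.2 h0), Matrix.mul_one])

theorem DMb_lam {M : Cm N → Matrix (Fin n) (Fin n) ℂ} {z : Cm N} (h : MC 1 M z)
    (h0 : (M z).det ≠ 0) (k : Fin N) :
    DMb k (fun y => lam (M y)) z = dlam (DMb k M z * (M z)⁻¹) * lam (M z) :=
  DMb_lam' (h.md one_ne_zero) (by
    rw [Matrix.mul_assoc, Matrix.nonsing_inv_mul _ (isUnit_iff_ne_zero.2 h0), Matrix.mul_one])

end Vale.Agent.P299.IX
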