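import Vale.Agent.P299.H723.D.Stmt
import Vale.Agent.P299.H835.IX.FockD

/-!
# P299, index theorem: forms as alternating covariant tensors
-/

open scoped Manifold ContDiff ComplexOrder Topology Matrix
open Vale.Agent.P272.K Vale.Agent.P272.K.C2 Vale.Agent.P278.H837

noncomputable section

namespace Vale.Agent.P299.IX

open Fock

variable {n : ℕ}

/-- the degree `p` part of the form `a` as a covariant tensor:
`(ten p a)_I = (iot_{I (p-1)} ⋯ iot_{I 0} a)_∅` -/
def ten : (p : ℕ) → (FI n → ℂ) → (Fin p → Fin n) → ℂ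
  | 0, a, _ => a ∅
  | p + 1, a, I => ten p (iot (I 0) *ᵥ a) (Fin.tail I)

theorem ten_zero_apply (a : FI n → ℂ) (I : Fin 0 → Fin n) : ten 0 a I = a ∅ := rfl

theorem ten_succ (p : ℕ) (a : FI n → ℂ) (I : Fin (p + 1) → Fin n) :
    ten (p + 1) a I = ten p (iot (I 0) *ᵥ a) (Fin.tail I) := rfl

theorem ten_add (p : ℕ) (a b : FI n → ℂ) (I : Fin p → Fin n) :
    ten p (a + b) I = ten p a I + ten p b I := by
  induction p generalizing a b with
  | zero => rfl
  | succ p ih => rw [ten_succ, Matrix.mulVec_add, ih]; rfl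

theorem ten_smul (p : ℕ) (c : ℂ) (a : FI n → ℂ) (I : Fin p → Fin n) :
    ten p (c • a) I = c * ten p a I := by
  induction p generalizing a with
  | zero => rfl
  | succ p ih => rw [ten_succ, Matrix.mulVec_smul, ih]; rfl

theorem ten_zero (p : ℕ) (I : Fin p → Fin n) : ten p (0 : FI n → ℂ) I = 0 := by
  have := ten_smul p 0 (0 : FI n → ℂ) I
  rwa [zero_smul, zero_mul] at this

theorem ten_sum (p : ℕ) {α : Type*} (s : Finset α) (f : α → FI n → ℂ) (I : Fin p → Fin n) :
    ten p (∑ i ∈ s, f i) I = ∑ i ∈ s, ten p (f i) I := by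
  classical
  induction s using Finset.induction_on with
  | empty => simp [ten_zero]
  | insert i s hi ih => rw [Finset.sum_insert hi, Finset.sum_insert hi, ten_add, ih]

/-- `ten p a I` in terms of the components of `a` -/
theorem ten_eq_sum (p : ℕ) (a : FI n → ℂ) (I : Fin p → Fin n) :
    ten p a I = ∑ K, ten p (ev K) I * a K := by
  have h : a = ∑ K, a K • ev K := by
    ext L
    rw [Finset.sum_apply, Finset.sum_eq_single L]
    · simp [ev]
    · intro K _ hK
      simp [ev, hK.symm]
    · intro hL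
      exact absurd (Finset.mem_univ _) hL
  conv_lhs => rw [h]
  rw [ten_sum]
  exact Finset.sum_congr rfl fun K _ => by rw [ten_smul, mul_comm]

/-- `ten` intertwines `lam Jᵀ` and the pull back of tensors -/
theorem ten_lam (J : Matrix (Fin n) (Fin n) ℂ) (p : ℕ) (a : FI n → ℂ) (I : Fin p → Fin n) :
    ten p (lam Jᵀ *ᵥ a) I = D.tenPull J (ten p a) I := by
  induction p generalizing a with
  | zero =>
    rw [D.tenPull, Fintype.sum_unique]
    simp only [Finset.univ_eq_empty, Finset.prod_empty, one_mul]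
    show (lam Jᵀ *ᵥ a) ∅ = a ∅
    rw [Matrix.mulVec, dotProduct, Finset.sum_eq_single ∅]
    · rw [lam_apply_empty, if_pos rfl, one_mul]
    · intro K _ hK
      rw [lam_apply_empty, if_neg hK, zero_mul]
    · intro h
      exact absurd (Finset.mem_univ _) h
  | succ p ih =>
    have h1 : iot (I 0) *ᵥ (lam Jᵀ *ᵥ a) = lam Jᵀ *ᵥ (∑ l, J l (I 0) • (iot l *ᵥ a)) := by
      rw [Matrix.mulVec_mulVec, iot_lam, ← Matrix.mulVec_mulVec, Matrix.sum_mulVec]
      congr 1
      refine Finset.sum_congr rfl fun l _ => ?_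
      rw [Matrix.smul_mulVec]
      rfl
    rw [ten_succ, h1, ih, D.tenPull, D.tenPull]
    rw [← (Fin.consEquiv fun _ => Fin n).sum_comp, Fintype.sum_prod_type]
    rw [Finset.sum_comm]
    refine Finset.sum_congr rfl fun K _ => ?_
    rw [ten_sum, Finset.mul_sum]
    refine Finset.sum_congr rfl fun l _ => ?_
    rw [ten_smul]
    show _ = (∏ a, J ((Fin.cons l K : Fin (p + 1) → Fin n) a) (I a)) * ten (p + 1) a (Fin.cons l K)
    rw [Fin.prod_univ_succ, ten_succ]
    simp only [Fin.cons_zero, Fin.cons_succ, Fin.tail_cons, Fin.tail]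
    ring

/-- the change law for the tensors -/
theorem ten_change {J : Matrix (Fin n) (Fin n) ℂ} {c : ℂ} {a b : FI n → ℂ}
    (h : c • a = lam Jᵀ *ᵥ b) (p : ℕ) (I : Fin p → Fin n) :
    c * ten p a I = D.tenPull J (ten p b) I := by
  rw [← ten_smul, h, ten_lam]

/-- the components of `a` are values of `ten` -/
theorem exists_ten (K : FI n) : ∀ p, K.card = p → ∃ I : Fin p → Fin n, ∀ a, ten p a I = a K := by
  induction K using Finset.induction_on_min with
  | empty =>
    intro p hp
    rw [Finset.card_empty] at hp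
    subst hp
    exact ⟨Fin.elim0, fun a => rfl⟩
  | insert i K hi ih =>
    intro p hp
    have hi' : i ∉ K := fun h' => lt_irrefl i (hi i h')
    rw [Finset.card_insert_of_notMem hi'] at hp
    subst hp
    obtain ⟨I, hI⟩ := ih _ rfl
    refine ⟨Fin.cons i I, fun a => ?_⟩
    rw [ten_succ, Fin.cons_zero, Fin.tail_cons, hI, iot_mulVec, if_neg hi',
      sg_min (fun j hj => (hi j hj).le), one_mul]

theorem eq_zero_of_ten {p : ℕ} {a : FI n → ℂ} (h : ∀ I, ten p a I = 0) {K : FI n}
    (hK : K.card = p) : a K = 0 := by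
  obtain ⟨I, hI⟩ := exists_ten K p hK
  rw [← hI a, h]

theorem ten_eq_zero {p : ℕ} {a : FI n → ℂ} (h : ∀ K : FI n, K.card = p → a K = 0)
    (I : Fin p → Fin n) : ten p a I = 0 := by
  induction p generalizing a with
  | zero => exact h ∅ Finset.card_empty
  | succ p ih =>
    rw [ten_succ]
    refine ih (fun K hK => ?_) _
    rw [iot_mulVec]
    split_ifs with h1
    · rfl
    · rw [h _ (by rw [Finset.card_insert_of_notMem h1, hK]), mul_zero]

theorem ten_dg (p : ℕ) (a : FI n → ℂ) (I : Fin p → Fin n) : ten p (dg p *ᵥ a) I = ten p a I := by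
  have h : ten p (dg p *ᵥ a + -a) I = 0 := by
    refine ten_eq_zero (fun K hK => ?_) I
    rw [Pi.add_apply, dg_mulVec, if_pos hK, Pi.neg_apply, add_neg_cancel]
  rw [ten_add, ← neg_one_smul ℂ a, ten_smul] at h
  linear_combination h

/-- a form all of whose tensors vanish is zero -/
theorem eq_zero_of_ten_all {a : FI n → ℂ} (h : ∀ p ≤ n, ∀ I : Fin p → Fin n, ten p a I = 0) :
    a = 0 := by
  ext K
  exact eq_zero_of_ten (h K.card (by simpa using Finset.card_le_univ K)) rfl

theorem analyticAt_ten {E : Type*} [NormedAddCommGroup E] [NormedSpace ℂ E]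
    {g : E → FI n → ℂ} {z : E} (h : ∀ K, AnalyticAt ℂ (fun y => g y K) z) (p : ℕ)
    (I : Fin p → Fin n) : AnalyticAt ℂ (fun y => ten p (g y) I) z := by
  have : (fun y => ten p (g y) I) = fun y => ∑ K, ten p (ev K) I * g y K := by
    ext y; rw [ten_eq_sum]
  rw [this]
  exact Finset.analyticAt_fun_sum _ fun K _ => analyticAt_const.mul (h K)

/-- the tensors of a section of `Λ^{*,0} ⊗ (-kK)` with holomorphic components -/
theorem isTen_ten {Z : Type*} [TopologicalSpace Z] [ChartedSpace (Cm n) Z] {k : ℕ}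
    {g : Chart n Z → Cm n → FI n → ℂ}
    (ha : ∀ e x, At e x → ∀ K, AnalyticAt ℂ (fun z => g e z K) (e x))
    (hc : ∀ e e' x, At e x → At e' x →
      (jacM e e' x).det ^ k • g e (e x) = lam (jacM e e' x)ᵀ *ᵥ g e' (e' x)) (p : ℕ) :
    D.IsTen p k (fun e z => ten p (g e z)) where
  holo := fun e x hx I => analyticAt_ten (ha e x hx) p I
  change := fun e e' x hx hx' I => ten_change (hc e e' x hx hx') p I

/-- `T`-invariance of the tensors -/
theorem tenInv_ten {Z : Type*} [TopologicalSpace Z] [ChartedSpace (Cm n) Z] {k : ℕ}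
    {g : Chart n Z → Cm n → FI n → ℂ} {φ : Z → Z}
    (hc : ∀ e e' x, At e x → At e' (φ x) →
      (D.jacF φ e e' x).det ^ k • g e (e x) = lam (D.jacF φ e e' x)ᵀ *ᵥ g e' (e' (φ x))) (p : ℕ) :
    D.TenInv k φ (fun e z => ten p (g e z)) :=
  fun e e' x hx hx' I => ten_change (hc e e' x hx hx') p I

end Vale.Agent.P299.IX
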