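import Vale.Agent.P299.H835.IX.Sharp
import Vale.Agent.P299.H954.IX.Defs
import Vale.Agent.P299.H954.VF
import Mathlib.Geometry.Manifold.Complex

/-!
# P299, index theorem: the kernel of `D' + δ` on `Λ^{*,0} ⊗ (-K)` (level `k = 1`)

If `Z` has no holomorphic covariant tensors of positive degree then the kernel is spanned by the
tautological section `u₀ = dz_1 ∧ … ∧ dz_n ⊗ ∂_1 ∧ … ∧ ∂_n`.
-/

open scoped Manifold ContDiff ComplexOrder Topology Matrix
open Vale.Agent.P272.K Vale.Agent.P272.K.C2 Vale.Agent.P299.H954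

noncomputable section

namespace Vale.Agent.P299.IX

open Fock

variable {n : ℕ} {Z : Type*} [TopologicalSpace Z] [ChartedSpace (Cm n) Z] {w : D.FormM n Z}
  {e : Chart n Z} {x : Z}

theorem Fock.kat (hw : IsKahler w) (hx : At e x) : KAt (w e) (e x) where
  smooth := by
    filter_upwards [eventually_at hx] with y hy i j
    have := hw.smooth e _ hy.1 i j
    rwa [hy.2] at this
  pos := IsHermitian.ev_posDef hw.toIsHermitian hx
  closed := IsKahler.ev_closed hw hx

/-- `# u` -/
def shX (w : D.FormM n Z) (u : Frm n Z) : Frm n Z := fun e => shp (w e) (u e)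

theorem jac_isUnit [IsManifold 𝓘(ℂ, Cm n) ω Z] {e e' : Chart n Z} (hw : IsHermitian w)
    (hx : At e x) (hx' : At e' x) : IsUnit (jacM e e' x).det := by
  rw [isUnit_iff_ne_zero]
  intro h
  have h1 := (hw.posDef e x hx).det_pos.ne'
  rw [hw.change e e' x hx hx', Matrix.det_mul, Matrix.det_mul, Matrix.det_transpose, h] at h1
  simp at h1

theorem isSec_shX [IsManifold 𝓘(ℂ, Cm n) ω Z] (hw : IsKahler w) {u : Frm n Z} (hu : IsSec 1 u) :
    IsSec 0 (shX w u) where
  smooth := fun e x hx => VC_shp le_rfl (kat hw hx) (hu.smooth e x hx)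
  change := fun e e' x hx hx' => by
    rw [pow_zero, one_smul]
    have h1 := hu.change e e' x hx hx'
    rw [pow_one] at h1
    exact (by
      have := shv_change (hw.change e e' x hx hx') (jac_isUnit hw.toIsHermitian hx hx') h1
      simpa only [shX, shp, shv, Pd, Ld, Matrix.smul_mulVec] using this)

theorem DDX_shX (hw : IsKahler w) {u : Frm n Z} (hu : IsSec 1 u) (hx : At e x) :
    DDX 0 w (shX w u) e (e x) = -shv (w e) (e x) (DDX 1 w u e (e x)) := by
  have h := kat hw hx
  have h1 : VC 1 (u e) (e x) := (hu.smooth e x hx).mono (by exact_mod_cast le_top)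
  unfold DDX shX
  rw [Dp_shp h h1, De_shp h h1, shv_add]
  abel

/-- smooth sections killed by all `∂̄_b` have holomorphic components -/
theorem analyticAt_of_DVb {g : Frm n Z} {k : ℕ} (hg : IsSec k g)
    (h : ∀ e x, At e x → ∀ b, DVb b (g e) (e x) = 0) (hx : At e x) (K : FI n) :
    AnalyticAt ℂ (fun z => g e z K) (e x) := by
  refine analyticAt_of_dzb ?_
  filter_upwards [eventually_at hx] with y hy
  constructor
  · have := (hg.smooth e _ hy.1 K).differentiableAt (by simp)
    rwa [hy.2] at this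
  · intro l
    have := congrFun (h e _ hy.1 l) K
    rw [hy.2] at this
    exact this

theorem ten_hol {g : Frm n Z} {k : ℕ} (hg : IsSec k g)
    (h : ∀ e x, At e x → ∀ b, DVb b (g e) (e x) = 0) (p : ℕ) :
    D.IsTen p k (fun e z => ten p (g e z)) :=
  isTen_ten (fun _ _ hx K => analyticAt_of_DVb hg h hx K) hg.change p

/-- holomorphic sections of `Λ^{*,0}` are constant functions if there are no holomorphic tensors -/
theorem const_of_hol [CompactSpace Z] [ConnectedSpace Z] [IsManifold 𝓘(ℂ, Cm n) ω Z]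
    (hten : ∀ p : ℕ, 1 ≤ p → ∀ s : D.Ten n p Z, D.IsTen p 0 s → ∀ e z I, At e z → s e (e z) I = 0)
    {g : Frm n Z} (hg : IsSec 0 g) (h : ∀ e x, At e x → ∀ b, DVb b (g e) (e x) = 0) :
    ∃ c : ℂ, ∀ e x, At e x → g e (e x) = c • ev ∅ := by
  -- the degree zero part
  set f : Z → ℂ := fun x => g (chartAt (Cm n) x) (chartAt (Cm n) x x) ∅ with hf
  have hat : ∀ x : Z, At (chartAt (Cm n) x) x := fun x =>
    ⟨chart_mem_atlas _ x, mem_chart_source _ x⟩
  have hfe : ∀ e x, At e x → g e (e x) ∅ = f x := by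
    intro e x hx
    have h1 := hg.change e (chartAt (Cm n) x) x hx (hat x)
    rw [pow_zero, one_smul] at h1
    rw [h1, Matrix.mulVec, dotProduct, Finset.sum_eq_single ∅]
    · rw [lam_apply_empty, if_pos rfl, one_mul]
    · intro K _ hK
      rw [lam_apply_empty, if_neg hK, zero_mul]
    · intro h'
      exact absurd (Finset.mem_univ _) h'
  have hmd : MDifferentiable 𝓘(ℂ, Cm n) 𝓘(ℂ, ℂ) f := by
    intro x
    have h1 : AnalyticAt ℂ (fun z => g (chartAt (Cm n) x) z ∅) (chartAt (Cm n) x x) :=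
      analyticAt_of_DVb hg h (hat x) ∅
    have h2 : MDifferentiableAt 𝓘(ℂ, Cm n) 𝓘(ℂ, ℂ)
        ((fun z => g (chartAt (Cm n) x) z ∅) ∘ (chartAt (Cm n) x)) x :=
      MDifferentiableAt.comp x h1.differentiableAt.mdifferentiableAt
        (mdifferentiableAt_atlas (I := 𝓘(ℂ, Cm n)) (chart_mem_atlas _ x) (mem_chart_source _ x))
    refine h2.congr_of_eventuallyEq ?_
    filter_upwards [(chartAt (Cm n) x).open_source.mem_nhds (mem_chart_source _ x)] with y hy
    exact (hfe _ y ⟨chart_mem_atlas _ x, hy⟩).symm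
  obtain ⟨c, hc⟩ := hmd.exists_eq_const_of_compactSpace
  refine ⟨c, fun e x hx => ?_⟩
  ext K
  rw [Pi.smul_apply, smul_eq_mul]
  rcases Finset.eq_empty_or_nonempty K with hK | hK
  · subst hK
    rw [hfe e x hx, hc]
    simp [ev]
  · have h1 := hten K.card (Finset.card_pos.2 hK) _ (ten_hol hg h K.card)
    rw [eq_zero_of_ten (fun I => h1 e x I hx) rfl]
    simp [ev, hK.ne_empty]

/-- **(A5)** the kernel of `D' + δ` on `Λ^{*,0} ⊗ (-K)`, modulo the `∂̄`-vanishing theorem for the
kernel of `D' + δ` on `Λ^{*,0}` (BKN for `k = 0`) -/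
theorem ker_one_of [CompactSpace Z] [ConnectedSpace Z] [IsManifold 𝓘(ℂ, Cm n) ω Z]
    (hw : IsKahler w)
    (hbkn : ∀ g : Frm n Z, IsSec 0 g → (∀ e x, At e x → DDX 0 w g e (e x) = 0) →
      ∀ e x, At e x → ∀ b, DVb b (g e) (e x) = 0)
    (hten : ∀ p : ℕ, 1 ≤ p → ∀ s : D.Ten n p Z, D.IsTen p 0 s → ∀ e z I, At e z → s e (e z) I = 0)
    {u : Frm n Z} (hu : IsSec 1 u) (hker : ∀ e x, At e x → DDX 1 w u e (e x) = 0) :
    ∃ c : ℂ, ∀ e x, At e x → u e (e x) = c • ev Finset.univ := by
  have h1 := isSec_shX hw hu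
  have h2 : ∀ e x, At e x → DDX 0 w (shX w u) e (e x) = 0 := by
    intro e x hx
    rw [DDX_shX hw hu hx, hker e x hx, shv_zero, neg_zero]
  obtain ⟨c, hc⟩ := const_of_hol hten h1 (hbkn _ h1 h2)
  obtain ⟨s, hs0, hs⟩ := hst_ev_univ (n := n)
  refine ⟨star (c / s), fun e x hx => ?_⟩
  refine shv_injective (kat hw hx) ?_
  rw [shv_top (kat hw hx), hs, star_star, smul_smul, div_mul_cancel₀ _ hs0]
  exact hc e x hx

/-- the tautological section `u₀` -/
def uTop (n : ℕ) (Z : Type*) [TopologicalSpace Z] : Frm n Z := fun _ _ => ev Finset.univ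

theorem isSec_uTop : IsSec 1 (uTop n Z) where
  smooth := fun _ _ _ _ => contDiffAt_const
  change := fun e e' x _ _ => by
    rw [pow_one, uTop, uTop, lam_ev_univ, Matrix.det_transpose]

omit [ChartedSpace (Cm n) Z] in
theorem uTop_inv (J : Matrix (Fin n) (Fin n) ℂ) (e e' : Chart n Z) (z z' : Cm n) :
    J.det • uTop n Z e z = lam Jᵀ *ᵥ uTop n Z e' z' := by
  rw [uTop, uTop, lam_ev_univ, Matrix.det_transpose]

omit [ChartedSpace (Cm n) Z] in
theorem DDX_uTop (e : Chart n Z) (z : Cm n) : DDX 1 w (uTop n Z) e z = 0 := by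
  have h1 : ∀ l, DV l (uTop n Z e) z = 0 := by
    intro l; ext i; exact dz_const l _
  have h2 : ∀ l, DVb l (uTop n Z e) z = 0 := by
    intro l; ext i; exact dzb_const l _
  unfold DDX Dp De
  simp only [h1, h2, Matrix.mulVec_zero, Finset.sum_const_zero, neg_zero, add_zero, zero_add,
    Matrix.mulVec_smul]
  refine Finset.sum_eq_zero fun l _ => ?_
  rw [uTop, eps_ev_of_mem (Finset.mem_univ l), smul_zero]

omit [ChartedSpace (Cm n) Z] in
theorem uTop_ne_zero (e : Chart n Z) (z : Cm n) : uTop n Z e z ≠ 0 := by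
  intro h
  have := congrFun h Finset.univ
  simp [uTop, ev] at this

end Vale.Agent.P299.IX
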