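import Vale.Agent.P299.H835.IX.KzTot
import Vale.Agent.P299.H835.IX.KerOne

/-!
# P299, index theorem: the operator `B` on the total bundle, global properties
-/

open scoped Manifold ContDiff ComplexOrder Topology Matrix Kronecker
open Vale.Agent.P272.K Vale.Agent.P272.K.C2 Vale.Agent.P299.H954

noncomputable section

namespace Vale.Agent.P299.IX.Kz

open Fock Cl

section point

variable {n N r : ℕ}

theorem star_map_mulVec {κ ι : Type*} [Fintype ι] (A : Matrix κ ι ℂ) (v : ι → ℂ) :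
    star (A *ᵥ v) = A.map (starRingEnd ℂ) *ᵥ star v := by
  ext i
  simp only [Matrix.mulVec, dotProduct, Pi.star_apply, star_sum, star_mul', Matrix.map_apply,
    starRingEnd_apply]

/-- the change law of the Clifford multiplication -/
theorem cl_change {w₁ w₂ : Cm n → Matrix (Fin n) (Fin n) ℂ} {z₁ z₂ : Cm n}
    {J : Matrix (Fin n) (Fin n) ℂ} (hw : w₁ z₁ = Jᵀ * w₂ z₂ * J.map (starRingEnd ℂ)) (v : Cm n) :
    cl w₁ z₁ v * lam Jᵀ = lam Jᵀ * cl w₂ z₂ (J *ᵥ v) := by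
  have h1 : iotV v * lam Jᵀ = lam Jᵀ * iotV (J *ᵥ v) := by
    rw [iotV_lam, Matrix.vecMul_transpose]
  have h2 : epsV (flatV w₁ z₁ v) * lam Jᵀ = lam Jᵀ * epsV (flatV w₂ z₂ (J *ᵥ v)) := by
    rw [lam_epsV, flatV, flatV, star_map_mulVec, hw, Matrix.mulVec_mulVec, Matrix.mulVec_mulVec]
  rw [cl, cl, Matrix.sub_mul, Matrix.mul_sub, h1, h2]

variable {w : Cm n → Matrix (Fin n) (Fin n) ℂ} {z : Cm n}

/-- `c(v)` is skew-adjoint -/
theorem cl_adj (h : (w z).PosDef) (v : Cm n) :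
    (cl w z v)ᴴ * lam (w z)⁻¹ = -(lam (w z)⁻¹ * cl w z v) := by
  have hu : IsUnit (w z).det := isUnit_iff_ne_zero.2 h.det_pos.ne'
  have h1 : (iotV v)ᴴ * lam (w z)⁻¹ = lam (w z)⁻¹ * epsV (flatV w z v) := by
    rw [iotV_conjTranspose, lam_epsV, flatV, Matrix.mulVec_mulVec, Matrix.nonsing_inv_mul _ hu,
      Matrix.one_mulVec]
  have h2 : (epsV (flatV w z v))ᴴ * lam (w z)⁻¹ = lam (w z)⁻¹ * iotV v := by
    rw [epsV_conjTranspose, iotV_lam, flatV, Matrix.star_mulVec, star_star, h.isHermitian.eq,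
      Matrix.vecMul_vecMul, Matrix.mul_nonsing_inv _ hu, Matrix.vecMul_one]
  rw [cl, Matrix.conjTranspose_sub, Matrix.sub_mul, h1, h2, Matrix.mul_sub]
  abel

theorem dgl_epsV_geo {c : ℕ → ℂ} {q : ℂ} (hc : ∀ p, c (p + 1) = q * c p) (s : Fin N → ℂ) :
    (dgl c : FM N) * epsV s = q • (epsV s * dgl c) := by
  unfold epsV
  rw [Finset.mul_sum, Finset.sum_mul, Finset.smul_sum]
  refine Finset.sum_congr rfl fun j _ => ?_
  rw [Matrix.mul_smul, Matrix.smul_mul, dgl_eps_geo hc, smul_comm]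

theorem iotV_dgl_geo {c : ℕ → ℂ} {q : ℂ} (hc : ∀ p, c (p + 1) = q * c p) (s : Fin N → ℂ) :
    iotV s * (dgl c : FM N) = q • (dgl c * iotV s) := by
  unfold iotV
  rw [Finset.mul_sum, Finset.sum_mul, Finset.smul_sum]
  refine Finset.sum_congr rfl fun j _ => ?_
  rw [Matrix.mul_smul, Matrix.smul_mul, iot_dgl_geo hc, smul_comm]

theorem kron_conjTranspose (A : FM n) (B : FM N) : (A ⊗ₖ B)ᴴ = Aᴴ ⊗ₖ Bᴴ :=
  Matrix.conjTranspose_kronecker _ _

/-- `B` is self-adjoint -/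
theorem Bm_adj (h : (w z).PosDef) (k0 : ℕ) (s : Fin N → ℂ) (v : Cm n) :
    (Bm w z s (fun j => (starRingEnd ℂ) (s j) * (w z).det ^ k0) v)ᴴ *
      (lam (w z)⁻¹ ⊗ₖ (dgl fun p => (w z).det ^ (1 + p * k0 + 1) : FM N)) =
    (lam (w z)⁻¹ ⊗ₖ (dgl fun p => (w z).det ^ (1 + p * k0 + 1) : FM N)) *
      Bm w z s (fun j => (starRingEnd ℂ) (s j) * (w z).det ^ k0) v := by
  set d := (w z).det with hd
  have hds : star d = d := det_star h
  have hc : ∀ p : ℕ, d ^ (1 + (p + 1) * k0 + 1) = d ^ k0 * d ^ (1 + p * k0 + 1) := by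
    intro p; ring
  have ht : (fun j => (starRingEnd ℂ) (s j) * d ^ k0) = d ^ k0 • star s := by
    ext j; simp [mul_comm]
  have h1 : (epsV s)ᴴ * (dgl fun p => d ^ (1 + p * k0 + 1) : FM N) =
      (dgl fun p => d ^ (1 + p * k0 + 1)) * iotV (d ^ k0 • star s) := by
    rw [epsV_conjTranspose, iotV_dgl_geo hc, iotV_smul, Matrix.mul_smul]
  have h2 : (iotV (d ^ k0 • star s))ᴴ * (dgl fun p => d ^ (1 + p * k0 + 1) : FM N) =
      (dgl fun p => d ^ (1 + p * k0 + 1)) * epsV s := by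
    rw [iotV_conjTranspose, star_smul, star_star, star_pow, hds, epsV_smul, Matrix.smul_mul,
      dgl_epsV_geo hc]
  have h3 : ((Complex.I • (cl w z v ⊗ₖ (1 : FM N)) : Matrix _ _ ℂ))ᴴ *
      (lam (w z)⁻¹ ⊗ₖ (dgl fun p => d ^ (1 + p * k0 + 1) : FM N)) =
      (lam (w z)⁻¹ ⊗ₖ (dgl fun p => d ^ (1 + p * k0 + 1) : FM N)) *
      (Complex.I • (cl w z v ⊗ₖ (1 : FM N))) := by
    rw [Matrix.conjTranspose_smul, kron_conjTranspose, Matrix.smul_mul, kron_mul, cl_adj h,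
      Matrix.conjTranspose_one, Matrix.one_mul, Matrix.mul_smul, kron_mul, Matrix.mul_one]
    rw [← neg_one_smul ℂ (lam (w z)⁻¹ * cl w z v), Matrix.smul_kronecker, smul_smul]
    congr 1
    simp
  rw [ht]
  unfold Bm
  rw [Matrix.conjTranspose_add, Matrix.add_mul, Matrix.mul_add, h3]
  congr 1
  rw [kron_conjTranspose, kron_mul, kron_mul, par_conjTranspose, par_lam,
    Matrix.conjTranspose_add, Matrix.add_mul, Matrix.mul_add, h1, h2, add_comm]

end point

section glob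

variable {n N r : ℕ} {Z : Type*} [TopologicalSpace Z] [ChartedSpace (Cm n) Z]
  [IsManifold 𝓘(ℂ, Cm n) ω Z] {w : D.FormM n Z}

/-- the total bundle `⊕_S Λ^{*,0} ⊗ (-k_S K)`, `k_S = 1 + |S| k₀` -/
abbrev Btot (hw : IsKahler w) (k0 N : ℕ) : Bun n Z (FI n × FI N) :=
  Bun.sum fun S : FI N => FB (1 + S.card * k0) hw

variable {hw : IsKahler w} {k0 : ℕ} {e e' : Chart n Z} {x : Z}

theorem Btot_tr : (Btot hw k0 N).tr e e' x =
    lam (jacM e e' x)ᵀ ⊗ₖ (dgl fun p => ((jacM e e' x).det⁻¹) ^ (1 + p * k0) : FM N) :=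
  blockDiagonal_eq (fun p => ((jacM e e' x).det⁻¹) ^ (1 + p * k0)) (lam (jacM e e' x)ᵀ)

theorem Btot_H (e : Chart n Z) (z : Cm n) : (Btot hw k0 N).H e z =
    lam (w e z)⁻¹ ⊗ₖ (dgl fun p => (w e z).det ^ (1 + p * k0 + 1) : FM N) :=
  blockDiagonal_eq (fun p => (w e z).det ^ (1 + p * k0 + 1)) (lam (w e z)⁻¹)

omit [IsManifold 𝓘(ℂ, Cm n) ω Z] in
/-- smooth section of `-k₀ K` -/
structure KSec (k0 : ℕ) (s : Chart n Z → Cm n → ℂ) : Prop where
  smooth : ∀ e x, At e x → ContDiffAt ℝ ∞ (s e) (e x)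
  change : ∀ e e' x, At e x → At e' x → (jacM e e' x).det ^ k0 * s e (e x) = s e' (e' x)

omit [IsManifold 𝓘(ℂ, Cm n) ω Z] in
/-- smooth field of type `(1,0)` -/
structure SField (X : D.VField n Z) : Prop where
  smooth : ∀ e x, At e x → VC ∞ (X e) (e x)
  change : ∀ e e' x, At e x → At e' x → X e' (e' x) = jacM e e' x *ᵥ X e (e x)

/-- the operator `B` in the charts -/
def BopX (k0 : ℕ) (w : D.FormM n Z) (s : Fin N → Chart n Z → Cm n → ℂ) (f : Fin r → Z → ℝ)
    (X : Fin r → D.VField n Z) : Chart n Z → Cm n → Matrix (FI n × FI N) (FI n × FI N) ℂ :=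
  fun e z => Bop k0 (w e) (fun j => s j e) (fun a y => f a (e.symm y)) (fun a => X a e) z

theorem BopX_change (hw : IsKahler w) {s : Fin N → Chart n Z → Cm n → ℂ}
    (hs : ∀ j, KSec k0 (s j)) (f : Fin r → Z → ℝ) {X : Fin r → D.VField n Z}
    (hX : ∀ a, SField (X a)) (hx : At e x) (hx' : At e' x) :
    BopX k0 w s f X e (e x) * (Btot hw k0 N).tr e e' x =
      (Btot hw k0 N).tr e e' x * BopX k0 w s f X e' (e' x) := by
  set J := jacM e e' x with hJ
  have hJ0 : J.det ≠ 0 := jacM_det_ne_zero hx hx'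
  have hc : ∀ p : ℕ, (J.det⁻¹) ^ (1 + (p + 1) * k0) = (J.det⁻¹) ^ k0 * (J.det⁻¹) ^ (1 + p * k0) := by
    intro p; ring
  have hq : (J.det⁻¹) ^ k0 * J.det ^ k0 = 1 := by
    rw [← mul_pow, inv_mul_cancel₀ hJ0, one_pow]
  -- the Koszul part
  have h1 : (fun j => s j e' (e' x)) = J.det ^ k0 • fun j => s j e (e x) := by
    ext j; exact ((hs j).change e e' x hx hx').symm
  have hdet := metric_det hw.toIsHermitian hx hx'
  have h2 : (fun j => dual k0 (w e) (s j e) (e x)) =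
      J.det ^ k0 • fun j => dual k0 (w e') (s j e') (e' x) := by
    ext j
    rw [Pi.smul_apply, smul_eq_mul, dual, dual, ← (hs j).change e e' x hx hx', hdet, map_mul,
      map_pow]
    rw [mul_pow, ← hJ]
    have h3 : ((‖J.det‖ ^ 2 : ℝ) : ℂ) = J.det * (starRingEnd ℂ) J.det := by
      rw [Complex.ofReal_pow, ← Complex.mul_conj']
    rw [h3, mul_pow]
    ring
  have h3 : epsV (fun j => s j e (e x)) * (dgl fun p => (J.det⁻¹) ^ (1 + p * k0) : FM N) =
      (dgl fun p => (J.det⁻¹) ^ (1 + p * k0)) * epsV (fun j => s j e' (e' x)) := by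
    rw [h1, epsV_smul, Matrix.mul_smul, dgl_epsV_geo hc, smul_smul, mul_comm, hq, one_smul]
  have h4 : iotV (fun j => dual k0 (w e) (s j e) (e x)) *
      (dgl fun p => (J.det⁻¹) ^ (1 + p * k0) : FM N) =
      (dgl fun p => (J.det⁻¹) ^ (1 + p * k0)) *
        iotV (fun j => dual k0 (w e') (s j e') (e' x)) := by
    rw [h2, iotV_smul, Matrix.smul_mul, iotV_dgl_geo hc, smul_smul, mul_comm, hq, one_smul]
  -- the Clifford part
  have h5 : vtot (fun a y => f a (e'.symm y)) (fun a => X a e') (e' x) =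
      J *ᵥ vtot (fun a y => f a (e.symm y)) (fun a => X a e) (e x) := by
    unfold vtot
    rw [Matrix.mulVec_sum]
    refine Finset.sum_congr rfl fun a _ => ?_
    show (f a (e'.symm (e' x)) : ℂ) • X a e' (e' x) =
      J *ᵥ ((f a (e.symm (e x)) : ℂ) • X a e (e x))
    rw [Matrix.mulVec_smul, (hX a).change e e' x hx hx', e.left_inv hx.2, e'.left_inv hx'.2]
  have h6 := cl_change (hw.change e e' x hx hx')
    (vtot (fun a y => f a (e.symm y)) (fun a => X a e) (e x))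
  unfold BopX Bop Bm
  rw [Btot_tr, Matrix.add_mul, Matrix.mul_add, kron_mul, kron_mul, Matrix.smul_mul,
    Matrix.mul_smul, kron_mul, kron_mul, Matrix.one_mul, Matrix.mul_one, Matrix.add_mul,
    Matrix.mul_add, ← hJ, h3, h4, par_lam, h5, h6]

theorem BopX_adj (hw : IsKahler w) (s : Fin N → Chart n Z → Cm n → ℂ) (f : Fin r → Z → ℝ)
    (X : Fin r → D.VField n Z) (hx : At e x) :
    (BopX k0 w s f X e (e x))ᴴ * (Btot hw k0 N).H e (e x) =
      (Btot hw k0 N).H e (e x) * BopX k0 w s f X e (e x) := by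
  rw [Btot_H]
  exact Bm_adj (hw.posDef e x hx) k0 _ _

omit [IsManifold 𝓘(ℂ, Cm n) ω Z] in
theorem BopX_smooth (hw : IsKahler w) {s : Fin N → Chart n Z → Cm n → ℂ}
    (hs : ∀ j, KSec k0 (s j)) {f : Fin r → Z → ℝ}
    (hf : ∀ a (e : Chart n Z) x, At e x → ContDiffAt ℝ ∞ (fun z => f a (e.symm z)) (e x))
    {X : Fin r → D.VField n Z} (hX : ∀ a, SField (X a)) (hx : At e x) :
    C2.MC ∞ (BopX k0 w s f X e) (e x) :=
  MC_Bop (kat hw hx) le_rfl (fun j => (hs j).smooth e x hx) (fun a => hf a e x hx)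
    (fun a => (hX a).smooth e x hx)

/-- `B` as an endomorphism of the total bundle -/
def BZ (hw : IsKahler w) {s : Fin N → Chart n Z → Cm n → ℂ} (hs : ∀ j, KSec k0 (s j))
    {f : Fin r → Z → ℝ}
    (hf : ∀ a (e : Chart n Z) x, At e x → ContDiffAt ℝ ∞ (fun z => f a (e.symm z)) (e x))
    {X : Fin r → D.VField n Z} (hX : ∀ a, SField (X a)) : ZOp (Btot hw k0 N) where
  M := BopX k0 w s f X
  smooth := fun _ _ hx => BopX_smooth hw hs hf hX hx
  change := fun _ _ _ hx hx' => BopX_change hw hs f hX hx hx'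

/-- `|s|² + |v|²` in the charts -/
def VX (k0 : ℕ) (w : D.FormM n Z) (s : Fin N → Chart n Z → Cm n → ℂ) (f : Fin r → Z → ℝ)
    (X : Fin r → D.VField n Z) (e : Chart n Z) (z : Cm n) : ℝ :=
  (∑ j, ‖s j e z‖ ^ 2) * (w e z).det.re ^ k0 +
    (vtot (fun a y => f a (e.symm y)) (fun a => X a e) z ⬝ᵥ
      flatV (w e) z (vtot (fun a y => f a (e.symm y)) (fun a => X a e) z)).re

omit [IsManifold 𝓘(ℂ, Cm n) ω Z] in
theorem BopX_sq (hw : IsKahler w) (s : Fin N → Chart n Z → Cm n → ℂ) (f : Fin r → Z → ℝ)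
    (X : Fin r → D.VField n Z) (hx : At e x) :
    BopX k0 w s f X e (e x) * BopX k0 w s f X e (e x) =
      (VX k0 w s f X e (e x) : ℂ) • 1 := by
  have hp := hw.posDef e x hx
  unfold BopX
  rw [Bop_sq]
  congr 1
  unfold VX
  rw [Complex.ofReal_add]
  congr 1
  · have hd : (w e (e x)).det = ((w e (e x)).det.re : ℂ) := by
      have := det_star hp
      exact (Complex.conj_eq_iff_re.1 this).symm
    rw [Complex.ofReal_mul, Complex.ofReal_pow, ← hd, Complex.ofReal_sum, dotProduct,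
      Finset.sum_mul]
    refine Finset.sum_congr rfl fun j _ => ?_
    rw [dual, Complex.ofReal_pow, ← Complex.conj_mul']
    ring
  · have h1 := pair_flat_nonneg hp
      (vtot (fun a y => f a (e.symm y)) (fun a => X a e) (e x))
    exact (Complex.eq_re_of_ofReal_le (r := 0) (by simpa using h1))

omit [IsManifold 𝓘(ℂ, Cm n) ω Z] in
theorem VX_nonneg (hw : IsKahler w) (s : Fin N → Chart n Z → Cm n → ℂ) (f : Fin r → Z → ℝ)
    (X : Fin r → D.VField n Z) (hx : At e x) : 0 ≤ VX k0 w s f X e (e x) := by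
  have hp := hw.posDef e x hx
  have h1 := pair_flat_nonneg hp
      (vtot (fun a y => f a (e.symm y)) (fun a => X a e) (e x))
  have h2 : 0 ≤ (w e (e x)).det.re := (Complex.le_def.1 hp.det_pos.le).1
  exact add_nonneg (mul_nonneg (Finset.sum_nonneg fun j _ => by positivity) (pow_nonneg h2 _))
    (Complex.le_def.1 h1).1

omit [IsManifold 𝓘(ℂ, Cm n) ω Z] in
/-- `|s|² + |v|² = 0` iff all `s_j` and `v` vanish -/
theorem VX_eq_zero (hw : IsKahler w) {s : Fin N → Chart n Z → Cm n → ℂ} {f : Fin r → Z → ℝ}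
    {X : Fin r → D.VField n Z} (hx : At e x) (h : VX k0 w s f X e (e x) = 0) :
    (∀ j, s j e (e x) = 0) ∧ vtot (fun a y => f a (e.symm y)) (fun a => X a e) (e x) = 0 := by
  have hp := hw.posDef e x hx
  have h1 := pair_flat_nonneg hp
      (vtot (fun a y => f a (e.symm y)) (fun a => X a e) (e x))
  have h2 : 0 < (w e (e x)).det.re := (Complex.lt_def.1 hp.det_pos).1
  have h3 : 0 ≤ ∑ j, ‖s j e (e x)‖ ^ 2 := Finset.sum_nonneg fun j _ => by positivity
  unfold VX at h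
  have h4 := (add_eq_zero_iff_of_nonneg (mul_nonneg h3 (pow_nonneg h2.le _))
    (Complex.le_def.1 h1).1).1 h
  constructor
  · have h5 := (mul_eq_zero.1 h4.1).resolve_right (pow_pos h2 _).ne'
    intro j
    have h6 := (Finset.sum_eq_zero_iff_of_nonneg fun j _ => by positivity).1 h5 j
      (Finset.mem_univ j)
    simpa using h6
  · by_contra hv
    have h5 := (Complex.lt_def.1 (pair_flat_pos hp hv)).1
    rw [h4.2] at h5
    exact lt_irrefl _ h5

end glob

end Vale.Agent.P299.IX.Kz
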