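import Vale.Agent.P272.K.C2.Mat
import Mathlib.LinearAlgebra.Matrix.PosDef
import Mathlib.Analysis.Matrix.Order
import Mathlib.LinearAlgebra.Matrix.Transvection
import Mathlib.Data.Finset.Sort

/-!
# P299, index theorem: the fermionic Fock space as matrices over `Finset (Fin n)`

`Fk n = Finset (Fin n) → ℂ`; the basis vector of `I = {i_1 < … < i_p}` stands for
`dz_{i_1} ∧ … ∧ dz_{i_p}`. `eps l` = exterior multiplication by `dz_l`, `iot l` = contraction with
`∂_l`, `lam J` = the action of the matrix `J` on the exterior algebra, `dlam A` = the derivation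
defined by `A`.
-/

open scoped ContDiff ComplexOrder Topology Matrix
open Vale.Agent.P272.K Vale.Agent.P272.K.C2

noncomputable section

namespace Vale.Agent.P299.IX

variable {n : ℕ}

/-- index set of the components of forms of type `(*,0)` -/
abbrev FI (n : ℕ) := Finset (Fin n)

/-- sign of `dz_l ∧ dz_I`: `(-1)^{#{j ∈ I, j < l}}` -/
def sg (l : Fin n) (I : FI n) : ℂ := (-1) ^ (I.filter (· < l)).card

/-- exterior multiplication by `dz_l` -/
def eps (l : Fin n) : Matrix (FI n) (FI n) ℂ :=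
  Matrix.of fun I K => if l ∉ K ∧ I = insert l K then sg l K else 0

/-- contraction with `∂/∂z_l` -/
def iot (l : Fin n) : Matrix (FI n) (FI n) ℂ := (eps l)ᵀ

namespace Fock

/-- the Fock space -/
abbrev Fk (n : ℕ) : Type := FI n → ℂ

/-- operators on the Fock space -/
abbrev FM (n : ℕ) : Type := Matrix (FI n) (FI n) ℂ

/-! ### signs -/

theorem sg_mul_self (l : Fin n) (I : Finset (Fin n)) : sg l I * sg l I = 1 := by
  unfold sg
  rw [← pow_add, ← two_mul, pow_mul]
  norm_num

theorem sg_insert {k l : Fin n} {I : Finset (Fin n)} (hk : k ∉ I) :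
    sg l (insert k I) = if k < l then -sg l I else sg l I := by
  unfold sg
  rw [Finset.filter_insert]
  split_ifs with h
  · rw [Finset.card_insert_of_notMem (fun h' => hk (Finset.mem_filter.1 h').1), pow_succ]
    ring
  · rfl

theorem sg_erase {k l : Fin n} {I : Finset (Fin n)} (hk : k ∈ I) :
    sg l (I.erase k) = if k < l then -sg l I else sg l I := by
  have h := sg_insert (l := l) (Finset.notMem_erase k I)
  rw [Finset.insert_erase hk] at h
  rw [h]
  split_ifs <;> simp

theorem sg_min {l : Fin n} {I : Finset (Fin n)} (h : ∀ j ∈ I, l ≤ j) : sg l I = 1 := by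
  unfold sg
  rw [Finset.filter_eq_empty_iff.2 fun j hj => not_lt.2 (h j hj)]
  simp

theorem sg_star (l : Fin n) (I : Finset (Fin n)) : star (sg l I) = sg l I := by
  unfold sg
  simp

/-! ### creation and annihilation -/

theorem eps_mulVec (l : Fin n) (a : Fk n) (I : Finset (Fin n)) :
    (eps l *ᵥ a) I = if l ∈ I then sg l I * a (I.erase l) else 0 := by
  unfold eps
  simp only [Matrix.mulVec, dotProduct, Matrix.of_apply]
  by_cases h : l ∈ I
  · rw [if_pos h, Finset.sum_eq_single (I.erase l)]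
    · rw [if_pos ⟨Finset.notMem_erase l I, (Finset.insert_erase h).symm⟩, sg_erase h,
        if_neg (lt_irrefl l)]
    · intro K _ hK
      rw [if_neg, zero_mul]
      rintro ⟨h1, h2⟩
      rw [h2, Finset.erase_insert h1] at hK
      exact hK rfl
    · intro h'
      exact absurd (Finset.mem_univ _) h'
  · rw [if_neg h]
    refine Finset.sum_eq_zero fun K _ => ?_
    rw [if_neg, zero_mul]
    rintro ⟨_, h2⟩
    rw [h2] at h
    exact h (Finset.mem_insert_self l K)

theorem iot_mulVec (l : Fin n) (a : Fk n) (K : Finset (Fin n)) :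
    (iot l *ᵥ a) K = if l ∈ K then 0 else sg l K * a (insert l K) := by
  unfold iot eps
  simp only [Matrix.mulVec, dotProduct, Matrix.transpose_apply, Matrix.of_apply]
  by_cases h : l ∈ K
  · simp [h]
  · simp [h]

theorem ext_mulVec {A B : FM n} (h : ∀ a : Fk n, A *ᵥ a = B *ᵥ a) : A = B := by
  ext I K
  have := congrFun (h (Pi.single K 1)) I
  simpa [Matrix.mulVec_single_one] using this

end Fock

open Fock

/-- `eps` anticommute -/
theorem eps_eps (k l : Fin n) : eps k * eps l = -(eps l * eps k) := by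
  refine ext_mulVec fun a => ?_
  ext I
  rw [Matrix.neg_mulVec, Pi.neg_apply, ← Matrix.mulVec_mulVec, ← Matrix.mulVec_mulVec,
    eps_mulVec, eps_mulVec, eps_mulVec, eps_mulVec]
  rcases lt_trichotomy k l with h | h | h
  · by_cases hk : k ∈ I <;> by_cases hl : l ∈ I
    · rw [if_pos hk, if_pos (Finset.mem_erase.2 ⟨h.ne', hl⟩), if_pos hl,
        if_pos (Finset.mem_erase.2 ⟨h.ne, hk⟩), sg_erase hk, sg_erase hl, if_pos h,
        if_neg (not_lt.2 h.le), Finset.erase_right_comm]
      ring
    · simp [hk, hl]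
    · simp [hk, hl]
    · simp [hk, hl]
  · subst h
    simp
  · by_cases hk : k ∈ I <;> by_cases hl : l ∈ I
    · rw [if_pos hk, if_pos (Finset.mem_erase.2 ⟨h.ne, hl⟩), if_pos hl,
        if_pos (Finset.mem_erase.2 ⟨h.ne', hk⟩), sg_erase hk, sg_erase hl, if_pos h,
        if_neg (not_lt.2 h.le), Finset.erase_right_comm]
      ring
    · simp [hk, hl]
    · simp [hk, hl]
    · simp [hk, hl]

theorem Fock.eps_sq (k : Fin n) : eps k * eps k = 0 := by
  have h := eps_eps k k
  have h2 : (2 : ℂ) • (eps k * eps k) = 0 := by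
    rw [two_smul]; nth_rewrite 1 [h]; simp
  simpa using h2

/-- `iot` anticommute -/
theorem iot_iot (k l : Fin n) : iot k * iot l = -(iot l * iot k) := by
  unfold iot
  rw [← Matrix.transpose_mul, ← Matrix.transpose_mul, eps_eps, Matrix.transpose_neg]

theorem Fock.iot_sq (k : Fin n) : iot k * iot k = 0 := by
  unfold iot
  rw [← Matrix.transpose_mul, Fock.eps_sq, Matrix.transpose_zero]

/-- the canonical anticommutation relation -/
theorem car (k l : Fin n) : iot k * eps l + eps l * iot k = if k = l then 1 else 0 := by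
  refine ext_mulVec fun a => ?_
  ext K
  rw [Matrix.add_mulVec, Pi.add_apply, ← Matrix.mulVec_mulVec, ← Matrix.mulVec_mulVec,
    iot_mulVec, eps_mulVec, eps_mulVec, iot_mulVec]
  rcases eq_or_ne k l with h | h
  · subst h
    rw [if_pos rfl, Matrix.one_mulVec]
    by_cases hk : k ∈ K
    · rw [if_pos hk, if_pos hk, if_neg (Finset.notMem_erase k K), Finset.insert_erase hk,
        sg_erase hk, if_neg (lt_irrefl k), zero_add, ← mul_assoc, sg_mul_self, one_mul]
    · rw [if_neg hk, if_neg hk, if_pos (Finset.mem_insert_self k K), Finset.erase_insert hk,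
        sg_insert hk, if_neg (lt_irrefl k), add_zero, ← mul_assoc, sg_mul_self, one_mul]
  · rw [if_neg h, Matrix.zero_mulVec, Pi.zero_apply]
    by_cases hk : k ∈ K
    · rw [if_pos hk]
      by_cases hl : l ∈ K
      · rw [if_pos hl, if_pos (Finset.mem_erase.2 ⟨h, hk⟩)]
        simp
      · rw [if_neg hl]
        simp
    · rw [if_neg hk]
      by_cases hl : l ∈ K
      · rw [if_pos hl, if_pos (Finset.mem_insert_of_mem hl), if_neg
          (fun h' => hk (Finset.mem_erase.1 h').2), sg_insert hk, sg_erase hl,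
          Finset.erase_insert_of_ne h]
        rcases lt_or_gt_of_ne h with h1 | h1
        · rw [if_pos h1, if_neg (not_lt.2 h1.le)]
          ring
        · rw [if_neg (not_lt.2 h1.le), if_pos h1]
          ring
      · rw [if_neg hl, if_neg (fun h' => ?_)]
        · simp
        · rcases Finset.mem_insert.1 h' with h1 | h1
          · exact h h1.symm
          · exact hl h1

theorem Fock.car' (k l : Fin n) : eps l * iot k = (if k = l then 1 else 0) - iot k * eps l := by
  rw [← car k l]; abel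

theorem Fock.eps_star (l : Fin n) : (eps l).map star = eps l := by
  ext I K
  simp only [Matrix.map_apply, eps, Matrix.of_apply]
  split_ifs
  · exact sg_star l K
  · simp

theorem eps_conjTranspose (l : Fin n) : (eps l)ᴴ = iot l := by
  rw [iot, Matrix.conjTranspose, Matrix.transpose_map, eps_star]

namespace Fock

theorem iot_conjTranspose (l : Fin n) : (iot l)ᴴ = eps l := by
  rw [← eps_conjTranspose, Matrix.conjTranspose_conjTranspose]

theorem eps_transpose (l : Fin n) : (eps l)ᵀ = iot l := rfl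

theorem iot_transpose (l : Fin n) : (iot l)ᵀ = eps l := Matrix.transpose_transpose _

/-- exterior multiplication by `Σ_l v_l dz_l` -/
def epsV (v : Fin n → ℂ) : FM n := ∑ l, v l • eps l

/-- contraction with `Σ_l v_l ∂_l` -/
def iotV (v : Fin n → ℂ) : FM n := ∑ l, v l • iot l

theorem epsV_add (v w : Fin n → ℂ) : epsV (v + w) = epsV v + epsV w := by
  simp [epsV, add_smul, Finset.sum_add_distrib]

theorem epsV_smul (c : ℂ) (v : Fin n → ℂ) : epsV (c • v) = c • epsV v := by
  simp [epsV, smul_smul, Finset.smul_sum]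

theorem iotV_add (v w : Fin n → ℂ) : iotV (v + w) = iotV v + iotV w := by
  simp [iotV, add_smul, Finset.sum_add_distrib]

theorem iotV_smul (c : ℂ) (v : Fin n → ℂ) : iotV (c • v) = c • iotV v := by
  simp [iotV, smul_smul, Finset.smul_sum]

theorem epsV_single (l : Fin n) : epsV (Pi.single l 1) = eps l := by
  unfold epsV
  rw [Finset.sum_eq_single l]
  · simp
  · intro b _ hb
    simp [hb]
  · simp

theorem iotV_single (l : Fin n) : iotV (Pi.single l 1) = iot l := by
  unfold iotV
  rw [Finset.sum_eq_single l]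
  · simp
  · intro b _ hb
    simp [hb]
  · simp

theorem epsV_sum {α : Type*} (s : Finset α) (f : α → Fin n → ℂ) :
    epsV (∑ a ∈ s, f a) = ∑ a ∈ s, epsV (f a) := by
  unfold epsV
  rw [Finset.sum_comm]
  refine Finset.sum_congr rfl fun l _ => ?_
  rw [Finset.sum_apply, Finset.sum_smul]

theorem iotV_sum {α : Type*} (s : Finset α) (f : α → Fin n → ℂ) :
    iotV (∑ a ∈ s, f a) = ∑ a ∈ s, iotV (f a) := by
  unfold iotV
  rw [Finset.sum_comm]
  refine Finset.sum_congr rfl fun l _ => ?_
  rw [Finset.sum_apply, Finset.sum_smul]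

theorem eps_epsV (l : Fin n) (v : Fin n → ℂ) : eps l * epsV v = -(epsV v * eps l) := by
  unfold epsV
  rw [Finset.mul_sum, Finset.sum_mul, ← Finset.sum_neg_distrib]
  refine Finset.sum_congr rfl fun k _ => ?_
  rw [Matrix.mul_smul, Matrix.smul_mul, eps_eps, smul_neg]

theorem epsV_epsV (v w : Fin n → ℂ) : epsV v * epsV w = -(epsV w * epsV v) := by
  conv_lhs => rw [epsV]
  conv_rhs => rw [epsV.eq_1 v]
  rw [Finset.mul_sum, Finset.sum_mul, ← Finset.sum_neg_distrib]
  refine Finset.sum_congr rfl fun k _ => ?_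
  rw [Matrix.mul_smul, Matrix.smul_mul, eps_epsV, smul_neg]

theorem epsV_epsV_mulVec (v w : Fin n → ℂ) (a : Fk n) :
    epsV v *ᵥ (epsV w *ᵥ a) = -(epsV w *ᵥ (epsV v *ᵥ a)) := by
  rw [Matrix.mulVec_mulVec, epsV_epsV, Matrix.neg_mulVec, Matrix.mulVec_mulVec]

theorem epsV_sq (v : Fin n → ℂ) : epsV v * epsV v = 0 := by
  have h := epsV_epsV v v
  have h2 : (2 : ℂ) • (epsV v * epsV v) = 0 := by
    rw [two_smul]; nth_rewrite 1 [h]; simp
  simpa using h2

theorem iot_iotV (l : Fin n) (v : Fin n → ℂ) : iot l * iotV v = -(iotV v * iot l) := by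
  unfold iotV
  rw [Finset.mul_sum, Finset.sum_mul, ← Finset.sum_neg_distrib]
  refine Finset.sum_congr rfl fun k _ => ?_
  rw [Matrix.mul_smul, Matrix.smul_mul, iot_iot, smul_neg]

theorem iotV_iotV (v w : Fin n → ℂ) : iotV v * iotV w = -(iotV w * iotV v) := by
  conv_lhs => rw [iotV]
  conv_rhs => rw [iotV.eq_1 v]
  rw [Finset.mul_sum, Finset.sum_mul, ← Finset.sum_neg_distrib]
  refine Finset.sum_congr rfl fun k _ => ?_
  rw [Matrix.mul_smul, Matrix.smul_mul, iot_iotV, smul_neg]

theorem iotV_sq (v : Fin n → ℂ) : iotV v * iotV v = 0 := by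
  have h := iotV_iotV v v
  have h2 : (2 : ℂ) • (iotV v * iotV v) = 0 := by
    rw [two_smul]; nth_rewrite 1 [h]; simp
  simpa using h2

theorem iot_epsV (k : Fin n) (v : Fin n → ℂ) : iot k * epsV v + epsV v * iot k = v k • 1 := by
  unfold epsV
  rw [Finset.mul_sum, Finset.sum_mul, ← Finset.sum_add_distrib, Finset.sum_eq_single k]
  · rw [Matrix.mul_smul, Matrix.smul_mul, ← smul_add, car, if_pos rfl]
  · intro l _ hl
    rw [Matrix.mul_smul, Matrix.smul_mul, ← smul_add, car, if_neg hl.symm, smul_zero]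
  · simp

theorem iotV_eps (v : Fin n → ℂ) (l : Fin n) : iotV v * eps l + eps l * iotV v = v l • 1 := by
  unfold iotV
  rw [Finset.mul_sum, Finset.sum_mul, ← Finset.sum_add_distrib, Finset.sum_eq_single l]
  · rw [Matrix.mul_smul, Matrix.smul_mul, ← smul_add, car, if_pos rfl]
  · intro k _ hk
    rw [Matrix.mul_smul, Matrix.smul_mul, ← smul_add, car, if_neg hk, smul_zero]
  · simp

theorem iotV_epsV (v w : Fin n → ℂ) : iotV v * epsV w + epsV w * iotV v = (v ⬝ᵥ w) • 1 := by
  conv_lhs => rw [iotV]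
  rw [Finset.mul_sum, Finset.sum_mul, ← Finset.sum_add_distrib, dotProduct, Finset.sum_smul]
  refine Finset.sum_congr rfl fun k _ => ?_
  rw [Matrix.mul_smul, Matrix.smul_mul, ← smul_add, iot_epsV, smul_smul]

theorem epsV_conjTranspose (v : Fin n → ℂ) : (epsV v)ᴴ = iotV (star v) := by
  unfold epsV iotV
  rw [Matrix.conjTranspose_sum]
  refine Finset.sum_congr rfl fun k _ => ?_
  rw [Matrix.conjTranspose_smul, eps_conjTranspose, Pi.star_apply]

theorem iotV_conjTranspose (v : Fin n → ℂ) : (iotV v)ᴴ = epsV (star v) := by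
  rw [← star_star v, ← epsV_conjTranspose, Matrix.conjTranspose_conjTranspose, star_star]

/-! ### basis vectors -/

/-- the basis vector `dz_I` -/
def ev (I : Finset (Fin n)) : Fk n := Pi.single I 1

theorem mulVec_ev (A : FM n) (I K : Finset (Fin n)) : (A *ᵥ ev I) K = A K I := by
  unfold ev
  rw [Matrix.mulVec_single_one]
  rfl

theorem ext_ev {A B : FM n} (h : ∀ I, A *ᵥ ev I = B *ᵥ ev I) : A = B := by
  ext K I
  rw [← mulVec_ev A I K, h, mulVec_ev]

theorem eps_ev_of_mem {l : Fin n} {I : Finset (Fin n)} (h : l ∈ I) : eps l *ᵥ ev I = 0 := by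
  ext K
  rw [eps_mulVec]
  split_ifs with h1
  · have : K.erase l ≠ I := by
      intro h2
      rw [← h2] at h
      exact Finset.notMem_erase l K h
    simp [ev, this]
  · rfl

theorem eps_ev_of_notMem {l : Fin n} {I : Finset (Fin n)} (h : l ∉ I) :
    eps l *ᵥ ev I = sg l I • ev (insert l I) := by
  ext K
  rw [eps_mulVec, Pi.smul_apply, smul_eq_mul]
  by_cases h1 : K = insert l I
  · subst h1
    rw [if_pos (Finset.mem_insert_self l I), Finset.erase_insert h, sg_insert h,
      if_neg (lt_irrefl l)]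
    simp [ev]
  · simp only [ev, Pi.single_apply, if_neg h1, mul_zero, mul_ite, mul_one]
    split_ifs with h2 h3
    · exfalso
      apply h1
      rw [← h3, Finset.insert_erase h2]
    · rfl
    · rfl

theorem eps_ev_min {l : Fin n} {I : Finset (Fin n)} (h : ∀ j ∈ I, l < j) :
    eps l *ᵥ ev I = ev (insert l I) := by
  rw [eps_ev_of_notMem (fun h' => lt_irrefl l (h l h')), sg_min (fun j hj => (h j hj).le),
    one_smul]

theorem iot_ev_of_notMem {l : Fin n} {I : Finset (Fin n)} (h : l ∉ I) : iot l *ᵥ ev I = 0 := by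
  ext K
  rw [iot_mulVec]
  split_ifs with h1
  · rfl
  · have : insert l K ≠ I := by
      intro h2
      rw [← h2] at h
      exact h (Finset.mem_insert_self l K)
    simp [ev, this]

theorem iot_ev_insert {l : Fin n} {I : Finset (Fin n)} (h : l ∉ I) :
    iot l *ᵥ ev (insert l I) = sg l I • ev I := by
  have h1 := congrArg (· *ᵥ ev I) (car l l)
  simp only [Matrix.add_mulVec, ← Matrix.mulVec_mulVec, if_true, Matrix.one_mulVec,
    eps_ev_of_notMem h, iot_ev_of_notMem h, Matrix.mulVec_zero, add_zero,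
    Matrix.mulVec_smul] at h1
  rw [← one_smul ℂ (iot l *ᵥ ev (insert l I)), ← sg_mul_self l I, mul_smul, h1]

theorem iot_ev_empty (l : Fin n) : iot l *ᵥ ev ∅ = 0 := iot_ev_of_notMem (Finset.notMem_empty l)

theorem iotV_ev_empty (v : Fin n → ℂ) : iotV v *ᵥ ev ∅ = 0 := by
  unfold iotV
  rw [Matrix.sum_mulVec]
  refine Finset.sum_eq_zero fun l _ => ?_
  rw [Matrix.smul_mulVec, iot_ev_empty, smul_zero]

theorem eps_mulVec_empty (l : Fin n) (a : Fk n) : (eps l *ᵥ a) ∅ = 0 := by
  rw [eps_mulVec, if_neg (Finset.notMem_empty l)]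

theorem epsV_mulVec_empty (v : Fin n → ℂ) (a : Fk n) : (epsV v *ᵥ a) ∅ = 0 := by
  unfold epsV
  rw [Matrix.sum_mulVec, Finset.sum_apply]
  refine Finset.sum_eq_zero fun l _ => ?_
  rw [Matrix.smul_mulVec, Pi.smul_apply, eps_mulVec_empty, smul_zero]

/-! ### second quantisation -/

section qz

variable {κ : Type*} [Fintype κ]

/-- apply the operators `E i`, `i` in the list, to `v` -/
def qL (E : Fin n → Matrix κ κ ℂ) (v : κ → ℂ) : List (Fin n) → κ → ℂ
  | [] => v
  | i :: t => E i *ᵥ qL E v t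

/-- the map with `e_∅ ↦ v` that intertwines `eps l` and `E l` -/
def qz (E : Fin n → Matrix κ κ ℂ) (v : κ → ℂ) : Matrix κ (Finset (Fin n)) ℂ :=
  Matrix.of fun K I => qL E v (I.sort (· ≤ ·)) K

omit [Fintype κ] in
theorem mulVec_ev' (A : Matrix κ (Finset (Fin n)) ℂ) (I : Finset (Fin n)) (K : κ) :
    (A *ᵥ ev I) K = A K I := by
  unfold ev
  rw [Matrix.mulVec_single_one]
  rfl

omit [Fintype κ] in
theorem ext_ev' {A B : Matrix κ (Finset (Fin n)) ℂ} (h : ∀ I, A *ᵥ ev I = B *ᵥ ev I) :
    A = B := by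
  ext K I
  rw [← mulVec_ev' A I K, h, mulVec_ev']

variable (E : Fin n → Matrix κ κ ℂ) (v : κ → ℂ)

theorem qz_ev (I : Finset (Fin n)) : qz E v *ᵥ ev I = qL E v (I.sort (· ≤ ·)) := by
  ext K
  rw [mulVec_ev']
  rfl

theorem qz_ev_empty : qz E v *ᵥ ev ∅ = v := by
  rw [qz_ev, Finset.sort_empty]
  rfl

theorem qz_ev_insert {i : Fin n} {I : Finset (Fin n)} (h : ∀ j ∈ I, i < j) :
    qz E v *ᵥ ev (insert i I) = E i *ᵥ (qz E v *ᵥ ev I) := by
  rw [qz_ev, qz_ev, Finset.sort_insert (r := (· ≤ ·)) (fun b hb => (h b hb).le)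
    (fun h' => lt_irrefl i (h i h'))]
  rfl

/-- intertwining on a basis -/
theorem qz_eps_ev (hE : ∀ i j, E i * E j = -(E j * E i)) (I : Finset (Fin n)) :
    ∀ l, qz E v *ᵥ (eps l *ᵥ ev I) = E l *ᵥ (qz E v *ᵥ ev I) := by
  have hsq : ∀ i, E i * E i = 0 := by
    intro i
    have h := hE i i
    have h2 : (2 : ℂ) • (E i * E i) = 0 := by
      rw [two_smul]; nth_rewrite 1 [h]; simp
    simpa using h2
  have hE' : ∀ (i j : Fin n) (a : κ → ℂ), E i *ᵥ (E j *ᵥ a) = -(E j *ᵥ (E i *ᵥ a)) := by
    intro i j a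
    rw [Matrix.mulVec_mulVec, hE, Matrix.neg_mulVec, Matrix.mulVec_mulVec]
  induction I using Finset.induction_on_min with
  | empty =>
    intro l
    rw [eps_ev_min (by simp), qz_ev_insert E v (by simp)]
  | insert i I hi ih =>
    intro l
    rcases lt_trichotomy l i with h | h | h
    · have hl : ∀ j ∈ insert i I, l < j := by
        intro j hj
        rcases Finset.mem_insert.1 hj with h1 | h1
        · rw [h1]; exact h
        · exact h.trans (hi j h1)
      rw [eps_ev_min hl, qz_ev_insert E v hl]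
    · subst h
      rw [eps_ev_of_mem (Finset.mem_insert_self l I), Matrix.mulVec_zero, qz_ev_insert E v hi,
        Matrix.mulVec_mulVec, hsq, Matrix.zero_mulVec]
    · -- `l > i`
      have h1 : eps l *ᵥ ev (insert i I) = -(eps i *ᵥ (eps l *ᵥ ev I)) := by
        rw [← eps_ev_min hi, Matrix.mulVec_mulVec, eps_eps, Matrix.neg_mulVec,
          Matrix.mulVec_mulVec]
      have h2 : qz E v *ᵥ (eps i *ᵥ (eps l *ᵥ ev I)) =
          E i *ᵥ (qz E v *ᵥ (eps l *ᵥ ev I)) := by
        by_cases hl : l ∈ I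
        · rw [eps_ev_of_mem hl]
          simp
        · rw [eps_ev_of_notMem hl]
          have hi' : ∀ j ∈ insert l I, i < j := by
            intro j hj
            rcases Finset.mem_insert.1 hj with h1 | h1
            · rw [h1]; exact h
            · exact hi j h1
          rw [Matrix.mulVec_smul, Matrix.mulVec_smul, Matrix.mulVec_smul, Matrix.mulVec_smul,
            eps_ev_min hi', qz_ev_insert E v hi']
      rw [h1, Matrix.mulVec_neg, h2, ih l, qz_ev_insert E v hi, hE', neg_neg]

theorem qz_eps (hE : ∀ i j, E i * E j = -(E j * E i)) (l : Fin n) :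
    qz E v * eps l = E l * qz E v := by
  refine ext_ev' fun I => ?_
  rw [← Matrix.mulVec_mulVec, ← Matrix.mulVec_mulVec, qz_eps_ev E v hE]

/-- uniqueness -/
theorem ext_eps {E : Fin n → Matrix κ κ ℂ} {A B : Matrix κ (Finset (Fin n)) ℂ}
    (h0 : A *ᵥ ev ∅ = B *ᵥ ev ∅) (hA : ∀ l, A * eps l = E l * A) (hB : ∀ l, B * eps l = E l * B) :
    A = B := by
  refine ext_ev' fun I => ?_
  induction I using Finset.induction_on_min with
  | empty => exact h0
  | insert i I hi ih =>
    rw [← eps_ev_min hi, Matrix.mulVec_mulVec, hA, ← Matrix.mulVec_mulVec, ih,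
      Matrix.mulVec_mulVec, ← hB, Matrix.mulVec_mulVec]

end qz

end Fock

/-- the action of `J` on the exterior algebra: `dz_{i_1} ∧ … ∧ dz_{i_p} ↦ J dz_{i_1} ∧ … ` -/
def lam (J : Matrix (Fin n) (Fin n) ℂ) : FM n := qz (fun l => epsV fun p => J p l) (ev ∅)

namespace Fock

theorem lam_ev_empty (J : Matrix (Fin n) (Fin n) ℂ) : lam J *ᵥ ev ∅ = ev ∅ := qz_ev_empty _ _

theorem lam_ev_insert (J : Matrix (Fin n) (Fin n) ℂ) {i : Fin n} {I : Finset (Fin n)}
    (h : ∀ j ∈ I, i < j) :
    lam J *ᵥ ev (insert i I) = epsV (fun p => J p i) *ᵥ (lam J *ᵥ ev I) := qz_ev_insert _ _ h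

end Fock

/-- `lam J` intertwines exterior multiplications -/
theorem lam_eps (J : Matrix (Fin n) (Fin n) ℂ) (l : Fin n) :
    lam J * eps l = (∑ p, J p l • eps p) * lam J := qz_eps _ _ (fun _ _ => epsV_epsV _ _) l

namespace Fock

/-- `lam J` intertwines exterior multiplications -/
theorem lam_eps_col (J : Matrix (Fin n) (Fin n) ℂ) (l : Fin n) :
    lam J * eps l = epsV (fun p => J p l) * lam J := lam_eps J l

theorem lam_eps_mulVec (J : Matrix (Fin n) (Fin n) ℂ) (l : Fin n) (a : Fk n) :
    lam J *ᵥ (eps l *ᵥ a) = epsV (fun p => J p l) *ᵥ (lam J *ᵥ a) := by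
  rw [Matrix.mulVec_mulVec, lam_eps_col, ← Matrix.mulVec_mulVec]

theorem mulVec_eq_sum_smul (J : Matrix (Fin n) (Fin n) ℂ) (v : Fin n → ℂ) :
    J *ᵥ v = ∑ l, v l • fun p => J p l := by
  ext p
  rw [Matrix.mulVec, dotProduct, Finset.sum_apply]
  refine Finset.sum_congr rfl fun l _ => ?_
  rw [Pi.smul_apply, smul_eq_mul, mul_comm]

theorem vecMul_eq_sum_smul (J : Matrix (Fin n) (Fin n) ℂ) (v : Fin n → ℂ) :
    v ᵥ* J = ∑ p, v p • fun l => J p l := by
  ext l
  rw [Matrix.vecMul, dotProduct, Finset.sum_apply]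
  refine Finset.sum_congr rfl fun p _ => ?_
  rw [Pi.smul_apply, smul_eq_mul]

theorem lam_epsV (J : Matrix (Fin n) (Fin n) ℂ) (v : Fin n → ℂ) :
    lam J * epsV v = epsV (J *ᵥ v) * lam J := by
  rw [mulVec_eq_sum_smul, epsV_sum, Finset.sum_mul]
  conv_lhs => rw [epsV]
  rw [Finset.mul_sum]
  refine Finset.sum_congr rfl fun l _ => ?_
  rw [Matrix.mul_smul, lam_eps_col, epsV_smul, Matrix.smul_mul]

/-- `lam J` intertwines contractions -/
theorem iot_lam_row (J : Matrix (Fin n) (Fin n) ℂ) (p : Fin n) :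
    iot p * lam J = lam J * iotV (fun l => J p l) := by
  refine ext_ev fun I => ?_
  rw [← Matrix.mulVec_mulVec, ← Matrix.mulVec_mulVec]
  induction I using Finset.induction_on_min with
  | empty => rw [lam_ev_empty, iot_ev_empty, iotV_ev_empty, Matrix.mulVec_zero]
  | insert i I hi ih =>
    have h1 := congrArg (· *ᵥ (lam J *ᵥ ev I)) (iot_epsV p (fun q => J q i))
    simp only [Matrix.add_mulVec, ← Matrix.mulVec_mulVec, Matrix.smul_mulVec,
      Matrix.one_mulVec] at h1
    have h2 := congrArg (· *ᵥ ev I) (iotV_eps (fun l => J p l) i)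
    simp only [Matrix.add_mulVec, ← Matrix.mulVec_mulVec, Matrix.smul_mulVec,
      Matrix.one_mulVec] at h2
    rw [lam_ev_insert J hi, ← eps_ev_min hi]
    rw [eq_sub_of_add_eq h1, eq_sub_of_add_eq h2, ih, Matrix.mulVec_sub, Matrix.mulVec_smul,
      lam_eps_mulVec]

end Fock

theorem iot_lam (J : Matrix (Fin n) (Fin n) ℂ) (p : Fin n) :
    iot p * lam J = lam J * ∑ l, J p l • iot l := iot_lam_row J p

namespace Fock

theorem iotV_lam (J : Matrix (Fin n) (Fin n) ℂ) (v : Fin n → ℂ) :
    iotV v * lam J = lam J * iotV (v ᵥ* J) := by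
  rw [vecMul_eq_sum_smul, iotV_sum, Finset.mul_sum]
  conv_lhs => rw [iotV]
  rw [Finset.sum_mul]
  refine Finset.sum_congr rfl fun l _ => ?_
  rw [Matrix.smul_mul, iot_lam_row, iotV_smul, Matrix.mul_smul]

theorem lam_apply_empty (J : Matrix (Fin n) (Fin n) ℂ) (I : Finset (Fin n)) :
    lam J ∅ I = if I = ∅ then 1 else 0 := by
  rw [← mulVec_ev (lam J) I ∅]
  induction I using Finset.induction_on_min with
  | empty => rw [lam_ev_empty]; simp [ev]
  | insert i I hi ih =>
    rw [lam_ev_insert J hi, epsV_mulVec_empty, if_neg (Finset.insert_ne_empty i I)]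

/-- uniqueness of the second quantisation -/
theorem eq_lam {A : FM n} {J : Matrix (Fin n) (Fin n) ℂ} (h0 : A *ᵥ ev ∅ = ev ∅)
    (h : ∀ l, A * eps l = epsV (fun p => J p l) * A) : A = lam J :=
  ext_eps (by rw [h0, lam_ev_empty]) h (lam_eps_col J)

end Fock

theorem lam_mul (J J' : Matrix (Fin n) (Fin n) ℂ) : lam (J * J') = lam J * lam J' := by
  refine (eq_lam ?_ fun l => ?_).symm
  · rw [← Matrix.mulVec_mulVec, lam_ev_empty, lam_ev_empty]
  · rw [Matrix.mul_assoc, lam_eps_col, ← Matrix.mul_assoc, lam_epsV, Matrix.mul_assoc]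
    rfl

theorem lam_one : lam (1 : Matrix (Fin n) (Fin n) ℂ) = 1 := by
  refine (eq_lam ?_ fun l => ?_).symm
  · rw [Matrix.one_mulVec]
  · rw [Matrix.one_mul, Matrix.mul_one]
    have : (fun p => (1 : Matrix (Fin n) (Fin n) ℂ) p l) = Pi.single l 1 := by
      ext p
      rw [Matrix.one_apply, Pi.single_apply]
    rw [this, epsV_single]

theorem lam_conjTranspose (J : Matrix (Fin n) (Fin n) ℂ) : lam Jᴴ = (lam J)ᴴ := by
  symm
  refine eq_lam ?_ fun l => ?_
  · ext K
    rw [mulVec_ev, Matrix.conjTranspose_apply, lam_apply_empty]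
    simp only [ev, Pi.single_apply]
    split_ifs <;> simp
  · rw [← iot_conjTranspose, ← Matrix.conjTranspose_mul, iot_lam_row, Matrix.conjTranspose_mul,
      iotV_conjTranspose]
    rfl

namespace Fock

theorem epsV_transpose (v : Fin n → ℂ) : (epsV v)ᵀ = iotV v := by
  unfold iotV epsV
  rw [Matrix.transpose_sum]
  refine Finset.sum_congr rfl fun k _ => ?_
  rw [Matrix.transpose_smul, eps_transpose]

theorem iotV_transpose (v : Fin n → ℂ) : (iotV v)ᵀ = epsV v := by
  rw [← epsV_transpose, Matrix.transpose_transpose]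

theorem lam_transpose (J : Matrix (Fin n) (Fin n) ℂ) : (lam J)ᵀ = lam Jᵀ := by
  refine eq_lam ?_ fun l => ?_
  · ext K
    rw [mulVec_ev, Matrix.transpose_apply, lam_apply_empty]
    simp only [ev, Pi.single_apply]
  · rw [← iot_transpose, ← Matrix.transpose_mul, iot_lam_row, Matrix.transpose_mul,
      iotV_transpose]
    rfl

theorem lam_map_star (J : Matrix (Fin n) (Fin n) ℂ) : (lam J).map star = lam (J.map star) := by
  have h : (lam J).map star = ((lam J)ᴴ)ᵀ := by
    ext a b
    simp [Matrix.conjTranspose_apply]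
  rw [h, ← lam_conjTranspose, lam_transpose]
  congr 1

theorem lam_inv {J : Matrix (Fin n) (Fin n) ℂ} (h : IsUnit J.det) : (lam J)⁻¹ = lam J⁻¹ := by
  apply Matrix.inv_eq_right_inv
  rw [← lam_mul, Matrix.mul_nonsing_inv _ h, lam_one]

theorem lam_mul_inv {J : Matrix (Fin n) (Fin n) ℂ} (h : IsUnit J.det) :
    lam J * lam J⁻¹ = 1 := by
  rw [← lam_mul, Matrix.mul_nonsing_inv _ h, lam_one]

theorem lam_inv_mul {J : Matrix (Fin n) (Fin n) ℂ} (h : IsUnit J.det) :
    lam J⁻¹ * lam J = 1 := by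
  rw [← lam_mul, Matrix.nonsing_inv_mul _ h, lam_one]

theorem lam_isUnit {J : Matrix (Fin n) (Fin n) ℂ} (h : IsUnit J.det) : IsUnit (lam J) :=
  ⟨⟨lam J, lam J⁻¹, lam_mul_inv h, lam_inv_mul h⟩, rfl⟩

theorem lam_isHermitian {H : Matrix (Fin n) (Fin n) ℂ} (h : H.IsHermitian) :
    (lam H).IsHermitian := by
  rw [Matrix.IsHermitian, ← lam_conjTranspose, h.eq]

open scoped MatrixOrder in
theorem lam_posSemidef {H : Matrix (Fin n) (Fin n) ℂ} (h : H.PosSemidef) :
    (lam H).PosSemidef := by
  obtain ⟨a, ha⟩ := CStarAlgebra.nonneg_iff_eq_star_mul_self.mp h.nonneg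
  rw [ha, lam_mul, Matrix.star_eq_conjTranspose, lam_conjTranspose]
  exact Matrix.posSemidef_conjTranspose_mul_self _

end Fock

theorem lam_posDef {H : Matrix (Fin n) (Fin n) ℂ} (h : H.PosDef) : (lam H).PosDef :=
  (lam_posSemidef h.posSemidef).posDef_iff_isUnit.2
    (lam_isUnit ((Matrix.isUnit_iff_isUnit_det _).1 h.isUnit))

/-! ### the derivation `dlam` -/

/-- the derivation of the exterior algebra defined by `A` -/
def dlam (A : Matrix (Fin n) (Fin n) ℂ) : Matrix (FI n) (FI n) ℂ :=
  ∑ a, ∑ l, A a l • (eps a * iot l)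

namespace Fock

theorem dlam_add (A B : Matrix (Fin n) (Fin n) ℂ) : dlam (A + B) = dlam A + dlam B := by
  simp [dlam, add_smul, Finset.sum_add_distrib]

theorem dlam_smul (c : ℂ) (A : Matrix (Fin n) (Fin n) ℂ) : dlam (c • A) = c • dlam A := by
  simp [dlam, smul_smul, Finset.smul_sum]

theorem dlam_zero : dlam (0 : Matrix (Fin n) (Fin n) ℂ) = 0 := by
  simp [dlam]

theorem dlam_neg (A : Matrix (Fin n) (Fin n) ℂ) : dlam (-A) = -dlam A := by
  simp [dlam]

theorem dlam_sub (A B : Matrix (Fin n) (Fin n) ℂ) : dlam (A - B) = dlam A - dlam B := by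
  rw [sub_eq_add_neg, dlam_add, dlam_neg, sub_eq_add_neg]

theorem dlam_sum {α : Type*} (s : Finset α) (f : α → Matrix (Fin n) (Fin n) ℂ) :
    dlam (∑ a ∈ s, f a) = ∑ a ∈ s, dlam (f a) := by
  classical
  induction s using Finset.induction_on with
  | empty => simp [dlam_zero]
  | insert a s ha ih => rw [Finset.sum_insert ha, Finset.sum_insert ha, dlam_add, ih]

/-- `dlam A = Σ_l epsV (A e_l) * iot l` -/
theorem dlam_eq (A : Matrix (Fin n) (Fin n) ℂ) :
    dlam A = ∑ l, epsV (fun a => A a l) * iot l := by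
  unfold dlam epsV
  rw [Finset.sum_comm]
  refine Finset.sum_congr rfl fun l _ => ?_
  rw [Finset.sum_mul]
  refine Finset.sum_congr rfl fun a _ => ?_
  rw [Matrix.smul_mul]

/-- `dlam A = Σ_a eps a * iotV (row a of A)` -/
theorem dlam_eq' (A : Matrix (Fin n) (Fin n) ℂ) :
    dlam A = ∑ a, eps a * iotV (fun l => A a l) := by
  unfold dlam iotV
  refine Finset.sum_congr rfl fun l _ => ?_
  rw [Finset.mul_sum]
  refine Finset.sum_congr rfl fun a _ => ?_
  rw [Matrix.mul_smul]

theorem dlam_eps (A : Matrix (Fin n) (Fin n) ℂ) (l : Fin n) :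
    dlam A * eps l = eps l * dlam A + epsV (fun p => A p l) := by
  rw [dlam_eq, Finset.sum_mul, Finset.mul_sum]
  have h1 : ∀ m, epsV (fun a => A a m) * iot m * eps l =
      eps l * (epsV (fun a => A a m) * iot m) + if m = l then epsV (fun a => A a m) else 0 := by
    intro m
    rw [Matrix.mul_assoc, eq_sub_of_add_eq (car m l), Matrix.mul_sub, ← Matrix.mul_assoc,
      ← Matrix.mul_assoc, eps_epsV, Matrix.neg_mul]
    split_ifs with h
    · rw [Matrix.mul_one]; abel
    · rw [Matrix.mul_zero]; abel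
  rw [Finset.sum_congr rfl fun m _ => h1 m, Finset.sum_add_distrib]
  simp

theorem dlam_eps_sub (A : Matrix (Fin n) (Fin n) ℂ) (l : Fin n) :
    dlam A * eps l - eps l * dlam A = ∑ p, A p l • eps p := by
  rw [dlam_eps]
  show _ = epsV _
  abel

theorem dlam_epsV (A : Matrix (Fin n) (Fin n) ℂ) (v : Fin n → ℂ) :
    dlam A * epsV v = epsV v * dlam A + epsV (A *ᵥ v) := by
  rw [mulVec_eq_sum_smul, epsV_sum]
  conv_lhs => rw [epsV]
  conv_rhs => rw [epsV.eq_1 v]
  rw [Finset.mul_sum, Finset.sum_mul, ← Finset.sum_add_distrib]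
  refine Finset.sum_congr rfl fun l _ => ?_
  rw [Matrix.mul_smul, dlam_eps, smul_add, Matrix.smul_mul, epsV_smul]

theorem iot_dlam (A : Matrix (Fin n) (Fin n) ℂ) (p : Fin n) :
    iot p * dlam A = dlam A * iot p + iotV (fun l => A p l) := by
  rw [dlam_eq', Finset.sum_mul, Finset.mul_sum]
  have h1 : ∀ m, iot p * (eps m * iotV fun l => A m l) =
      (eps m * iotV fun l => A m l) * iot p + if p = m then iotV (fun l => A m l) else 0 := by
    intro m
    rw [← Matrix.mul_assoc, eq_sub_of_add_eq (car p m), Matrix.sub_mul, Matrix.mul_assoc,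
      iot_iotV, Matrix.mul_neg, ← Matrix.mul_assoc]
    split_ifs with h
    · rw [Matrix.one_mul]; abel
    · rw [Matrix.zero_mul]; abel
  rw [Finset.sum_congr rfl fun m _ => h1 m, Finset.sum_add_distrib]
  simp

theorem iotV_dlam (A : Matrix (Fin n) (Fin n) ℂ) (v : Fin n → ℂ) :
    iotV v * dlam A = dlam A * iotV v + iotV (v ᵥ* A) := by
  rw [vecMul_eq_sum_smul, iotV_sum]
  conv_lhs => rw [iotV]
  conv_rhs => rw [iotV.eq_1 v]
  rw [Finset.mul_sum, Finset.sum_mul, ← Finset.sum_add_distrib]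
  refine Finset.sum_congr rfl fun l _ => ?_
  rw [Matrix.smul_mul, iot_dlam, smul_add, Matrix.mul_smul, iotV_smul]

theorem dlam_ev_empty (A : Matrix (Fin n) (Fin n) ℂ) : dlam A *ᵥ ev ∅ = 0 := by
  rw [dlam_eq, Matrix.sum_mulVec]
  refine Finset.sum_eq_zero fun l _ => ?_
  rw [← Matrix.mulVec_mulVec, iot_ev_empty, Matrix.mulVec_zero]

theorem dlam_conjTranspose (A : Matrix (Fin n) (Fin n) ℂ) : (dlam A)ᴴ = dlam Aᴴ := by
  unfold dlam
  rw [Matrix.conjTranspose_sum, Finset.sum_comm]
  refine Finset.sum_congr rfl fun a _ => ?_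
  rw [Matrix.conjTranspose_sum]
  refine Finset.sum_congr rfl fun l _ => ?_
  rw [Matrix.conjTranspose_smul, Matrix.conjTranspose_mul, eps_conjTranspose, iot_conjTranspose,
    Matrix.conjTranspose_apply]

theorem dlam_transpose (A : Matrix (Fin n) (Fin n) ℂ) : (dlam A)ᵀ = dlam Aᵀ := by
  unfold dlam
  rw [Matrix.transpose_sum, Finset.sum_comm]
  refine Finset.sum_congr rfl fun a _ => ?_
  rw [Matrix.transpose_sum]
  refine Finset.sum_congr rfl fun l _ => ?_
  rw [Matrix.transpose_smul, Matrix.transpose_mul, eps_transpose, iot_transpose,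
    Matrix.transpose_apply]

/-- the operators with `X e_∅ = Y e_∅` and the same commutators with the `eps l` agree -/
theorem ext_comm {X Y : FM n} (h0 : X *ᵥ ev ∅ = Y *ᵥ ev ∅)
    (h : ∀ l, X * eps l - eps l * X = Y * eps l - eps l * Y) : X = Y := by
  have : X - Y = 0 := by
    refine ext_eps (E := eps) ?_ (fun l => ?_) (fun l => ?_)
    · rw [Matrix.sub_mulVec, h0, sub_self, Matrix.zero_mulVec]
    · rw [Matrix.sub_mul, Matrix.mul_sub]
      have := h l
      rw [sub_eq_sub_iff_add_eq_add] at this ⊢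
      rw [this]
      abel
    · simp
  exact sub_eq_zero.1 this

/-- `lam J` conjugates derivations -/
theorem lam_dlam {J A B : Matrix (Fin n) (Fin n) ℂ} (h : J * A = B * J) :
    lam J * dlam A = dlam B * lam J := by
  have h2 : ∀ l, J *ᵥ (fun p => A p l) = B *ᵥ (fun p => J p l) := by
    intro l
    ext p
    exact congrFun (congrFun h p) l
  refine ext_ev fun I => ?_
  rw [← Matrix.mulVec_mulVec, ← Matrix.mulVec_mulVec]
  induction I using Finset.induction_on_min with
  | empty => rw [dlam_ev_empty, lam_ev_empty, dlam_ev_empty, Matrix.mulVec_zero]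
  | insert i I hi ih =>
    have h3 : dlam A *ᵥ (eps i *ᵥ ev I) = eps i *ᵥ (dlam A *ᵥ ev I) +
        epsV (fun p => A p i) *ᵥ ev I := by
      rw [Matrix.mulVec_mulVec, dlam_eps, Matrix.add_mulVec, Matrix.mulVec_mulVec]
    have h4 : dlam B *ᵥ (epsV (fun p => J p i) *ᵥ (lam J *ᵥ ev I)) =
        epsV (fun p => J p i) *ᵥ (dlam B *ᵥ (lam J *ᵥ ev I)) +
        epsV (B *ᵥ (fun p => J p i)) *ᵥ (lam J *ᵥ ev I) := by
      rw [Matrix.mulVec_mulVec, dlam_epsV, Matrix.add_mulVec]
      congr 1
      exact (Matrix.mulVec_mulVec _ _ _).symm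
    have h5 : lam J *ᵥ (epsV (fun p => A p i) *ᵥ ev I) =
        epsV (J *ᵥ fun p => A p i) *ᵥ (lam J *ᵥ ev I) := by
      rw [Matrix.mulVec_mulVec, lam_epsV, ← Matrix.mulVec_mulVec]
    rw [lam_ev_insert J hi, ← eps_ev_min hi, h3, h4, Matrix.mulVec_add, lam_eps_mulVec, h5, ih,
      h2]

theorem dlam_comm (A B : Matrix (Fin n) (Fin n) ℂ) :
    dlam A * dlam B - dlam B * dlam A = dlam (A * B - B * A) := by
  refine ext_comm ?_ fun l => ?_
  · rw [Matrix.sub_mulVec, ← Matrix.mulVec_mulVec, ← Matrix.mulVec_mulVec, dlam_ev_empty,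
      dlam_ev_empty, dlam_ev_empty, Matrix.mulVec_zero, Matrix.mulVec_zero, sub_zero]
  · have e1 : ∀ A B : Matrix (Fin n) (Fin n) ℂ, dlam A * dlam B * eps l =
        eps l * (dlam A * dlam B) + epsV (fun p => A p l) * dlam B +
        epsV (fun p => B p l) * dlam A + epsV (A *ᵥ fun p => B p l) := by
      intro A B
      rw [Matrix.mul_assoc, dlam_eps, Matrix.mul_add, ← Matrix.mul_assoc, dlam_eps,
        Matrix.add_mul, Matrix.mul_assoc, dlam_epsV]
      abel
    rw [Matrix.sub_mul, Matrix.mul_sub, e1, e1, dlam_eps]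
    have e2 : (fun p => (A * B - B * A) p l) = (A *ᵥ fun p => B p l) + -(B *ᵥ fun p => A p l) := by
      ext p
      rw [← sub_eq_add_neg]
      rfl
    rw [e2, epsV_add]
    have e3 : epsV (-(B *ᵥ fun p => A p l)) = -epsV (B *ᵥ fun p => A p l) := by
      rw [← neg_one_smul ℂ, epsV_smul, neg_one_smul]
    rw [e3]
    abel

theorem eps_iot_mulVec (l : Fin n) (a : Fk n) (I : Finset (Fin n)) :
    ((eps l * iot l) *ᵥ a) I = if l ∈ I then a I else 0 := by
  rw [← Matrix.mulVec_mulVec, eps_mulVec]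
  split_ifs with h
  · rw [iot_mulVec, if_neg (Finset.notMem_erase l I), Finset.insert_erase h, sg_erase h,
      if_neg (lt_irrefl l), ← mul_assoc, sg_mul_self, one_mul]
  · rfl

/-- `dlam` of a diagonal matrix -/
theorem dlam_diagonal_mulVec (d : Fin n → ℂ) (a : Fk n) (I : Finset (Fin n)) :
    (dlam (Matrix.diagonal d) *ᵥ a) I = (∑ i ∈ I, d i) * a I := by
  have h1 : dlam (Matrix.diagonal d) = ∑ l, d l • (eps l * iot l) := by
    unfold dlam
    refine Finset.sum_congr rfl fun l _ => ?_
    rw [Finset.sum_eq_single l]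
    · rw [Matrix.diagonal_apply_eq]
    · intro m _ hm
      rw [Matrix.diagonal_apply_ne _ hm.symm, zero_smul]
    · simp
  rw [h1, Matrix.sum_mulVec, Finset.sum_apply, Finset.sum_mul]
  have h2 : ∀ l, ((d l • (eps l * iot l)) *ᵥ a) I = if l ∈ I then d l * a I else 0 := by
    intro l
    rw [Matrix.smul_mulVec, Pi.smul_apply, eps_iot_mulVec, smul_eq_mul]
    split_ifs <;> simp
  rw [Finset.sum_congr rfl fun l _ => h2 l, Finset.sum_ite_mem, Finset.univ_inter]

/-- `dlam A ≥ 0` for `A ≥ 0` -/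
theorem dlam_posSemidef {A : Matrix (Fin n) (Fin n) ℂ} (h : A.PosSemidef) :
    (dlam A).PosSemidef := by
  open scoped MatrixOrder in
  obtain ⟨B, hB⟩ := CStarAlgebra.nonneg_iff_eq_star_mul_self.mp h.nonneg
  have h1 : dlam A = ∑ b, (iotV (B b))ᴴ * iotV (B b) := by
    have h2 : ∀ b, (iotV (B b))ᴴ * iotV (B b) =
        ∑ a, ∑ l, (star (B b a) * B b l) • (eps a * iot l) := by
      intro b
      rw [iotV_conjTranspose]
      unfold epsV iotV
      rw [Finset.sum_mul]
      refine Finset.sum_congr rfl fun a _ => ?_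
      rw [Finset.mul_sum]
      refine Finset.sum_congr rfl fun l _ => ?_
      rw [Matrix.smul_mul, Matrix.mul_smul, smul_smul, Pi.star_apply]
    rw [Finset.sum_congr rfl fun b _ => h2 b]
    rw [Finset.sum_comm]
    unfold dlam
    refine Finset.sum_congr rfl fun a _ => ?_
    rw [Finset.sum_comm]
    refine Finset.sum_congr rfl fun l _ => ?_
    rw [← Finset.sum_smul]
    congr 1
    rw [hB, Matrix.mul_apply]
    refine Finset.sum_congr rfl fun b _ => ?_
    rw [Matrix.star_apply]
  rw [h1]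
  exact Matrix.posSemidef_sum _ fun b _ => Matrix.posSemidef_conjTranspose_mul_self _

/-! ### parity and degree -/

/-- multiplication by `c I` -/
def dgl (c : ℕ → ℂ) : FM n := Matrix.diagonal fun I => c I.card

theorem dgl_mulVec (c : ℕ → ℂ) (a : Fk n) (I : Finset (Fin n)) :
    (dgl c *ᵥ a) I = c I.card * a I := by
  rw [dgl, Matrix.mulVec_diagonal]

theorem dgl_eps (c : ℕ → ℂ) (l : Fin n) : dgl c * eps l = eps l * dgl (fun p => c (p + 1)) := by
  refine ext_mulVec fun a => ?_
  ext I
  rw [← Matrix.mulVec_mulVec, ← Matrix.mulVec_mulVec, dgl_mulVec, eps_mulVec, eps_mulVec,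
    dgl_mulVec]
  split_ifs with h
  · rw [Finset.card_erase_add_one h]
    ring
  · rw [mul_zero]

theorem dgl_iot (c : ℕ → ℂ) (l : Fin n) : dgl (fun p => c (p + 1)) * iot l = iot l * dgl c := by
  have h : ∀ c : ℕ → ℂ, (dgl c : FM n)ᵀ = dgl c := fun c => Matrix.diagonal_transpose _
  have h1 := congrArg Matrix.transpose (dgl_eps (n := n) c l)
  rw [Matrix.transpose_mul, Matrix.transpose_mul, h, h, eps_transpose] at h1
  exact h1.symm

theorem dgl_ev (c : ℕ → ℂ) (I : Finset (Fin n)) : dgl c *ᵥ ev I = c I.card • ev I := by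
  ext K
  rw [dgl_mulVec, Pi.smul_apply, smul_eq_mul]
  by_cases h : K = I
  · rw [h]
  · simp [ev, h]

theorem dgl_mul (c d : ℕ → ℂ) : (dgl c : FM n) * dgl d = dgl (fun p => c p * d p) :=
  Matrix.diagonal_mul_diagonal _ _

theorem dgl_epsV (c : ℕ → ℂ) (v : Fin n → ℂ) :
    dgl c * epsV v = epsV v * dgl (fun p => c (p + 1)) := by
  unfold epsV
  rw [Finset.mul_sum, Finset.sum_mul]
  refine Finset.sum_congr rfl fun l _ => ?_
  rw [Matrix.mul_smul, Matrix.smul_mul, dgl_eps]

/-- `lam J` preserves degrees -/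
theorem dgl_lam (c : ℕ → ℂ) (J : Matrix (Fin n) (Fin n) ℂ) : dgl c * lam J = lam J * dgl c := by
  refine ext_ev fun I => ?_
  rw [← Matrix.mulVec_mulVec, ← Matrix.mulVec_mulVec]
  induction I using Finset.induction_on_min generalizing c with
  | empty =>
    rw [lam_ev_empty, dgl_ev, Matrix.mulVec_smul, lam_ev_empty]
  | insert i I hi ih =>
    rw [lam_ev_insert J hi, Matrix.mulVec_mulVec, dgl_epsV, ← Matrix.mulVec_mulVec, ih, dgl_ev,
      dgl_ev, Matrix.mulVec_smul, Matrix.mulVec_smul, Matrix.mulVec_smul, lam_ev_insert J hi,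
      Finset.card_insert_of_notMem (fun h' => lt_irrefl i (hi i h'))]

theorem dgl_conjTranspose (c : ℕ → ℂ) : (dgl c : FM n)ᴴ = dgl (fun p => star (c p)) :=
  Matrix.diagonal_conjTranspose _

/-- the parity operator `(-1)^degree` -/
def par : FM n := dgl fun p => (-1) ^ p

theorem par_eps (l : Fin n) : par * eps l = -(eps l * par) := by
  unfold par
  rw [dgl_eps, ← Matrix.mul_neg]
  congr 1
  ext I K
  simp only [dgl, Matrix.diagonal_apply, Matrix.neg_apply]
  split_ifs
  · rw [pow_succ]; ring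
  · simp

theorem par_transpose : (par : FM n)ᵀ = par := Matrix.diagonal_transpose _

theorem par_iot (l : Fin n) : par * iot l = -(iot l * par) := by
  have h1 := congrArg Matrix.transpose (par_eps l)
  rw [Matrix.transpose_mul, Matrix.transpose_neg, Matrix.transpose_mul, par_transpose,
    eps_transpose] at h1
  rw [h1, neg_neg]

theorem par_sq : (par : FM n) * par = 1 := by
  unfold par
  rw [dgl_mul]
  have : (fun p : ℕ => (-1 : ℂ) ^ p * (-1) ^ p) = fun _ => 1 := by
    ext p
    rw [← mul_pow]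
    norm_num
  rw [this, dgl, Matrix.diagonal_one]

theorem par_lam (J : Matrix (Fin n) (Fin n) ℂ) : par * lam J = lam J * par := dgl_lam _ J

theorem par_conjTranspose : (par : FM n)ᴴ = par := by
  unfold par
  rw [dgl_conjTranspose]
  congr 1
  ext p
  simp

theorem par_mulVec (a : Fk n) (I : Finset (Fin n)) : (par *ᵥ a) I = (-1) ^ I.card * a I :=
  dgl_mulVec _ a I

/-- the projection to degree `p` -/
def dg (p : ℕ) : FM n := dgl fun q => if q = p then 1 else 0

theorem dg_mulVec (p : ℕ) (a : Fk n) (I : Finset (Fin n)) :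
    (dg p *ᵥ a) I = if I.card = p then a I else 0 := by
  unfold dg
  rw [dgl_mulVec]
  split_ifs <;> simp

theorem dg_lam (p : ℕ) (J : Matrix (Fin n) (Fin n) ℂ) : dg p * lam J = lam J * dg p := dgl_lam _ J

theorem dg_eps (p : ℕ) (l : Fin n) : dg (p + 1) * eps l = eps l * dg p := by
  unfold dg
  rw [dgl_eps]
  congr 2
  ext q
  simp

theorem dg_zero_eps (l : Fin n) : dg 0 * eps l = 0 := by
  unfold dg
  rw [dgl_eps]
  have : (dgl (fun p : ℕ => if p + 1 = 0 then (1 : ℂ) else 0) : FM n) = 0 := by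
    ext I K
    simp [dgl, Matrix.diagonal_apply]
  rw [this, Matrix.mul_zero]

theorem dg_iot (p : ℕ) (l : Fin n) : dg p * iot l = iot l * dg (p + 1) := by
  unfold dg
  rw [← dgl_iot]
  congr 2
  ext q
  simp

/-- `lam J` preserves degrees, entrywise -/
theorem lam_apply_of_card_ne (J : Matrix (Fin n) (Fin n) ℂ) {K I : Finset (Fin n)}
    (h : K.card ≠ I.card) : lam J K I = 0 := by
  have h1 := congrFun (congrArg (· *ᵥ ev I) (dg_lam I.card J)) K
  simp only [← Matrix.mulVec_mulVec] at h1
  rw [dg_mulVec, if_neg h] at h1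
  have h2 : (dg I.card : FM n) *ᵥ ev I = ev I := by
    unfold dg
    rw [dgl_ev, if_pos rfl, one_smul]
  rw [h2, mulVec_ev] at h1
  exact h1.symm

/-! ### the top degree and the determinant -/

theorem lam_diagonal_ev (d : Fin n → ℂ) (I : Finset (Fin n)) :
    lam (Matrix.diagonal d) *ᵥ ev I = (∏ i ∈ I, d i) • ev I := by
  induction I using Finset.induction_on_min with
  | empty => rw [lam_ev_empty, Finset.prod_empty, one_smul]
  | insert i I hi ih =>
    have h1 : (fun p => Matrix.diagonal d p i) = d i • Pi.single i (1 : ℂ) := by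
      ext p
      rw [Pi.smul_apply, smul_eq_mul, Pi.single_apply]
      by_cases h : p = i
      · subst h; simp
      · rw [Matrix.diagonal_apply_ne _ h, if_neg h, mul_zero]
    rw [lam_ev_insert _ hi, ih, h1, epsV_smul, epsV_single, Matrix.mulVec_smul,
      Matrix.smul_mulVec, eps_ev_min hi, smul_smul,
      Finset.prod_insert (fun h' => lt_irrefl i (hi i h')), mul_comm]

theorem lam_top (J : Matrix (Fin n) (Fin n) ℂ) : lam J Finset.univ Finset.univ = J.det := by
  have hmul : ∀ A B : Matrix (Fin n) (Fin n) ℂ, lam (A * B) Finset.univ Finset.univ =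
      lam A Finset.univ Finset.univ * lam B Finset.univ Finset.univ := by
    intro A B
    rw [lam_mul, Matrix.mul_apply, Finset.sum_eq_single Finset.univ]
    · intro K _ hK
      rw [lam_apply_of_card_ne B, mul_zero]
      intro h
      exact hK ((Finset.card_eq_iff_eq_univ K).1 (by rw [h, Finset.card_univ]))
    · intro h
      exact absurd (Finset.mem_univ _) h
  have hdiag : ∀ d : Fin n → ℂ, lam (Matrix.diagonal d) Finset.univ Finset.univ =
      (Matrix.diagonal d).det := by
    intro d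
    rw [← mulVec_ev (lam (Matrix.diagonal d)) Finset.univ Finset.univ, lam_diagonal_ev,
      Matrix.det_diagonal]
    simp [ev]
  refine Matrix.diagonal_transvection_induction
    (fun M => lam M Finset.univ Finset.univ = M.det) J (fun D _ => hdiag D) (fun t => ?_)
    (fun A B hA hB => by rw [hmul, hA, hB, Matrix.det_mul])
  rw [Matrix.TransvectionStruct.det]
  obtain ⟨i, j, hij, c⟩ := t
  simp only [Matrix.TransvectionStruct.toMatrix]
  -- `x = c(t)` satisfies `x * x = x` and `x ≠ 0`
  set x := lam (Matrix.transvection i j c) Finset.univ Finset.univ with hx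
  have h1 : Matrix.transvection i j c * Matrix.transvection i j c =
      Matrix.transvection i j (c + c) := Matrix.transvection_mul_transvection_same i j hij c c
  set d : Fin n → ℂ := fun k => if k = i then 2 else 1 with hd
  have h2 : Matrix.diagonal d * Matrix.transvection i j c =
      Matrix.transvection i j (c + c) * Matrix.diagonal d := by
    ext a b
    rw [Matrix.diagonal_mul, Matrix.mul_diagonal]
    unfold Matrix.transvection
    simp only [Matrix.add_apply, Matrix.one_apply, Matrix.single_apply, hd]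
    by_cases h3 : i = a ∧ j = b
    · obtain ⟨rfl, rfl⟩ := h3
      simp only [if_true, and_self, if_neg hij, if_neg hij.symm]
      ring
    · rw [if_neg h3, add_zero]
      by_cases h4 : a = b
      · subst h4
        rw [if_pos rfl]
        rw [if_neg h3, add_zero]
        ring
      · rw [if_neg h4, if_neg h3]
        ring
  have h3 : x * x = lam (Matrix.transvection i j (c + c)) Finset.univ Finset.univ := by
    rw [← h1, hmul]
  have h4 : (Matrix.diagonal d).det ≠ 0 := by
    rw [Matrix.det_diagonal]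
    refine Finset.prod_ne_zero_iff.2 fun k _ => ?_
    simp only [hd]
    split_ifs <;> norm_num
  have h5 : (Matrix.diagonal d).det * x = (x * x) * (Matrix.diagonal d).det := by
    rw [h3, ← hdiag, ← hmul, ← hmul, h2]
  have h6 : Matrix.transvection i j c * Matrix.transvection i j (-c) = 1 := by
    rw [Matrix.transvection_mul_transvection_same i j hij, add_neg_cancel, Matrix.transvection_zero]
  have h7 : x * lam (Matrix.transvection i j (-c)) Finset.univ Finset.univ = 1 := by
    rw [hx, ← hmul, h6, lam_one, Matrix.one_apply_eq]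
  have h8 : x ≠ 0 := left_ne_zero_of_mul_eq_one h7
  have h9 : x * (x * (Matrix.diagonal d).det - (Matrix.diagonal d).det) = 0 := by
    rw [mul_sub, ← mul_assoc, ← h5]
    ring
  have h10 := (mul_eq_zero.1 h9).resolve_left h8
  have h11 : (x - 1) * (Matrix.diagonal d).det = 0 := by
    rw [sub_mul, one_mul]; exact h10
  exact sub_eq_zero.1 ((mul_eq_zero.1 h11).resolve_right h4)

theorem lam_ev_univ (J : Matrix (Fin n) (Fin n) ℂ) :
    lam J *ᵥ ev Finset.univ = J.det • ev Finset.univ := by
  ext K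
  rw [mulVec_ev, Pi.smul_apply, smul_eq_mul]
  by_cases h : K = Finset.univ
  · subst h
    rw [lam_top]
    simp [ev]
  · rw [lam_apply_of_card_ne]
    · simp [ev, h]
    · intro h'
      exact h ((Finset.card_eq_iff_eq_univ K).1 (by rw [h', Finset.card_univ]))

/-! ### the complement map -/

/-- the contraction into the volume form: `hst e_I = iot_{i_1} … iot_{i_p} e_univ` -/
def hst : FM n := qz iot (ev Finset.univ)

theorem hst_ev_empty : (hst : FM n) *ᵥ ev ∅ = ev Finset.univ := qz_ev_empty _ _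

theorem hst_eps (l : Fin n) : hst * eps l = iot l * hst := qz_eps _ _ iot_iot l

theorem hst_eps_mulVec (l : Fin n) (a : Fk n) : hst *ᵥ (eps l *ᵥ a) = iot l *ᵥ (hst *ᵥ a) := by
  rw [Matrix.mulVec_mulVec, hst_eps, Matrix.mulVec_mulVec]

theorem hst_iot (l : Fin n) : hst * iot l = eps l * hst := by
  refine ext_ev fun I => ?_
  rw [← Matrix.mulVec_mulVec, ← Matrix.mulVec_mulVec]
  induction I using Finset.induction_on_min with
  | empty =>
    rw [iot_ev_empty, Matrix.mulVec_zero, hst_ev_empty, eps_ev_of_mem (Finset.mem_univ l)]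
  | insert i I hi ih =>
    have h1 : iot l *ᵥ (eps i *ᵥ ev I) = (if l = i then ev I else 0) - eps i *ᵥ (iot l *ᵥ ev I) := by
      have := congrArg (· *ᵥ ev I) (car l i)
      simp only [Matrix.add_mulVec, ← Matrix.mulVec_mulVec] at this
      rw [eq_sub_of_add_eq this]
      split_ifs <;> simp
    have h2 : eps l *ᵥ (iot i *ᵥ (hst *ᵥ ev I)) =
        (if l = i then hst *ᵥ ev I else 0) - iot i *ᵥ (eps l *ᵥ (hst *ᵥ ev I)) := by
      have := congrArg (· *ᵥ (hst *ᵥ ev I)) (car i l)
      simp only [Matrix.add_mulVec, ← Matrix.mulVec_mulVec] at this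
      rw [add_comm] at this
      rw [eq_sub_of_add_eq this]
      by_cases h : l = i
      · subst h; simp
      · rw [if_neg h, if_neg (Ne.symm h)]; simp
    rw [← eps_ev_min hi, h1, Matrix.mulVec_sub, hst_eps_mulVec, ih, hst_eps_mulVec, h2]
    congr 1
    split_ifs <;> simp

theorem hst_iot_mulVec (l : Fin n) (a : Fk n) : hst *ᵥ (iot l *ᵥ a) = eps l *ᵥ (hst *ᵥ a) := by
  rw [Matrix.mulVec_mulVec, hst_iot, Matrix.mulVec_mulVec]

/-- `hst e_I = ± e_{Iᶜ}` -/
theorem hst_ev (I : Finset (Fin n)) : ∃ s : ℂ, s * s = 1 ∧ hst *ᵥ ev I = s • ev Iᶜ := by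
  induction I using Finset.induction_on_min with
  | empty => exact ⟨1, one_mul 1, by rw [hst_ev_empty, Finset.compl_empty, one_smul]⟩
  | insert i I hi ih =>
    obtain ⟨s, hs, h⟩ := ih
    have hi' : i ∉ I := fun h' => lt_irrefl i (hi i h')
    have h1 : insert i (insert i I)ᶜ = Iᶜ := by
      ext j
      simp only [Finset.mem_insert, Finset.mem_compl, not_or]
      by_cases hj : j = i
      · subst hj; simp [hi']
      · simp [hj]
    refine ⟨s * sg i (insert i I)ᶜ, ?_, ?_⟩
    · calc s * sg i (insert i I)ᶜ * (s * sg i (insert i I)ᶜ) =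
          (s * s) * (sg i (insert i I)ᶜ * sg i (insert i I)ᶜ) := by ring
        _ = 1 := by rw [hs, sg_mul_self, one_mul]
    · rw [← eps_ev_min hi, hst_eps_mulVec, h, Matrix.mulVec_smul, ← h1, iot_ev_insert (by simp),
        smul_smul]

theorem hst_mulVec_injective : Function.Injective fun a : Fk n => hst *ᵥ a := by
  have h1 : ∀ l, (hst * hst) * eps l = eps l * (hst * hst : FM n) := by
    intro l
    rw [Matrix.mul_assoc, hst_eps, ← Matrix.mul_assoc, hst_iot, Matrix.mul_assoc]
  obtain ⟨s, hs, h⟩ := hst_ev (Finset.univ : Finset (Fin n))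
  have h2 : (hst * hst : FM n) = s • 1 := by
    refine ext_eps (E := eps) ?_ h1 (fun l => ?_)
    · rw [← Matrix.mulVec_mulVec, hst_ev_empty, h, Finset.compl_univ, Matrix.smul_mulVec,
        Matrix.one_mulVec]
    · rw [Matrix.smul_mul, Matrix.mul_smul, Matrix.one_mul, Matrix.mul_one]
  have hs0 : s ≠ 0 := left_ne_zero_of_mul_eq_one hs
  intro a b hab
  have h3 : (hst * hst : FM n) *ᵥ a = (hst * hst : FM n) *ᵥ b := by
    rw [← Matrix.mulVec_mulVec, ← Matrix.mulVec_mulVec]
    exact congrArg (hst *ᵥ ·) hab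
  rw [h2, Matrix.smul_mulVec, Matrix.smul_mulVec, Matrix.one_mulVec, Matrix.one_mulVec] at h3
  exact smul_right_injective _ hs0 h3

/-- `hst` intertwines `lam J` and `det J * lam (J⁻¹)ᵀ` -/
theorem hst_lam {J B : Matrix (Fin n) (Fin n) ℂ} (h : J * Bᵀ = 1) :
    hst * lam J = J.det • (lam B * hst) := by
  have hB : J.det * B.det = 1 := by
    rw [← Matrix.det_transpose B, ← Matrix.det_mul, h, Matrix.det_one]
  have h' : Bᵀ * J = 1 := mul_eq_one_comm.1 h
  refine ext_eps (E := fun l => iotV fun p => J p l) ?_ (fun l => ?_) (fun l => ?_)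
  · rw [← Matrix.mulVec_mulVec, lam_ev_empty, hst_ev_empty, Matrix.smul_mulVec,
      ← Matrix.mulVec_mulVec, hst_ev_empty, lam_ev_univ, smul_smul, hB, one_smul]
  · rw [Matrix.mul_assoc, lam_eps_col, ← Matrix.mul_assoc, ← Matrix.mul_assoc]
    congr 1
    unfold epsV iotV
    rw [Finset.mul_sum, Finset.sum_mul]
    refine Finset.sum_congr rfl fun p _ => ?_
    rw [Matrix.mul_smul, Matrix.smul_mul, hst_eps]
  · rw [Matrix.smul_mul, Matrix.mul_smul, Matrix.mul_assoc, hst_eps, ← Matrix.mul_assoc,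
      ← Matrix.mul_assoc, iotV_lam]
    congr 3
    have : (fun p => J p l) ᵥ* B = Pi.single l 1 := by
      ext q
      have := congrFun (congrFun h' q) l
      rw [Matrix.mul_apply] at this
      rw [Matrix.vecMul, dotProduct, Pi.single_apply]
      rw [Matrix.one_apply] at this
      rw [← this]
      refine Finset.sum_congr rfl fun p _ => ?_
      rw [Matrix.transpose_apply, mul_comm]
    rw [this, iotV_single]

end Fock

end Vale.Agent.P299.IX
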