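import Vale.Agent.P299.H835.IX.Vz
import Vale.Agent.P299.H598.IX.DDF
import Vale.Agent.P299.H954.IX.Pull

/-!
# P299, index theorem: `D' + δ` on the total bundle anticommutes with the parity and commutes with
the pull backs by the torus
-/

open scoped Manifold ContDiff ComplexOrder Topology Matrix Kronecker
open Set Filter
open Vale.Agent.P272.K Vale.Agent.P272.K.C2 Vale.Agent.P299.H954 Vale.Agent.P299.H863

set_option linter.unusedSectionVars false

noncomputable section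

namespace Vale.Agent.P299.IX.Kz

open Fock Cl

variable {r n : ℕ} {Z : Type} [TopologicalSpace Z] [ChartedSpace (Cm n) Z]
  [IsManifold 𝓘(ℂ, Cm n) ω Z] {w : D.FormM n Z} (T : D.TorusAct r n Z w) (hw : IsKahler w)
  {k0 N : ℕ}

/-- `D Π = - Π D` -/
theorem DDF_par (s : (Btot hw k0 N).S) :
    (DDF hw k0 N).op ((PZ hw k0 N).op s) = -(PZ hw k0 N).op ((DDF hw k0 N).op s) := by
  refine Bun.S.ext_f fun e x h => ?_
  have h1 : ((PZ hw k0 N).op s).f e =ᶠ[𝓝 (e x)] fun y => Ppar n N *ᵥ s.f e y := by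
    filter_upwards [h.nhds_target] with z hz
    have h2 := (PZ hw k0 N).op_at s (e := e) (x := e.symm z) (At.of_target h.1 hz)
    rw [e.right_inv hz] at h2
    exact h2
  have h3 : (-(PZ hw k0 N).op ((DDF hw k0 N).op s)).f e (e x) =
      -(Ppar n N *ᵥ DDt k0 (w e) (s.f e) (e x)) := by
    rw [Bun.S.neg_f, Pi.neg_apply, Pi.neg_apply, ZOp.op_at _ _ h, DDF_at _ h]
    rfl
  rw [h3, DDF_at _ h, DDt_congr h1, DDt_par (s.isSec.vc1 h)]

/-- the pull back on a block, in the form `IsPull` -/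
theorem isPull_blk (t : Fin r → ℝ) (s : (Btot hw k0 N).S) (S : FI N) :
    IsPull (1 + S.card * k0) (T.a t) (Bun.blk ((Ltot T hw k0 N).pb t s).f S)
      (Bun.blk s.f S) := by
  intro e e' x h h'
  refine (liftFB_iff T (1 + S.card * k0) hw t h h' _ _).1 ?_
  funext I
  have h3 : (Ltot T hw k0 N).R t e e' x *ᵥ s.f e' (e' (T.a t x)) =
      ((Ltot T hw k0 N).pb t s).f e (e x) := ((Ltot T hw k0 N).pb_at s h h').symm
  have h4 := congrFun h3 (I, S)
  rw [Lift.sum_mulVec] at h4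
  exact h4

/-- `D` commutes with the pull backs -/
theorem DDF_pb (t : Fin r → ℝ) (s : (Btot hw k0 N).S) :
    (DDF hw k0 N).op ((Ltot T hw k0 N).pb t s) = (Ltot T hw k0 N).pb t ((DDF hw k0 N).op s) := by
  refine Bun.S.ext_f fun e x h => ?_
  have hc : At (chartAt (Cm n) (T.a t x)) (T.a t x) := at_chartAt' _
  rw [(Ltot T hw k0 N).pb_at _ h hc]
  funext ⟨I, S⟩
  rw [Lift.sum_mulVec]
  have h1 := IsPull.dd hw hw (T.hol t) (T.iso t)
    (fun e x hx => (isSec_blk_tot ((Ltot T hw k0 N).pb t s) S).smooth e x hx |> fun h i =>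
      (h i).of_le (by simp))
    (fun e x hx => (isSec_blk_tot s S).smooth e x hx |> fun h i => (h i).of_le (by simp))
    (isPull_blk T hw t s S)
  have h2 := (liftFB_iff T (1 + S.card * k0) hw t h hc _ _).2
    (h1 e (chartAt (Cm n) (T.a t x)) x h hc)
  have h3 := congrFun (blk_DDF_at ((Ltot T hw k0 N).pb t s) S h) I
  have h4 := blk_DDF_at s S hc
  refine h3.trans ?_
  rw [← h2, ← h4]
  rfl

variable [T2Space Z] [CompactSpace Z]

theorem DDF_avg (s : (Btot hw k0 N).S) :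
    (DDF hw k0 N).op ((Ltot T hw k0 N).avg s) = (Ltot T hw k0 N).avg ((DDF hw k0 N).op s) :=
  Lift.avg_comm_symm _ DDF_symm (DDF_pb T hw) s

theorem DDF_PT (c : ℂ) (u : (Btot hw k0 N).S) : (DDF hw k0 N).op (PT T hw k0 N c u) =
      PT T hw k0 N (-c) ((DDF hw k0 N).op u) :=
  PT_comm T hw (DDF_avg T hw) (DDF_par hw) c u

end Vale.Agent.P299.IX.Kz
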