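import Vale.Agent.P299.H954.IX.Loc
import Vale.Agent.P299.H835.IX.TenF

/-!
# P299, index theorem: the conjugate linear map `#` from `Λ^{*,0} ⊗ (-K)` to `Λ^{*,0}`, local part

`# u = hst (conj (det w • lam w⁻¹ u))` satisfies `D'_0 (# u) = - # (δ u)`, `δ (# u) = - # (D'_1 u)`.
-/

open scoped Manifold ContDiff ComplexOrder Topology Matrix
open Vale.Agent.P272.K Vale.Agent.P272.K.C2 Vale.Agent.P299.H954

noncomputable section

namespace Vale.Agent.P299.IX

open Fock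

variable {n : ℕ}

theorem star_mulVec_real {A : Matrix (FI n) (FI n) ℂ} (hA : A.map star = A) (v : FI n → ℂ) :
    A *ᵥ star v = star (A *ᵥ v) := by
  ext I
  simp only [Matrix.mulVec, dotProduct, Pi.star_apply, star_sum, star_mul']
  refine Finset.sum_congr rfl fun K _ => ?_
  have := congrFun (congrFun hA I) K
  rw [Matrix.map_apply] at this
  rw [this]

theorem eps_mulVec_star (l : Fin n) (v : FI n → ℂ) : eps l *ᵥ star v = star (eps l *ᵥ v) :=
  star_mulVec_real (eps_star l) v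

theorem iot_star (l : Fin n) : (iot l).map star = iot l := by
  rw [iot, Matrix.transpose_map, eps_star]

theorem iot_mulVec_star (l : Fin n) (v : FI n → ℂ) : iot l *ᵥ star v = star (iot l *ᵥ v) :=
  star_mulVec_real (iot_star l) v

variable {w : Cm n → Matrix (Fin n) (Fin n) ℂ} {z : Cm n}

/-- `det w • lam w⁻¹` -/
def Pd (w : Cm n → Matrix (Fin n) (Fin n) ℂ) (z : Cm n) : Matrix (FI n) (FI n) ℂ :=
  (w z).det • Ld w z

/-- the conjugate linear map `#` at a point -/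
def shv (w : Cm n → Matrix (Fin n) (Fin n) ℂ) (z : Cm n) (u : FI n → ℂ) : FI n → ℂ :=
  hst *ᵥ star (Pd w z *ᵥ u)

theorem shv_neg (u : FI n → ℂ) : shv w z (-u) = -shv w z u := by
  rw [shv, Matrix.mulVec_neg, star_neg, Matrix.mulVec_neg]; rfl

theorem shv_add (u v : FI n → ℂ) : shv w z (u + v) = shv w z u + shv w z v := by
  rw [shv, Matrix.mulVec_add, star_add, Matrix.mulVec_add]; rfl

theorem shv_zero : shv w z 0 = 0 := by
  rw [shv, Matrix.mulVec_zero, star_zero, Matrix.mulVec_zero]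

/-- `#` of a form -/
def shp (w : Cm n → Matrix (Fin n) (Fin n) ℂ) (u : Cm n → FI n → ℂ) (y : Cm n) : FI n → ℂ :=
  shv w y (u y)

theorem MC_Pd (h : KAt w z) : C2.MC ∞ (Pd w) z := MC_smul h.sm.det (MC_Ld h)

theorem VC_star {ι : Type*} {m : WithTop ℕ∞} {a : Cm n → ι → ℂ} (ha : VC m a z) :
    VC m (fun y => star (a y)) z := fun i => contDiffAt_conj (ha i)

theorem VC_shp {m : WithTop ℕ∞} (hm : m ≤ ∞) (h : KAt w z) {u : Cm n → FI n → ℂ}
    (hu : VC m u z) : VC m (shp w u) z :=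
  VC_constMul _ (VC_star (VC.mulVec ((MC_Pd h).mono hm) hu))

theorem DV_star {ι : Type*} {a : Cm n → ι → ℂ} (ha : VC 1 a z) (l : Fin n) :
    DV l (fun y => star (a y)) z = star (DVb l a z) := by
  ext i
  exact dz_conj l (ha.d one_ne_zero_inf i)

theorem DVb_star {ι : Type*} {a : Cm n → ι → ℂ} (ha : VC 1 a z) (l : Fin n) :
    DVb l (fun y => star (a y)) z = star (DV l a z) := by
  ext i
  exact dzb_conj l (ha.d one_ne_zero_inf i)

theorem DV_shp (h : KAt w z) {u : Cm n → FI n → ℂ} (hu : VC 1 u z) (l : Fin n) :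
    DV l (shp w u) z = hst *ᵥ star (DVb l (fun y => Pd w y *ᵥ u y) z) := by
  have h1 : VC 1 (fun y => Pd w y *ᵥ u y) z :=
    VC.mulVec ((MC_Pd h).mono (by exact_mod_cast le_top)) hu
  have h2 : shp w u = fun y => hst *ᵥ star (Pd w y *ᵥ u y) := rfl
  rw [h2, DV_constMul _ (VC_star h1), DV_star h1]

theorem DVb_shp (h : KAt w z) {u : Cm n → FI n → ℂ} (hu : VC 1 u z) (l : Fin n) :
    DVb l (shp w u) z = hst *ᵥ star (DV l (fun y => Pd w y *ᵥ u y) z) := by
  have h1 : VC 1 (fun y => Pd w y *ᵥ u y) z :=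
    VC.mulVec ((MC_Pd h).mono (by exact_mod_cast le_top)) hu
  have h2 : shp w u = fun y => hst *ᵥ star (Pd w y *ᵥ u y) := rfl
  rw [h2, DVb_constMul _ (VC_star h1), DVb_star h1]

theorem MC1_det (h : KAt w z) : ContDiffAt ℝ 1 (fun y => (w y).det) z :=
  h.sm.det.of_le (by exact_mod_cast le_top)

theorem DM_Pd (h : KAt w z) (l : Fin n) :
    DM l (Pd w) z = tG l w z • Pd w z - Pd w z * dlam (Gam l w z) := by
  have h1 : MC 1 (Ld w) z := (MC_Ld h).mono (by exact_mod_cast le_top)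
  ext I K
  have h2 := congrFun (congrFun (DM_Ld (l := l) h) I) K
  rw [DM_apply] at h2
  rw [DM_apply]
  have h3 : (fun y => Pd w y I K) = fun y => (w y).det * Ld w y I K := rfl
  rw [h3, dz_mul l ((MC1_det h).differentiableAt one_ne_zero_inf)
    ((h1 I K).differentiableAt one_ne_zero_inf), dz_det' h, h2, Matrix.sub_apply,
    Matrix.smul_apply, Pd, Matrix.smul_mul, Matrix.smul_apply, Matrix.smul_apply, Matrix.neg_apply]
  simp only [smul_eq_mul]
  ring

theorem det_star (h : (w z).PosDef) : star (w z).det = (w z).det := by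
  rw [← Matrix.det_conjTranspose, h.isHermitian.eq]

theorem Ld_conjTranspose (h : (w z).PosDef) : (Ld w z)ᴴ = Ld w z := by
  rw [Ld, ← lam_conjTranspose, h.inv.isHermitian.eq]

theorem Pd_conjTranspose (h : (w z).PosDef) : (Pd w z)ᴴ = Pd w z := by
  rw [Pd, Matrix.conjTranspose_smul, det_star h, Ld_conjTranspose h]

theorem DMb_Pd (h : KAt w z) (l : Fin n) :
    DMb l (Pd w) z = star (tG l w z) • Pd w z - dlam (Gam l w z)ᴴ * Pd w z := by
  have h1 : MD (Pd w) z := (MC_Pd h).md (by simp)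
  have h2 : Pd w =ᶠ[𝓝 z] fun y => (Pd w y)ᴴ := by
    filter_upwards [h.eventually] with y hy using (Pd_conjTranspose hy.posz).symm
  rw [DMb_congr h2, DMb_conjTranspose h1, DM_Pd h, Matrix.conjTranspose_sub,
    Matrix.conjTranspose_smul, Matrix.conjTranspose_mul, Pd_conjTranspose h.posz,
    dlam_conjTranspose]

theorem iot_Pd (l : Fin n) : iot l * Pd w z = Pd w z * epd l w z := by
  rw [Pd, Matrix.mul_smul, Ld, iot_lam, Matrix.smul_mul, epd]

theorem epsum_Pd (b : Fin n) : (∑ p, (w z)⁻¹ p b • eps p) * Pd w z = Pd w z * eps b := by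
  rw [Pd, Matrix.mul_smul, ← Ld_eps, Matrix.smul_mul]

/-- the Kähler identity, adjoint form -/
theorem sum_iot_DMb_Pd (h : KAt w z) : ∑ l, iot l * DMb l (Pd w) z = 0 := by
  have h1 := sum_trace_eps (Γ := fun l => Gam l w z) fun l a m => Gam_symm h l a m
  have h2 := congrArg Matrix.conjTranspose h1
  rw [Matrix.conjTranspose_sum, Matrix.conjTranspose_sum] at h2
  simp only [Matrix.conjTranspose_smul, Matrix.conjTranspose_mul, eps_conjTranspose,
    dlam_conjTranspose] at h2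
  have h3 : ∀ l, iot l * DMb l (Pd w) z =
      (star (Gam l w z).trace • iot l) * Pd w z - (iot l * dlam (Gam l w z)ᴴ) * Pd w z := by
    intro l
    rw [DMb_Pd h, Matrix.mul_sub, Matrix.mul_smul, Matrix.smul_mul, Matrix.mul_assoc]
    rfl
  rw [Finset.sum_congr rfl fun l _ => h3 l, Finset.sum_sub_distrib, ← Finset.sum_mul,
    ← Finset.sum_mul, h2, sub_self]

theorem sum_eps_dlam (h : KAt w z) : ∑ b, eps b * dlam (Gam b w z) = 0 := by
  have h1 : ∀ b, eps b * dlam (Gam b w z) = ∑ a, eps b * eps a * ∑ l, Gam b w z a l • iot l := by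
    intro b
    rw [dlam, Matrix.mul_sum]
    refine Finset.sum_congr rfl fun a _ => ?_
    rw [Matrix.mul_sum, Matrix.mul_sum]
    refine Finset.sum_congr rfl fun l _ => ?_
    rw [Matrix.mul_smul, Matrix.mul_smul, Matrix.mul_assoc]
  simp only [h1]
  exact sum_eps_symm fun k l => by simp only [Gam_symm h k l]

/-- `D'_0 (# u) = - # (δ u)` -/
theorem Dp_shp (h : KAt w z) {u : Cm n → FI n → ℂ} (hu : VC 1 u z) :
    Dp 0 w (shp w u) z = -shv w z (De w u z) := by
  have hP : MC 1 (Pd w) z := (MC_Pd h).mono (by exact_mod_cast le_top)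
  have e1 : Dp 0 w (shp w u) z = ∑ l, eps l *ᵥ DV l (shp w u) z := by
    rw [Dp]
    refine Finset.sum_congr rfl fun l _ => ?_
    simp
  have e2 : ∀ l, eps l *ᵥ DV l (shp w u) z =
      hst *ᵥ star (iot l *ᵥ (DVb l (fun y => Pd w y *ᵥ u y) z)) := by
    intro l
    rw [DV_shp h hu, ← hst_iot_mulVec, iot_mulVec_star]
  have e3 : ∑ l, iot l *ᵥ (DVb l (fun y => Pd w y *ᵥ u y) z) = -(Pd w z *ᵥ De w u z) := by
    have e4 : ∀ l, iot l *ᵥ (DVb l (fun y => Pd w y *ᵥ u y) z) =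
        (iot l * DMb l (Pd w) z) *ᵥ u z + Pd w z *ᵥ (epd l w z *ᵥ DVb l u z) := by
      intro l
      rw [DVb_mulVec hP hu, Matrix.mulVec_add, Matrix.mulVec_mulVec, Matrix.mulVec_mulVec, iot_Pd,
        Matrix.mulVec_mulVec]
    rw [Finset.sum_congr rfl fun l _ => e4 l, Finset.sum_add_distrib, ← Matrix.sum_mulVec,
      sum_iot_DMb_Pd h, Matrix.zero_mulVec, zero_add, De, Matrix.mulVec_neg, neg_neg,
      Matrix.mulVec_sum]
  rw [e1, Finset.sum_congr rfl fun l _ => e2 l, ← Matrix.mulVec_sum, ← star_sum, e3, star_neg,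
    Matrix.mulVec_neg]
  rfl

/-- `δ (# u) = - # (D'_1 u)` -/
theorem De_shp (h : KAt w z) {u : Cm n → FI n → ℂ} (hu : VC 1 u z) :
    De w (shp w u) z = -shv w z (Dp 1 w u z) := by
  have hP : MC 1 (Pd w) z := (MC_Pd h).mono (by exact_mod_cast le_top)
  have e1 : ∀ b, epd b w z *ᵥ DVb b (shp w u) z =
      hst *ᵥ star ((∑ p, (w z)⁻¹ p b • eps p) *ᵥ DV b (fun y => Pd w y *ᵥ u y) z) := by
    intro b
    rw [DVb_shp h hu, epd, Matrix.sum_mulVec, Matrix.sum_mulVec, star_sum, Matrix.mulVec_sum]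
    refine Finset.sum_congr rfl fun l _ => ?_
    rw [Matrix.smul_mulVec, Matrix.smul_mulVec, ← hst_eps_mulVec, eps_mulVec_star, star_smul,
      Matrix.mulVec_smul]
    congr 1
    exact (congrFun (congrFun h.inv_herm b) l).symm
  have e2 : ∀ b, (∑ p, (w z)⁻¹ p b • eps p) *ᵥ DV b (fun y => Pd w y *ᵥ u y) z =
      Pd w z *ᵥ (eps b *ᵥ (DV b u z + (1 * tG b w z) • u z)) -
        Pd w z *ᵥ ((eps b * dlam (Gam b w z)) *ᵥ u z) := by
    intro b
    rw [DV_mulVec hP hu, DM_Pd h, Matrix.sub_mulVec, Matrix.smul_mulVec, one_mul,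
      Matrix.mulVec_add, Matrix.mulVec_sub, Matrix.mulVec_smul, Matrix.mulVec_add,
      Matrix.mulVec_add, Matrix.mulVec_smul, Matrix.mulVec_smul, ← Matrix.mulVec_mulVec _ (Pd w z),
      ← Matrix.mulVec_mulVec _ (eps b)]
    have e3 : ∀ v, (∑ p, (w z)⁻¹ p b • eps p) *ᵥ (Pd w z *ᵥ v) = Pd w z *ᵥ (eps b *ᵥ v) := by
      intro v
      rw [Matrix.mulVec_mulVec, epsum_Pd, Matrix.mulVec_mulVec]
    rw [e3, e3, e3]
    abel
  have e4 : ∑ b, (Pd w z *ᵥ (eps b *ᵥ (DV b u z + (1 * tG b w z) • u z)) -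
        Pd w z *ᵥ ((eps b * dlam (Gam b w z)) *ᵥ u z)) = Pd w z *ᵥ Dp 1 w u z := by
    rw [Finset.sum_sub_distrib, ← Matrix.mulVec_sum, ← Matrix.mulVec_sum, ← Matrix.sum_mulVec,
      sum_eps_dlam h, Matrix.zero_mulVec, Matrix.mulVec_zero, sub_zero, Dp]
    simp only [Nat.cast_one]
  rw [De, Finset.sum_congr rfl fun b _ => e1 b, Finset.sum_congr rfl fun b _ => by rw [e2 b],
    ← Matrix.mulVec_sum, ← star_sum, e4]
  rfl

theorem shv_injective (h : KAt w z) {u : FI n → ℂ} {v : FI n → ℂ} (huv : shv w z u = shv w z v) :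
    u = v := by
  have h1 := hst_mulVec_injective huv
  have h2 := star_injective h1
  have h3 : IsUnit ((w z)⁻¹).det := by
    rw [Matrix.det_nonsing_inv]; exact h.unit.ringInverse
  rw [Pd, Matrix.smul_mulVec, Matrix.smul_mulVec] at h2
  have h4 := smul_right_injective _ h.det0 h2
  have h5 := congrArg (lam (w z)⁻¹⁻¹ *ᵥ ·) h4
  simp only [Ld, Matrix.mulVec_mulVec, lam_inv_mul h3, Matrix.one_mulVec] at h5
  exact h5

/-- `# (c u₀) = c̄ · 1` -/
theorem shv_top (h : KAt w z) (c : ℂ) : shv w z (c • ev Finset.univ) =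
    star c • (hst *ᵥ ev Finset.univ) := by
  have h1 : Pd w z *ᵥ (c • ev Finset.univ) = c • ev Finset.univ := by
    rw [Matrix.mulVec_smul, Pd, Matrix.smul_mulVec, Ld, lam_ev_univ, smul_smul,
      Matrix.det_nonsing_inv, Ring.inverse_eq_inv', smul_smul, mul_assoc,
      mul_inv_cancel₀ h.det0, mul_one]
  have h2 : star (c • ev (Finset.univ : FI n)) = star c • ev Finset.univ := by
    rw [star_smul]
    congr 1
    ext I
    simp only [Pi.star_apply, ev, Pi.single_apply]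
    split_ifs <;> simp
  rw [shv, h1, h2, Matrix.mulVec_smul]

/-- `hst` of the volume form is `± 1` -/
theorem hst_ev_univ : ∃ s : ℂ, s ≠ 0 ∧ hst *ᵥ ev (Finset.univ : FI n) = s • ev ∅ := by
  obtain ⟨s, hs, h⟩ := hst_ev (Finset.univ : FI n)
  rw [Finset.compl_univ] at h
  exact ⟨s, left_ne_zero_of_mul_eq_one hs, h⟩

/-- the change law of `#` -/
theorem shv_change {w₁ w₂ J : Matrix (Fin n) (Fin n) ℂ} (hw : w₁ = Jᵀ * w₂ * J.map star)
    (hJ : IsUnit J.det) {u₁ u₂ : FI n → ℂ} (hu : J.det • u₁ = lam Jᵀ *ᵥ u₂) :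
    hst *ᵥ star (w₁.det • (lam w₁⁻¹ *ᵥ u₁)) =
      lam Jᵀ *ᵥ (hst *ᵥ star (w₂.det • (lam w₂⁻¹ *ᵥ u₂))) := by
  have hJs : IsUnit (J.map star).det := by
    have : (J.map star) = Jᴴᵀ := by ext; simp [Matrix.conjTranspose_apply]
    rw [this, Matrix.det_transpose, Matrix.det_conjTranspose]
    exact hJ.star
  have hJt : IsUnit (Jᵀ).det := by rw [Matrix.det_transpose]; exact hJ
  have hJsd : (J.map star).det = star J.det := by
    have : (J.map star) = Jᴴᵀ := by ext; simp [Matrix.conjTranspose_apply]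
    rw [this, Matrix.det_transpose, Matrix.det_conjTranspose]
  have h1 : w₁⁻¹ = (J.map star)⁻¹ * w₂⁻¹ * (Jᵀ)⁻¹ := by
    rw [hw, Matrix.mul_inv_rev, Matrix.mul_inv_rev, Matrix.mul_assoc]
  have h2 : w₁.det = star J.det * J.det * w₂.det := by
    rw [hw, Matrix.det_mul, Matrix.det_mul, Matrix.det_transpose, hJsd]
    ring
  -- `det w₁ lam w₁⁻¹ u₁ = conj (det J) lam (J̄⁻¹) (det w₂ lam w₂⁻¹ u₂)`
  have h3 : w₁.det • (lam w₁⁻¹ *ᵥ u₁) =
      star J.det • (lam (J.map star)⁻¹ *ᵥ (w₂.det • (lam w₂⁻¹ *ᵥ u₂))) := by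
    have h4 : J.det • (lam w₁⁻¹ *ᵥ u₁) = lam (J.map star)⁻¹ *ᵥ (lam w₂⁻¹ *ᵥ u₂) := by
      rw [← Matrix.mulVec_smul, hu, h1, lam_mul, lam_mul, Matrix.mulVec_mulVec,
        Matrix.mul_assoc, lam_inv_mul hJt, Matrix.mul_one, Matrix.mulVec_mulVec]
    rw [h2, Matrix.mulVec_smul, ← h4, smul_smul, smul_smul]
    congr 1
    ring
  have h5 : star (lam (J.map star)⁻¹ *ᵥ (w₂.det • (lam w₂⁻¹ *ᵥ u₂))) =
      lam J⁻¹ *ᵥ star (w₂.det • (lam w₂⁻¹ *ᵥ u₂)) := by
    have h6 : (lam J⁻¹).map star = lam (J.map star)⁻¹ := by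
      rw [lam_map_star]
      congr 1
      have h7 : (J⁻¹).map star = ((Jᴴ)⁻¹)ᵀ := by
        rw [← Matrix.conjTranspose_nonsing_inv]
        ext; simp [Matrix.conjTranspose_apply]
      rw [h7, Matrix.transpose_nonsing_inv]
      congr 1
    rw [← h6]
    ext I
    simp only [Matrix.mulVec, dotProduct, Pi.star_apply, star_sum, star_mul', Matrix.map_apply,
      star_star]
  rw [h3, star_smul, h5, star_star, Matrix.mulVec_smul, Matrix.mulVec_mulVec]
  have h8 : hst * lam J⁻¹ = (J⁻¹).det • (lam Jᵀ * hst) := hst_lam (by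
    rw [Matrix.transpose_transpose, Matrix.nonsing_inv_mul _ hJ])
  rw [h8, Matrix.smul_mulVec, smul_smul, Matrix.det_nonsing_inv, Ring.inverse_eq_inv',
    mul_inv_cancel₀ hJ.ne_zero, one_smul, ← Matrix.mulVec_mulVec]

end Vale.Agent.P299.IX
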