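import Vale.Agent.P299.H954.IX.Loc
import Vale.Agent.P299.H835.IX.Sharp

/-!
# P299, index theorem: anticommutators of `D' + δ` with the Clifford multiplication by a field

`X` is a holomorphic field (the `(1,0)` part of a Killing field), `c(X) = iotV X - epsV X^♭`.
-/

open scoped Manifold ContDiff ComplexOrder Topology Matrix
open Vale.Agent.P272.K Vale.Agent.P272.K.C2 Vale.Agent.P299.H954

noncomputable section

namespace Vale.Agent.P299.IX.Cl

open Fock

variable {n : ℕ} {w : Cm n → Matrix (Fin n) (Fin n) ℂ} {z : Cm n} {X : Cm n → Cm n} {k : ℕ}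
  {u : Cm n → FI n → ℂ}

/-- the `(1,0)`-form `w(·, v̄)` -/
def flatV (w : Cm n → Matrix (Fin n) (Fin n) ℂ) (z : Cm n) (v : Cm n) : Cm n :=
  w z *ᵥ star v

/-- Clifford multiplication by the real field with `(1,0)` part `v` -/
def cl (w : Cm n → Matrix (Fin n) (Fin n) ℂ) (z : Cm n) (v : Cm n) : Matrix (FI n) (FI n) ℂ :=
  iotV v - epsV (flatV w z v)

/-- the matrix `(∂_l X^m)_{l m}` -/
def dX (X : Cm n → Cm n) (z : Cm n) : Matrix (Fin n) (Fin n) ℂ :=
  Matrix.of fun l m => DV l X z m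

/-- `Σ_l X^l Γ_l` -/
def gX (w : Cm n → Matrix (Fin n) (Fin n) ℂ) (z : Cm n) (v : Cm n) : Matrix (Fin n) (Fin n) ℂ :=
  ∑ l, v l • Gam l w z

/-- `∇X` -/
def nabX (w : Cm n → Matrix (Fin n) (Fin n) ℂ) (X : Cm n → Cm n) (z : Cm n) :
    Matrix (Fin n) (Fin n) ℂ := dX X z + gX w z (X z)

theorem epd_eq (b : Fin n) : epd b w z = iotV (fun l => (w z)⁻¹ b l) := rfl

theorem iotV_neg (v : Fin n → ℂ) : iotV (-v) = -iotV v := by
  rw [← neg_one_smul ℂ, iotV_smul, neg_one_smul]

theorem epsV_neg (v : Fin n → ℂ) : epsV (-v) = -epsV v := by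
  rw [← neg_one_smul ℂ, epsV_smul, neg_one_smul]

theorem epsV_zero : epsV (0 : Fin n → ℂ) = 0 := by
  have := epsV_smul 0 (0 : Fin n → ℂ)
  rwa [zero_smul, zero_smul] at this

theorem iotV_zero : iotV (0 : Fin n → ℂ) = 0 := by
  have := iotV_smul 0 (0 : Fin n → ℂ)
  rwa [zero_smul, zero_smul] at this

/-- `c(v)² = -|v|²` -/
theorem cl_sq (v : Cm n) : cl w z v * cl w z v = -((v ⬝ᵥ flatV w z v) • 1) := by
  unfold cl
  have h := iotV_epsV v (flatV w z v)
  rw [Matrix.sub_mul, Matrix.mul_sub, Matrix.mul_sub, iotV_sq, epsV_sq, ← h]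
  abel

theorem VC_iotV {m : WithTop ℕ∞} {v : Cm n → Fin n → ℂ} (hv : VC m v z) :
    MC m (fun y => iotV (v y)) z := by
  intro K I
  have : (fun y => iotV (v y) K I) = fun y => ∑ l, v y l * iot l K I := by
    ext y
    unfold iotV
    rw [Matrix.sum_apply]
    exact Finset.sum_congr rfl fun l _ => by rw [Matrix.smul_apply, smul_eq_mul]
  rw [this]
  exact ContDiffAt.sum fun l _ => (hv l).mul contDiffAt_const

theorem VC_epsV {m : WithTop ℕ∞} {v : Cm n → Fin n → ℂ} (hv : VC m v z) :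
    MC m (fun y => epsV (v y)) z := by
  intro K I
  simp only [epsV_apply]
  exact ContDiffAt.sum fun l _ => (hv l).mul contDiffAt_const

theorem DM_iotV {v : Cm n → Fin n → ℂ} (hv : VC 1 v z) (l : Fin n) :
    DM l (fun y => iotV (v y)) z = iotV (DV l v z) := by
  have h1 := DM_epsV (fun p => hv.d one_ne_zero_inf p) l
  ext K I
  have h2 := congrFun (congrFun h1 I) K
  rw [DM_apply] at h2 ⊢
  have h3 : ∀ y, iotV (v y) K I = epsV (v y) I K := by
    intro y; rw [← epsV_transpose, Matrix.transpose_apply]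
  simp only [h3]
  rw [h2, ← epsV_transpose, Matrix.transpose_apply]
  rfl

theorem DMb_iotV {v : Cm n → Fin n → ℂ} (hv : VC 1 v z) (l : Fin n) :
    DMb l (fun y => iotV (v y)) z = iotV (DVb l v z) := by
  have h1 := DMb_epsV (fun p => hv.d one_ne_zero_inf p) l
  ext K I
  have h2 := congrFun (congrFun h1 I) K
  rw [DMb_apply] at h2 ⊢
  have h3 : ∀ y, iotV (v y) K I = epsV (v y) I K := by
    intro y; rw [← epsV_transpose, Matrix.transpose_apply]
  simp only [h3]
  rw [h2, ← epsV_transpose, Matrix.transpose_apply]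
  rfl

theorem DM_epsV' {v : Cm n → Fin n → ℂ} (hv : VC 1 v z) (l : Fin n) :
    DM l (fun y => epsV (v y)) z = epsV (DV l v z) :=
  DM_epsV (fun p => hv.d one_ne_zero_inf p) l

theorem DMb_epsV' {v : Cm n → Fin n → ℂ} (hv : VC 1 v z) (l : Fin n) :
    DMb l (fun y => epsV (v y)) z = epsV (DVb l v z) :=
  DMb_epsV (fun p => hv.d one_ne_zero_inf p) l

/-- derivatives of `X^♭` for holomorphic `X` -/
theorem VC_flat (h : KAt w z) (hX : VC 1 X z) : VC 1 (fun y => flatV w y (X y)) z :=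
  VC.mulVec (h.MC 1) (VC_star hX)

theorem DV_flat (h : KAt w z) (hX : VC 1 X z) (l : Fin n) :
    DV l (fun y => flatV w y (X y)) z = DM l w z *ᵥ star (X z) + w z *ᵥ star (DVb l X z) := by
  have h1 : (fun y => flatV w y (X y)) = fun y => w y *ᵥ star (X y) := rfl
  rw [h1, DV_mulVec (h.MC 1) (VC_star hX), DV_star hX]

theorem DVb_flat (h : KAt w z) (hX : VC 1 X z) (l : Fin n) :
    DVb l (fun y => flatV w y (X y)) z = DMb l w z *ᵥ star (X z) + w z *ᵥ star (DV l X z) := by
  have h1 : (fun y => flatV w y (X y)) = fun y => w y *ᵥ star (X y) := rfl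
  rw [h1, DVb_mulVec (h.MC 1) (VC_star hX), DVb_star hX]

/-- `{δ, ι_X} = 0` for `X` holomorphic -/
theorem De_iotV (hX : VC 1 X z) (hol : ∀ b, DVb b X z = 0) (hu : VC 1 u z) :
    De w (fun y => iotV (X y) *ᵥ u y) z = -(iotV (X z) *ᵥ De w u z) := by
  unfold De
  rw [Matrix.mulVec_neg, Matrix.mulVec_sum]
  congr 1
  rw [← Finset.sum_neg_distrib]
  refine Finset.sum_congr rfl fun b _ => ?_
  rw [DVb_mulVec (VC_iotV hX) hu, DMb_iotV hX, hol, iotV_zero, Matrix.zero_mulVec, zero_add,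
    Matrix.mulVec_mulVec, Matrix.mulVec_mulVec, epd_eq, iotV_iotV, Matrix.neg_mulVec]

/-- `{D', ι_X}` -/
theorem Dp_iotV (hX : VC 1 X z) (hu : VC 1 u z) :
    Dp k w (fun y => iotV (X y) *ᵥ u y) z + iotV (X z) *ᵥ Dp k w u z =
      ∑ l, X z l • (DV l u z + (k * tG l w z) • u z) + dlam (dX X z) *ᵥ u z := by
  unfold Dp
  rw [Matrix.mulVec_sum, ← Finset.sum_add_distrib, dlam_eq', Matrix.sum_mulVec,
    ← Finset.sum_add_distrib]
  refine Finset.sum_congr rfl fun l _ => ?_
  have h2 : eps l * iotV (X z) = X z l • 1 - iotV (X z) * eps l := by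
    rw [← iotV_eps]; abel
  have h3 : iotV (X z) *ᵥ DV l u z + (k * tG l w z) • (iotV (X z) *ᵥ u z) =
      iotV (X z) *ᵥ (DV l u z + (k * tG l w z) • u z) := by
    rw [Matrix.mulVec_add, Matrix.mulVec_smul]
  have h4 : eps l *ᵥ (iotV (X z) *ᵥ (DV l u z + (k * tG l w z) • u z)) +
      iotV (X z) *ᵥ (eps l *ᵥ (DV l u z + (k * tG l w z) • u z)) =
      X z l • (DV l u z + (k * tG l w z) • u z) := by
    rw [Matrix.mulVec_mulVec, Matrix.mulVec_mulVec, h2, Matrix.sub_mulVec, Matrix.smul_mulVec,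
      Matrix.one_mulVec]
    abel
  have h5 : eps l *ᵥ (iotV (DV l X z) *ᵥ u z) = (eps l * iotV fun m => dX X z l m) *ᵥ u z := by
    rw [Matrix.mulVec_mulVec]
    rfl
  rw [DV_mulVec (VC_iotV hX) hu, DM_iotV hX, add_assoc, h3, Matrix.mulVec_add, add_assoc, h4, h5]
  abel

/-- `{D', X^♭ ∧} = 0` -/
theorem Dp_epsV (h : KAt w z) (hX : VC 1 X z) (hol : ∀ b, DVb b X z = 0) (hu : VC 1 u z) :
    Dp k w (fun y => epsV (flatV w y (X y)) *ᵥ u y) z =
      -(epsV (flatV w z (X z)) *ᵥ Dp k w u z) := by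
  have hf := VC_flat h hX
  have e1 : ∀ l, eps l *ᵥ (DV l (fun y => epsV (flatV w y (X y)) *ᵥ u y) z +
      (k * tG l w z) • (epsV (flatV w z (X z)) *ᵥ u z)) =
      (eps l * epsV (DM l w z *ᵥ star (X z))) *ᵥ u z -
        epsV (flatV w z (X z)) *ᵥ (eps l *ᵥ (DV l u z + (k * tG l w z) • u z)) := by
    intro l
    have h3 : epsV (flatV w z (X z)) *ᵥ DV l u z + (k * tG l w z) • (epsV (flatV w z (X z)) *ᵥ u z) =
        epsV (flatV w z (X z)) *ᵥ (DV l u z + (k * tG l w z) • u z) := by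
      rw [Matrix.mulVec_add, Matrix.mulVec_smul]
    have h4 : eps l *ᵥ (epsV (flatV w z (X z)) *ᵥ (DV l u z + (k * tG l w z) • u z)) =
        -(epsV (flatV w z (X z)) *ᵥ (eps l *ᵥ (DV l u z + (k * tG l w z) • u z))) := by
      rw [Matrix.mulVec_mulVec, Matrix.mulVec_mulVec, eps_epsV, Matrix.neg_mulVec]
    rw [DV_mulVec (VC_epsV hf) hu, DM_epsV' hf, DV_flat h hX, hol, star_zero, Matrix.mulVec_zero,
      add_zero, add_assoc, h3, Matrix.mulVec_add, h4, Matrix.mulVec_mulVec]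
    abel
  have e2 : ∑ l, eps l * epsV (DM l w z *ᵥ star (X z)) = 0 := by
    have e3 : ∀ l, eps l * epsV (DM l w z *ᵥ star (X z)) =
        ∑ m, eps l * eps m * ((DM l w z *ᵥ star (X z)) m • (1 : Matrix (FI n) (FI n) ℂ)) := by
      intro l
      unfold epsV
      rw [Matrix.mul_sum]
      refine Finset.sum_congr rfl fun m _ => ?_
      rw [Matrix.mul_smul, Matrix.mul_smul, Matrix.mul_one]
    simp only [e3]
    refine sum_eps_symm fun l m => ?_
    congr 1
    simp only [Matrix.mulVec, dotProduct, DM_apply]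
    refine Finset.sum_congr rfl fun j _ => ?_
    rw [h.closed.self_of_nhds m j l]
  unfold Dp
  rw [Finset.sum_congr rfl fun l _ => e1 l, Finset.sum_sub_distrib, ← Matrix.sum_mulVec, e2,
    Matrix.zero_mulVec, zero_sub, Matrix.mulVec_sum]

/-- the matrix `∂̄X^♭ w⁻¹` -/
def nX (w : Cm n → Matrix (Fin n) (Fin n) ℂ) (X : Cm n → Cm n) (z : Cm n) :
    Matrix (Fin n) (Fin n) ℂ :=
  (Matrix.of fun m b => DVb b (fun y => flatV w y (X y)) z m) * (w z)⁻¹

/-- `{δ, X^♭ ∧}` -/
theorem De_epsV (h : KAt w z) (hX : VC 1 X z) (hu : VC 1 u z) :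
    De w (fun y => epsV (flatV w y (X y)) *ᵥ u y) z + epsV (flatV w z (X z)) *ᵥ De w u z =
      -(∑ b, star (X z b) • DVb b u z) - (nX w X z).trace • u z + dlam (nX w X z) *ᵥ u z := by
  have hf := VC_flat h hX
  set η : Cm n := flatV w z (X z) with hη
  have hinv : ∀ b, (fun l => (w z)⁻¹ b l) ⬝ᵥ η = star (X z b) := by
    intro b
    have : (w z)⁻¹ *ᵥ η = star (X z) := by
      rw [hη, flatV, Matrix.mulVec_mulVec, Matrix.nonsing_inv_mul _ h.unit, Matrix.one_mulVec]
    exact congrFun this b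
  have e1 : ∀ b, epd b w z *ᵥ DVb b (fun y => epsV (flatV w y (X y)) *ᵥ u y) z +
      epsV η *ᵥ (epd b w z *ᵥ DVb b u z) =
      (epd b w z * epsV (DVb b (fun y => flatV w y (X y)) z)) *ᵥ u z +
        star (X z b) • DVb b u z := by
    intro b
    have h2 : epd b w z * epsV η = star (X z b) • 1 - epsV η * epd b w z := by
      rw [epd_eq, eq_sub_iff_add_eq, iotV_epsV, hinv]
    rw [DVb_mulVec (VC_epsV hf) hu, DMb_epsV' hf, Matrix.mulVec_add, Matrix.mulVec_mulVec,
      Matrix.mulVec_mulVec, Matrix.mulVec_mulVec, ← hη, h2, Matrix.sub_mulVec, Matrix.smul_mulVec,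
      Matrix.one_mulVec]
    abel
  have e2 : ∑ b, epd b w z * epsV (DVb b (fun y => flatV w y (X y)) z) =
      (nX w X z).trace • 1 - dlam (nX w X z) := by
    have e3 : ∀ b, epd b w z * epsV (DVb b (fun y => flatV w y (X y)) z) =
        (∑ m, DVb b (fun y => flatV w y (X y)) z m * (w z)⁻¹ b m) • 1 -
          epsV (DVb b (fun y => flatV w y (X y)) z) * epd b w z := by
      intro b
      rw [epd_eq, eq_sub_iff_add_eq, iotV_epsV]
      congr 1
      rw [dotProduct]
      exact Finset.sum_congr rfl fun m _ => mul_comm _ _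
    rw [Finset.sum_congr rfl fun b _ => e3 b, Finset.sum_sub_distrib, ← Finset.sum_smul]
    congr 1
    · congr 1
      rw [Matrix.trace, Finset.sum_comm]
      refine Finset.sum_congr rfl fun m _ => ?_
      rw [Matrix.diag_apply, nX, Matrix.mul_apply]
      rfl
    · rw [dlam_eq']
      have e4 : ∀ b, epsV (DVb b (fun y => flatV w y (X y)) z) * epd b w z =
          ∑ m, DVb b (fun y => flatV w y (X y)) z m • (eps m * epd b w z) := by
        intro b
        unfold epsV
        rw [Finset.sum_mul]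
        exact Finset.sum_congr rfl fun m _ => Matrix.smul_mul _ _ _
      rw [Finset.sum_congr rfl fun b _ => e4 b, Finset.sum_comm]
      refine Finset.sum_congr rfl fun m _ => ?_
      have e5 : (fun l => nX w X z m l) =
          ∑ b, DVb b (fun y => flatV w y (X y)) z m • fun l => (w z)⁻¹ b l := by
        ext l
        rw [nX, Matrix.mul_apply, Finset.sum_apply]
        rfl
      rw [e5, iotV_sum, Finset.mul_sum]
      refine Finset.sum_congr rfl fun b _ => ?_
      rw [iotV_smul, Matrix.mul_smul, epd_eq]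
  have e6 : De w (fun y => epsV (flatV w y (X y)) *ᵥ u y) z + epsV η *ᵥ De w u z =
      -∑ b, (epd b w z *ᵥ DVb b (fun y => epsV (flatV w y (X y)) *ᵥ u y) z +
        epsV η *ᵥ (epd b w z *ᵥ DVb b u z)) := by
    unfold De
    rw [Matrix.mulVec_neg, Matrix.mulVec_sum, Finset.sum_add_distrib, neg_add]
  rw [e6, Finset.sum_congr rfl fun b _ => e1 b, Finset.sum_add_distrib, ← Matrix.sum_mulVec, e2,
    Matrix.sub_mulVec, Matrix.smul_mulVec, Matrix.one_mulVec]
  abel

/-- the Killing equation for the real field with `(1,0)`-part `X` -/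
def Kil (w : Cm n → Matrix (Fin n) (Fin n) ℂ) (X : Cm n → Cm n) (z : Cm n) : Prop :=
  ∑ l, X z l • DM l w z + ∑ b, star (X z b) • DMb b w z + dX X z * w z + w z * (dX X z)ᴴ = 0

/-- the derivative along the real field with `(1,0)`-part `X` -/
def lie (X : Cm n → Cm n) (u : Cm n → FI n → ℂ) (z : Cm n) : FI n → ℂ :=
  ∑ l, X z l • DV l u z + ∑ b, star (X z b) • DVb b u z

theorem closedb (h : KAt w z) (i j k : Fin n) :
    dzb k (fun y => w y j i) z = dzb i (fun y => w y j k) z := by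
  have h1 : ∀ a b, (fun y => w y a b) =ᶠ[𝓝 z] fun y => (starRingEnd ℂ) (w y b a) := by
    intro a b
    filter_upwards [h.pos] with y hy
    exact (congrFun (congrFun hy.isHermitian a) b).symm
  have hd : ∀ a b, DifferentiableAt ℝ (fun y => w y a b) z := fun a b =>
    (h.sm a b).differentiableAt (by simp)
  rw [dzb_congr (h1 j i), dzb_congr (h1 j k), dzb_conj k (hd i j), dzb_conj i (hd k j),
    h.closed.self_of_nhds i j k]

theorem nX_mul (h : KAt w z) (hX : VC 1 X z) :
    nX w X z * w z = ∑ b, star (X z b) • DMb b w z + w z * (dX X z)ᴴ := by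
  rw [nX, Matrix.mul_assoc, Matrix.nonsing_inv_mul _ h.unit, Matrix.mul_one]
  ext m b
  rw [Matrix.of_apply, DVb_flat h hX, Pi.add_apply, Matrix.add_apply]
  congr 1
  rw [Matrix.mulVec, dotProduct, Matrix.sum_apply]
  refine Finset.sum_congr rfl fun j _ => ?_
  rw [Matrix.smul_apply, DMb_apply, DMb_apply, smul_eq_mul, closedb h j m b, mul_comm]
  rfl

/-- the Killing equation in terms of `∇X` -/
theorem nX_eq (h : KAt w z) (hX : VC 1 X z) (hK : Kil w X z) : nX w X z = -nabX w X z := by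
  have h1 : (nX w X z + nabX w X z) * w z = 0 := by
    have h2 : gX w z (X z) * w z = ∑ l, X z l • DM l w z := by
      rw [gX, Matrix.sum_mul]
      refine Finset.sum_congr rfl fun l _ => ?_
      rw [Matrix.smul_mul, Gam, Matrix.mul_assoc, Matrix.nonsing_inv_mul _ h.unit, Matrix.mul_one]
    rw [Matrix.add_mul, nX_mul h hX, nabX, Matrix.add_mul, h2]
    rw [Kil] at hK
    rw [← hK]
    abel
  have h3 := congrArg (· * (w z)⁻¹) h1
  simp only [Matrix.mul_assoc, Matrix.mul_nonsing_inv _ h.unit, Matrix.mul_one,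
    Matrix.zero_mul] at h3
  exact eq_neg_of_add_eq_zero_left h3

theorem VC_flat' (h : KAt w z) {m : WithTop ℕ∞} (hm : m ≤ ∞) (hX : VC m X z) :
    VC m (fun y => flatV w y (X y)) z :=
  VC.mulVec (h.sm.mono hm) (VC_star hX)

theorem MC_cl (h : KAt w z) {m : WithTop ℕ∞} (hm : m ≤ ∞) (hX : VC m X z) :
    MC m (fun y => cl w y (X y)) z := (VC_iotV hX).sub (VC_epsV (VC_flat' h hm hX))

/-- `D' + δ` at a point -/
def DD (k : ℕ) (w : Cm n → Matrix (Fin n) (Fin n) ℂ) (u : Cm n → FI n → ℂ) (z : Cm n) :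
    FI n → ℂ := Dp k w u z + De w u z

theorem Dp_sub {v : Cm n → FI n → ℂ} (hu : VC 1 u z) (hv : VC 1 v z) :
    Dp k w (fun y => u y - v y) z = Dp k w u z - Dp k w v z := by
  unfold Dp
  rw [← Finset.sum_sub_distrib]
  refine Finset.sum_congr rfl fun l _ => ?_
  have h1 : DV l (fun y => u y - v y) z = DV l u z - DV l v z := by
    ext i; exact dz_sub l (hu.d one_ne_zero_inf i) (hv.d one_ne_zero_inf i)
  rw [h1, ← Matrix.mulVec_sub, smul_sub]
  congr 1
  abel

theorem De_sub {v : Cm n → FI n → ℂ} (hu : VC 1 u z) (hv : VC 1 v z) :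
    De w (fun y => u y - v y) z = De w u z - De w v z := by
  unfold De
  have h1 : ∀ b, DVb b (fun y => u y - v y) z = DVb b u z - DVb b v z := by
    intro b
    ext i; exact dzb_sub b (hu.d one_ne_zero_inf i) (hv.d one_ne_zero_inf i)
  simp only [h1, Matrix.mulVec_sub, Finset.sum_sub_distrib]
  abel

/-- **the anticommutator** `{D' + δ, c(X)}` for a Killing field -/
theorem anti_cl (h : KAt w z) (hX : VC 1 X z) (hol : ∀ b, DVb b X z = 0) (hK : Kil w X z)
    (hu : VC 1 u z) :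
    DD k w (fun y => cl w y (X y) *ᵥ u y) z + cl w z (X z) *ᵥ DD k w u z =
      lie X u z + (k * ∑ l, X z l * tG l w z) • u z + dlam (dX X z) *ᵥ u z +
        dlam (nabX w X z) *ᵥ u z - (nabX w X z).trace • u z := by
  have h1 : VC 1 (fun y => iotV (X y) *ᵥ u y) z := VC.mulVec (VC_iotV hX) hu
  have h2 : VC 1 (fun y => epsV (flatV w y (X y)) *ᵥ u y) z :=
    VC.mulVec (VC_epsV (VC_flat h hX)) hu
  have e1 : (fun y => cl w y (X y) *ᵥ u y) = fun y =>
      iotV (X y) *ᵥ u y - epsV (flatV w y (X y)) *ᵥ u y := by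
    ext1 y; rw [cl, Matrix.sub_mulVec]
  have e2 := Dp_iotV (k := k) (w := w) hX hu
  have e3 := De_iotV (w := w) hX hol hu
  have e4 := Dp_epsV (k := k) h hX hol hu
  have e5 := De_epsV h hX hu
  rw [nX_eq h hX hK, Matrix.trace_neg, neg_smul, dlam_neg, Matrix.neg_mulVec] at e5
  have e6 : DD k w (fun y => cl w y (X y) *ᵥ u y) z + cl w z (X z) *ᵥ DD k w u z =
      (Dp k w (fun y => iotV (X y) *ᵥ u y) z + iotV (X z) *ᵥ Dp k w u z) +
      (De w (fun y => iotV (X y) *ᵥ u y) z + iotV (X z) *ᵥ De w u z) -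
      (Dp k w (fun y => epsV (flatV w y (X y)) *ᵥ u y) z +
        epsV (flatV w z (X z)) *ᵥ Dp k w u z) -
      (De w (fun y => epsV (flatV w y (X y)) *ᵥ u y) z +
        epsV (flatV w z (X z)) *ᵥ De w u z) := by
    rw [e1, DD, DD, Dp_sub h1 h2, De_sub h1 h2, cl, Matrix.sub_mulVec, Matrix.mulVec_add,
      Matrix.mulVec_add]
    abel
  have e7 : ∑ l, X z l • (DV l u z + (k * tG l w z) • u z) =
      ∑ l, X z l • DV l u z + (k * ∑ l, X z l * tG l w z) • u z := by
    rw [Finset.mul_sum, Finset.sum_smul, ← Finset.sum_add_distrib]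
    refine Finset.sum_congr rfl fun l _ => ?_
    rw [smul_add, smul_smul]
    congr 2
    ring
  rw [e6, e2, e3, e4, e5, e7, lie]
  abel

theorem trace_nabX : (nabX w X z).trace = (dX X z).trace + ∑ l, X z l * tG l w z := by
  rw [nabX, Matrix.trace_add, gX, Matrix.trace_sum]
  congr 1
  exact Finset.sum_congr rfl fun l _ => by rw [Matrix.trace_smul]; rfl

/-- the anticommutator on invariant sections: a zeroth order term -/
theorem anti_cl_inv (h : KAt w z) (hX : VC 1 X z) (hol : ∀ b, DVb b X z = 0) (hK : Kil w X z)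
    (hu : VC 1 u z)
    (hinv : lie X u z + dlam (dX X z) *ᵥ u z = (k * (dX X z).trace) • u z) :
    DD k w (fun y => cl w y (X y) *ᵥ u y) z + cl w z (X z) *ᵥ DD k w u z =
      ((k - 1) * (nabX w X z).trace) • u z + dlam (nabX w X z) *ᵥ u z := by
  rw [anti_cl h hX hol hK hu]
  have e1 : lie X u z + (k * ∑ l, X z l * tG l w z) • u z + dlam (dX X z) *ᵥ u z =
      (k * (nabX w X z).trace) • u z := by
    rw [trace_nabX, mul_add, add_smul, ← hinv]
    abel
  rw [e1, sub_mul, sub_smul, one_mul]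
  abel

/-- the symbol of `D' + δ` -/
def symb (w : Cm n → Matrix (Fin n) (Fin n) ℂ) (z : Cm n) (a b : Cm n) :
    Matrix (FI n) (FI n) ℂ := epsV a - ∑ l, b l • epd l w z

theorem DD_smul {f : Cm n → ℂ} (hf : ContDiffAt ℝ 1 f z) (hu : VC 1 u z) :
    DD k w (fun y => f y • u y) z = f z • DD k w u z +
      symb w z (fun l => dz l f z) (fun b => dzb b f z) *ᵥ u z := by
  have e1 : Dp k w (fun y => f y • u y) z = f z • Dp k w u z +
      epsV (fun l => dz l f z) *ᵥ u z := by
    unfold Dp epsV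
    rw [Finset.smul_sum, Matrix.sum_mulVec, ← Finset.sum_add_distrib]
    refine Finset.sum_congr rfl fun l _ => ?_
    rw [DV_smul hf hu, Matrix.mulVec_add, Matrix.mulVec_add, Matrix.mulVec_add,
      Matrix.mulVec_smul, Matrix.mulVec_smul, Matrix.mulVec_smul, Matrix.mulVec_smul,
      Matrix.mulVec_smul, smul_add, Matrix.smul_mulVec, smul_comm (f z)]
    abel
  have e2 : De w (fun y => f y • u y) z = f z • De w u z -
      (∑ b, dzb b f z • epd b w z) *ᵥ u z := by
    unfold De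
    rw [smul_neg, Finset.smul_sum, Matrix.sum_mulVec, sub_eq_add_neg, ← neg_add,
      ← Finset.sum_add_distrib]
    congr 1
    refine Finset.sum_congr rfl fun b _ => ?_
    rw [DVb_smul hf hu, Matrix.mulVec_add, Matrix.mulVec_smul, Matrix.mulVec_smul,
      Matrix.smul_mulVec]
    abel
  rw [DD, e1, e2, DD, symb, Matrix.sub_mulVec, smul_add]
  abel

/-! ### the zeroth order term -/

/-- `{D' + δ, f c(X)} = f • lie X + RR` -/
def RR (k : ℕ) (w : Cm n → Matrix (Fin n) (Fin n) ℂ) (X : Cm n → Cm n) (f : Cm n → ℂ) (z : Cm n) :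
    Matrix (FI n) (FI n) ℂ :=
  f z • ((k * ∑ l, X z l * tG l w z) • 1 + dlam (dX X z) + (nX w X z).trace • 1 -
    dlam (nX w X z)) + symb w z (fun l => dz l f z) (fun b => dzb b f z) * cl w z (X z)

/-- the anticommutator with `c(X)`, without the Killing equation -/
theorem anti_cl' (h : KAt w z) (hX : VC 1 X z) (hol : ∀ b, DVb b X z = 0) (hu : VC 1 u z) :
    DD k w (fun y => cl w y (X y) *ᵥ u y) z + cl w z (X z) *ᵥ DD k w u z =
      lie X u z + (k * ∑ l, X z l * tG l w z) • u z + dlam (dX X z) *ᵥ u z +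
        (nX w X z).trace • u z - dlam (nX w X z) *ᵥ u z := by
  have h1 : VC 1 (fun y => iotV (X y) *ᵥ u y) z := VC.mulVec (VC_iotV hX) hu
  have h2 : VC 1 (fun y => epsV (flatV w y (X y)) *ᵥ u y) z :=
    VC.mulVec (VC_epsV (VC_flat h hX)) hu
  have e1 : (fun y => cl w y (X y) *ᵥ u y) = fun y =>
      iotV (X y) *ᵥ u y - epsV (flatV w y (X y)) *ᵥ u y := by
    ext1 y; rw [cl, Matrix.sub_mulVec]
  have e2 := Dp_iotV (k := k) (w := w) hX hu
  have e3 := De_iotV (w := w) hX hol hu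
  have e4 := Dp_epsV (k := k) h hX hol hu
  have e5 := De_epsV h hX hu
  have e6 : DD k w (fun y => cl w y (X y) *ᵥ u y) z + cl w z (X z) *ᵥ DD k w u z =
      (Dp k w (fun y => iotV (X y) *ᵥ u y) z + iotV (X z) *ᵥ Dp k w u z) +
      (De w (fun y => iotV (X y) *ᵥ u y) z + iotV (X z) *ᵥ De w u z) -
      (Dp k w (fun y => epsV (flatV w y (X y)) *ᵥ u y) z +
        epsV (flatV w z (X z)) *ᵥ Dp k w u z) -
      (De w (fun y => epsV (flatV w y (X y)) *ᵥ u y) z +
        epsV (flatV w z (X z)) *ᵥ De w u z) := by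
    rw [e1, DD, DD, Dp_sub h1 h2, De_sub h1 h2, cl, Matrix.sub_mulVec, Matrix.mulVec_add,
      Matrix.mulVec_add]
    abel
  have e7 : ∑ l, X z l • (DV l u z + (k * tG l w z) • u z) =
      ∑ l, X z l • DV l u z + (k * ∑ l, X z l * tG l w z) • u z := by
    rw [Finset.mul_sum, Finset.sum_smul, ← Finset.sum_add_distrib]
    refine Finset.sum_congr rfl fun l _ => ?_
    rw [smul_add, smul_smul]
    congr 2
    ring
  rw [e6, e2, e3, e4, e5, e7, lie]
  abel

/-- **(A1)** the anticommutator with `f c(X)` -/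
theorem anti_RR (h : KAt w z) (hX : VC 1 X z) (hol : ∀ b, DVb b X z = 0) {f : Cm n → ℂ}
    (hf : ContDiffAt ℝ 1 f z) (hu : VC 1 u z) :
    DD k w (fun y => f y • (cl w y (X y) *ᵥ u y)) z + f z • (cl w z (X z) *ᵥ DD k w u z) =
      f z • lie X u z + RR k w X f z *ᵥ u z := by
  have h1 : VC 1 (fun y => cl w y (X y) *ᵥ u y) z :=
    VC.mulVec (MC_cl h (by exact_mod_cast le_top) hX) hu
  have e1 := anti_cl' (k := k) h hX hol hu
  have e2 : DD k w (fun y => cl w y (X y) *ᵥ u y) z = (lie X u z +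
      (k * ∑ l, X z l * tG l w z) • u z + dlam (dX X z) *ᵥ u z +
        (nX w X z).trace • u z - dlam (nX w X z) *ᵥ u z) - cl w z (X z) *ᵥ DD k w u z :=
    eq_sub_of_add_eq e1
  rw [DD_smul hf h1, e2, RR, Matrix.add_mulVec, Matrix.smul_mulVec, Matrix.sub_mulVec,
    Matrix.add_mulVec, Matrix.add_mulVec, Matrix.smul_mulVec, Matrix.smul_mulVec,
    Matrix.one_mulVec, Matrix.mulVec_mulVec]
  simp only [smul_add, smul_sub]
  abel

/-- `RR` on invariant sections, for Killing fields -/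
theorem RR_kil (h : KAt w z) (hX : VC 1 X z) (hK : Kil w X z) (f : Cm n → ℂ) :
    RR k w X f z - f z • dlam (dX X z) + (f z * (k * (dX X z).trace)) • 1 =
      f z • (((k - 1) * (nabX w X z).trace) • 1 + dlam (nabX w X z)) +
        symb w z (fun l => dz l f z) (fun b => dzb b f z) * cl w z (X z) := by
  rw [RR, nX_eq h hX hK, Matrix.trace_neg, dlam_neg, mul_smul, trace_nabX]
  simp only [smul_add, smul_sub, smul_neg, neg_smul, sub_neg_eq_add, smul_smul]
  have e1 : (f z * ((k - 1) * ((dX X z).trace + ∑ l, X z l * tG l w z))) •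
      (1 : Matrix (FI n) (FI n) ℂ) = (f z * (k * ∑ l, X z l * tG l w z)) • 1 +
      (f z * (k * (dX X z).trace)) • 1 -
      (f z * ((dX X z).trace + ∑ l, X z l * tG l w z)) • 1 := by
    rw [← add_smul, ← sub_smul]
    congr 1
    ring
  rw [e1]
  abel

theorem gX_zero (h0 : X z = 0) : gX w z (X z) = 0 := by
  rw [gX, h0]
  simp

theorem nabX_zero (h0 : X z = 0) : nabX w X z = dX X z := by
  rw [nabX, gX_zero h0, add_zero]

theorem cl_zero (h0 : X z = 0) : cl w z (X z) = 0 := by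
  rw [cl, flatV, h0, star_zero, Matrix.mulVec_zero, iotV_zero, epsV_zero, sub_zero]

theorem MC_dlam {m : WithTop ℕ∞} {A : Cm n → Matrix (Fin n) (Fin n) ℂ} (hA : MC m A z) :
    MC m (fun y => dlam (A y)) z := by
  unfold dlam
  exact MC_sum _ fun a _ => MC_sum _ fun l _ => MC_smul (hA a l) (MC_const _)

theorem MC_dX (hX : VC ∞ X z) : MC ∞ (dX X) z := fun l m =>
  contDiffAt_dz l (hX m) inf_add_one

theorem MC_nX (h : KAt w z) (hX : VC ∞ X z) : MC ∞ (nX w X) z := by
  have h1 : VC ∞ (fun y => flatV w y (X y)) z := VC_flat' h le_rfl hX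
  refine MC.mul ?_ h.inv
  intro m b
  exact contDiffAt_dzb b (h1 m) inf_add_one

theorem MC_symb (h : KAt w z) {m : WithTop ℕ∞} (hm : m ≤ ∞) {a b : Cm n → Cm n} (ha : VC m a z)
    (hb : VC m b z) : MC m (fun y => symb w y (a y) (b y)) z :=
  (VC_epsV ha).sub (MC_sum _ fun l _ => MC_smul (hb l) ((MC_epd h l).mono hm))

theorem MC_RR (h : KAt w z) (hX : VC ∞ X z) {f : Cm n → ℂ} (hf : ContDiffAt ℝ ∞ f z) :
    MC ∞ (RR k w X f) z := by
  have h1 : ContDiffAt ℝ ∞ (fun y => (k : ℂ) * ∑ l, X y l * tG l w y) z :=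
    contDiffAt_const.mul (ContDiffAt.sum fun l _ => (hX l).mul (contDiffAt_tG h))
  have h2 : MC ∞ (fun y => symb w y (fun l => dz l f y) (fun b => dzb b f y)) z :=
    MC_symb h le_rfl (fun l => contDiffAt_dz l hf inf_add_one)
      (fun l => contDiffAt_dzb l hf inf_add_one)
  refine MC.add (MC_smul hf (MC.sub (MC.add (MC.add (MC_smul h1 (MC_const _))
    (MC_dlam (MC_dX hX))) (MC_smul (MC_nX h hX).trace (MC_const _))) (MC_dlam (MC_nX h hX)))) ?_
  exact MC.mul h2 (MC_cl h le_rfl hX)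

theorem dlam_ev_univ (A : Matrix (Fin n) (Fin n) ℂ) :
    dlam A *ᵥ ev Finset.univ = A.trace • ev Finset.univ := by
  have h1 : ∀ a l : Fin n, (eps a * iot l) *ᵥ ev (Finset.univ : FI n) =
      if l = a then ev Finset.univ else 0 := by
    intro a l
    rw [eq_sub_of_add_eq' (car l a), Matrix.sub_mulVec, ← Matrix.mulVec_mulVec,
      eps_ev_of_mem (Finset.mem_univ a), Matrix.mulVec_zero, sub_zero]
    split_ifs <;> simp
  rw [dlam, Matrix.sum_mulVec, Matrix.trace, Finset.sum_smul]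
  refine Finset.sum_congr rfl fun a _ => ?_
  rw [Matrix.sum_mulVec, Finset.sum_eq_single a]
  · rw [Matrix.smul_mulVec, h1, if_pos rfl]
    rfl
  · intro l _ hl
    rw [Matrix.smul_mulVec, h1, if_neg hl, smul_zero]
  · simp

end Vale.Agent.P299.IX.Cl
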