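import Vale.Agent.P299.H835.IX.KzGlob
import Vale.Agent.P299.H585.Lift
import Vale.Agent.P299.H435.Avg.Pb
import Vale.Agent.P299.H582.Kir.Vf
import Vale.Agent.P299.H800.Kir.Defs
import Vale.Agent.P299.H863.IdxP

/-!
# P299, index theorem: `B` commutes with the pull backs by the torus, the parity operator
-/

open scoped Manifold ContDiff ComplexOrder Topology Matrix Kronecker
open Set Filter
open Vale.Agent.P272.K Vale.Agent.P272.K.C2 Vale.Agent.P299.H954

set_option linter.unusedSectionVars false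

noncomputable section

namespace Vale.Agent.P299.IX.Kz

open Fock Cl

section point

variable {n N r : ℕ}

/-- the change law of `B` for an invertible matrix `J` -/
theorem Bm_change {w₁ w₂ : Cm n → Matrix (Fin n) (Fin n) ℂ} {z₁ z₂ : Cm n}
    {J : Matrix (Fin n) (Fin n) ℂ} (hJ0 : J.det ≠ 0)
    (hw : w₁ z₁ = Jᵀ * w₂ z₂ * J.map (starRingEnd ℂ)) {k0 : ℕ} {s₁ s₂ : Fin N → ℂ}
    (hs : ∀ j, J.det ^ k0 * s₁ j = s₂ j) {v₁ v₂ : Cm n} (hv : v₂ = J *ᵥ v₁) :
    Bm w₁ z₁ s₁ (fun j => (starRingEnd ℂ) (s₁ j) * (w₁ z₁).det ^ k0) v₁ *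
        (lam Jᵀ ⊗ₖ (dgl fun p => (J.det⁻¹) ^ (1 + p * k0) : FM N)) =
      (lam Jᵀ ⊗ₖ (dgl fun p => (J.det⁻¹) ^ (1 + p * k0) : FM N)) *
        Bm w₂ z₂ s₂ (fun j => (starRingEnd ℂ) (s₂ j) * (w₂ z₂).det ^ k0) v₂ := by
  have hc : ∀ p : ℕ, (J.det⁻¹) ^ (1 + (p + 1) * k0) =
      (J.det⁻¹) ^ k0 * (J.det⁻¹) ^ (1 + p * k0) := by
    intro p; ring
  have hq : (J.det⁻¹) ^ k0 * J.det ^ k0 = 1 := by
    rw [← mul_pow, inv_mul_cancel₀ hJ0, one_pow]
  have h1 : s₂ = J.det ^ k0 • s₁ := by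
    ext j; exact (hs j).symm
  have hdet : (w₁ z₁).det = ((‖J.det‖ ^ 2 : ℝ) : ℂ) * (w₂ z₂).det := chg_det hw
  have h2 : (fun j => (starRingEnd ℂ) (s₁ j) * (w₁ z₁).det ^ k0) =
      J.det ^ k0 • fun j => (starRingEnd ℂ) (s₂ j) * (w₂ z₂).det ^ k0 := by
    ext j
    rw [Pi.smul_apply, smul_eq_mul, ← hs j, hdet, map_mul, map_pow, mul_pow]
    have h3 : ((‖J.det‖ ^ 2 : ℝ) : ℂ) = J.det * (starRingEnd ℂ) J.det := by
      rw [Complex.ofReal_pow, ← Complex.mul_conj']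
    rw [h3, mul_pow]
    ring
  have h3 : epsV s₁ * (dgl fun p => (J.det⁻¹) ^ (1 + p * k0) : FM N) =
      (dgl fun p => (J.det⁻¹) ^ (1 + p * k0)) * epsV s₂ := by
    rw [h1, epsV_smul, Matrix.mul_smul, dgl_epsV_geo hc, smul_smul, mul_comm, hq, one_smul]
  have h4 : iotV (fun j => (starRingEnd ℂ) (s₁ j) * (w₁ z₁).det ^ k0) *
      (dgl fun p => (J.det⁻¹) ^ (1 + p * k0) : FM N) =
      (dgl fun p => (J.det⁻¹) ^ (1 + p * k0)) *
        iotV (fun j => (starRingEnd ℂ) (s₂ j) * (w₂ z₂).det ^ k0) := by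
    rw [h2, iotV_smul, Matrix.smul_mul, iotV_dgl_geo hc, smul_smul, mul_comm, hq, one_smul]
  have h6 := cl_change hw v₁
  unfold Bm
  rw [Matrix.add_mul, Matrix.mul_add, kron_mul, kron_mul, Matrix.smul_mul,
    Matrix.mul_smul, kron_mul, kron_mul, Matrix.one_mul, Matrix.mul_one, Matrix.add_mul,
    Matrix.mul_add, h3, h4, par_lam, hv, h6]

end point

section torus

variable {n r : ℕ} {Z : Type} [TopologicalSpace Z] [ChartedSpace (Cm n) Z]
  [IsManifold 𝓘(ℂ, Cm n) ω Z] {w : D.FormM n Z} (T : D.TorusAct r n Z w)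

/-- the generating fields of the torus are invariant under the torus -/
theorem vf_act (ξ : Fin r → ℝ) (t : Fin r → ℝ) {e e' : Chart n Z} {x : Z} (h : At e x)
    (h' : At e' (T.a t x)) : H582.vf T ξ e' (e' (T.a t x)) =
      D.jacF (T.a t) e e' x *ᵥ H582.vf T ξ e (e x) := by
  have hcomm : ∀ s, T.a s (T.a t x) = T.a t (T.a s x) := fun s => by
    rw [← T.add, ← T.add, add_comm]
  have h1 : (fun s : Fin r → ℝ => e' (T.a s (T.a t x))) =ᶠ[𝓝 0]
      fun s => e' (T.a t (e.symm (e (T.a s x)))) := by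
    have h2 : ∀ᶠ s in 𝓝 (0 : Fin r → ℝ), T.a s x ∈ e.source := by
      refine (H582.continuous_orbit T x).continuousAt.eventually_mem
        (e.open_source.mem_nhds ?_)
      rw [T.zero]; exact h.2
    filter_upwards [h2] with s hs
    rw [e.left_inv hs, hcomm]
  have h3 : DifferentiableAt ℝ (fun s : Fin r → ℝ => e (T.a s x)) 0 := by
    have h4 := (H582.act_smooth T h h).differentiableAt (by simp)
    have h5 := H582.hasFDerivAt_slice h4
    simp only [h.left_inv] at h5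
    exact h5.differentiableAt
  have h0 : e (T.a 0 x) = e x := by rw [T.zero]
  have hτ : DifferentiableAt ℂ (fun z => e' (T.a t (e.symm z))) (e x) :=
    H956.rep_diff (T.hol t).contMDiffAt h h'
  have h7 : DifferentiableAt ℝ (fun z => e' (T.a t (e.symm z))) (e (T.a 0 x)) := by
    rw [h0]; exact hτ.restrictScalars ℝ
  have h8 := (h7.hasFDerivAt.comp (0 : Fin r → ℝ) h3.hasFDerivAt)
  unfold H582.vf
  simp only [h'.left_inv, h.left_inv]
  rw [h1.fderiv_eq]
  have h9 : (fun s : Fin r → ℝ => e' (T.a t (e.symm (e (T.a s x))))) =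
      (fun z => e' (T.a t (e.symm z))) ∘ fun s => e (T.a s x) := rfl
  rw [h9, h8.fderiv, h0]
  ext p
  have h11 : fderiv ℝ (fun z => e' (T.a t (e.symm z))) (e x) =
      (fderiv ℂ (fun z => e' (T.a t (e.symm z))) (e x)).restrictScalars ℝ :=
    (hτ.hasFDerivAt.restrictScalars ℝ).fderiv
  rw [ContinuousLinearMap.comp_apply, h11, ContinuousLinearMap.coe_restrictScalars']
  have h12 : D.jacF (T.a t) e e' x = jmat (fun z => e' (T.a t (e.symm z))) (e x) := rfl
  rw [h12, jmat_mulVec hτ]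
  rfl

/-- `(1,0)` vector field invariant under the torus -/
def VInv (X : D.VField n Z) : Prop := ∀ t (e e' : Chart n Z) x, At e x → At e' (T.a t x) →
  X e' (e' (T.a t x)) = D.jacF (T.a t) e e' x *ᵥ X e (e x)

theorem vInv_vf (ξ : Fin r → ℝ) : VInv T (H582.vf T ξ) := fun t _ _ _ h h' => vf_act T ξ t h h'

variable {k0 N q : ℕ}

/-- the lift of the torus action to the total bundle -/
abbrev Ltot (hw : IsKahler w) (k0 N : ℕ) : Lift T (Btot hw k0 N) :=
  Lift.sum fun S : FI N => liftFB T (1 + S.card * k0) hw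

theorem Ltot_R (hw : IsKahler w) (t : Fin r → ℝ) (e e' : Chart n Z) (x : Z) :
    (Ltot T hw k0 N).R t e e' x = lam (D.jacF (T.a t) e e' x)ᵀ ⊗ₖ
      (dgl fun p => ((D.jacF (T.a t) e e' x).det⁻¹) ^ (1 + p * k0) : FM N) :=
  blockDiagonal_eq (fun p => ((D.jacF (T.a t) e e' x).det⁻¹) ^ (1 + p * k0))
    (lam (D.jacF (T.a t) e e' x)ᵀ)

/-- **`B` is invariant under the torus** -/
theorem BopX_act (hw : IsKahler w) {s : Fin N → Chart n Z → Cm n → ℂ}
    (hs : ∀ j, H800.Kir.Wsec T k0 0 (s j)) {f : Fin q → Z → ℝ}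
    (hf : ∀ a t x, f a (T.a t x) = f a x) {X : Fin q → D.VField n Z}
    (hX : ∀ a, VInv T (X a)) (t : Fin r → ℝ) {e e' : Chart n Z} {x : Z} (h : At e x)
    (h' : At e' (T.a t x)) :
    BopX k0 w s f X e (e x) * (Ltot T hw k0 N).R t e e' x =
      (Ltot T hw k0 N).R t e e' x * BopX k0 w s f X e' (e' (T.a t x)) := by
  rw [Ltot_R]
  refine Bm_change (torus_det_ne T t h h') (torus_pull T hw.toIsHermitian t h h') (fun j => ?_) ?_
  · have h1 := (hs j).law t e e' x h h'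
    have h2 : H582.ch (0 : Fin r → ℤ) t = 1 := by simp [H582.ch]
    rw [h2, mul_one] at h1
    exact h1
  · unfold vtot
    rw [Matrix.mulVec_sum]
    refine Finset.sum_congr rfl fun a _ => ?_
    show (f a (e'.symm (e' (T.a t x))) : ℂ) • X a e' (e' (T.a t x)) =
      D.jacF (T.a t) e e' x *ᵥ ((f a (e.symm (e x)) : ℂ) • X a e (e x))
    rw [Matrix.mulVec_smul, hX a t e e' x h h', e.left_inv h.2, e'.left_inv h'.2, hf]

end torus

end Vale.Agent.P299.IX.Kz
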