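import Vale.Agent.P299.H598.IX.Op
import Vale.Agent.P299.H835.IX.Anti
import Mathlib.LinearAlgebra.Matrix.Kronecker

/-!
# P299, index theorem: the Koszul and Clifford operators on the total bundle
`⊕_S Λ^{*,0} ⊗ (-k_S K)`, `k_S = 1 + |S| k₀`
-/

open scoped Manifold ContDiff ComplexOrder Topology Matrix Kronecker
open Vale.Agent.P272.K Vale.Agent.P272.K.C2 Vale.Agent.P299.H954

noncomputable section

namespace Vale.Agent.P299.IX.Kz

open Fock Cl

section algebra

variable {n N : ℕ}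

/-! ### Kronecker products -/

theorem kron_mulVec (A : FM n) (B : FM N) (v : FI n × FI N → ℂ) (I : FI n) (S : FI N) :
    ((A ⊗ₖ B) *ᵥ v) (I, S) = ∑ T, B S T * (A *ᵥ fun J => v (J, T)) I := by
  simp only [Matrix.mulVec, dotProduct, Fintype.sum_prod_type_right, Matrix.kroneckerMap_apply,
    Finset.mul_sum]
  refine Finset.sum_congr rfl fun T _ => Finset.sum_congr rfl fun J _ => ?_
  ring

theorem kron_one_mulVec (A : FM n) (v : FI n × FI N → ℂ) (I : FI n) (S : FI N) :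
    ((A ⊗ₖ (1 : FM N)) *ᵥ v) (I, S) = (A *ᵥ fun J => v (J, S)) I := by
  rw [kron_mulVec, Finset.sum_eq_single S]
  · rw [Matrix.one_apply_eq, one_mul]
  · intro T _ hT
    rw [Matrix.one_apply_ne hT.symm, zero_mul]
  · intro h
    exact absurd (Finset.mem_univ _) h

theorem kron_dgl_mulVec (c : ℕ → ℂ) (v : FI n × FI N → ℂ) (I : FI n) (S : FI N) :
    (((1 : FM n) ⊗ₖ (dgl c : FM N)) *ᵥ v) (I, S) = c S.card * v (I, S) := by
  rw [kron_mulVec, Finset.sum_eq_single S]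
  · rw [Matrix.one_mulVec, dgl, Matrix.diagonal_apply_eq]
  · intro T _ hT
    rw [dgl, Matrix.diagonal_apply_ne _ hT.symm, zero_mul]
  · intro h
    exact absurd (Finset.mem_univ _) h

theorem blockDiagonal_eq (c : ℕ → ℂ) (L : FM n) :
    Matrix.blockDiagonal (fun S : FI N => c S.card • L) = L ⊗ₖ (dgl c : FM N) := by
  ext ⟨I, S⟩ ⟨J, T⟩
  rw [Matrix.blockDiagonal_apply, Matrix.kroneckerMap_apply, dgl, Matrix.diagonal_apply]
  by_cases h : S = T
  · subst h
    simp only [if_true, Matrix.smul_apply, smul_eq_mul]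
    ring
  · rw [if_neg h, if_neg h, mul_zero]

theorem kron_add_left (A A' : FM n) (B : FM N) : (A + A') ⊗ₖ B = A ⊗ₖ B + A' ⊗ₖ B :=
  Matrix.add_kronecker _ _ _

theorem kron_mul (A A' : FM n) (B B' : FM N) : (A ⊗ₖ B) * (A' ⊗ₖ B') = (A * A') ⊗ₖ (B * B') :=
  (Matrix.mul_kronecker_mul _ _ _ _).symm

/-- the weight is multiplied by `q` under `eps` -/
theorem dgl_eps_geo {c : ℕ → ℂ} {q : ℂ} (hc : ∀ p, c (p + 1) = q * c p) (j : Fin N) :
    (dgl c : FM N) * eps j = q • (eps j * dgl c) := by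
  rw [dgl_eps, ← Matrix.mul_smul]
  congr 1
  ext I K
  simp only [dgl, Matrix.diagonal_apply, Matrix.smul_apply, smul_eq_mul]
  split_ifs
  · exact hc _
  · rw [mul_zero]

theorem iot_dgl_geo {c : ℕ → ℂ} {q : ℂ} (hc : ∀ p, c (p + 1) = q * c p) (j : Fin N) :
    iot j * (dgl c : FM N) = q • (dgl c * iot j) := by
  rw [← dgl_iot, ← Matrix.smul_mul]
  congr 1
  ext I K
  simp only [dgl, Matrix.diagonal_apply, Matrix.smul_apply, smul_eq_mul]
  split_ifs
  · exact hc _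
  · rw [mul_zero]

/-- the diagonal matrix `k_S` -/
def KK (k0 N : ℕ) : FM N := dgl fun p => ((1 + p * k0 : ℕ) : ℂ)

theorem KK_eps (k0 : ℕ) (j : Fin N) : KK k0 N * eps j = eps j * KK k0 N + (k0 : ℂ) • eps j := by
  have h : (dgl fun p => ((1 + (p + 1) * k0 : ℕ) : ℂ) : FM N) = KK k0 N + (k0 : ℂ) • 1 := by
    ext I K
    simp only [KK, dgl, Matrix.diagonal_apply, Matrix.add_apply, Matrix.smul_apply, smul_eq_mul,
      Matrix.one_apply]
    split_ifs
    · push_cast; ring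
    · simp
  rw [KK, dgl_eps, h, Matrix.mul_add, Matrix.mul_smul, Matrix.mul_one, KK]

theorem KK_iot (k0 : ℕ) (j : Fin N) :
    KK k0 N * iot j = iot j * KK k0 N + (-(k0 : ℂ)) • iot j := by
  have h1 := congrArg Matrix.transpose (KK_eps k0 j)
  have h2 : (KK k0 N)ᵀ = KK k0 N := Matrix.diagonal_transpose _
  rw [Matrix.transpose_mul, Matrix.transpose_add, Matrix.transpose_mul, Matrix.transpose_smul, h2,
    eps_transpose] at h1
  rw [h1, neg_smul]
  abel

theorem par_epsV (v : Fin n → ℂ) : par * epsV v = -(epsV v * par) := by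
  unfold epsV
  rw [Finset.mul_sum, Finset.sum_mul, ← Finset.sum_neg_distrib]
  refine Finset.sum_congr rfl fun l _ => ?_
  rw [Matrix.mul_smul, Matrix.smul_mul, par_eps, smul_neg]

theorem par_iotV (v : Fin n → ℂ) : par * iotV v = -(iotV v * par) := by
  unfold iotV
  rw [Finset.mul_sum, Finset.sum_mul, ← Finset.sum_neg_distrib]
  refine Finset.sum_congr rfl fun l _ => ?_
  rw [Matrix.mul_smul, Matrix.smul_mul, par_iot, smul_neg]

variable {w : Cm n → Matrix (Fin n) (Fin n) ℂ} {z : Cm n}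

theorem par_cl (v : Cm n) : par * cl w z v = -(cl w z v * par) := by
  rw [cl, Matrix.mul_sub, par_iotV, par_epsV, Matrix.sub_mul]
  abel

theorem par_epd (b : Fin n) : par * epd b w z = -(epd b w z * par) := par_iotV _

/-! ### the algebra of `Σ s_j ε_j + Σ t_j ι_j + i c(v)` -/

/-- `Σ_j (par ⊗ (s_j ε_j + t_j ι_j)) + i c(v) ⊗ 1` -/
def Bm (w : Cm n → Matrix (Fin n) (Fin n) ℂ) (z : Cm n) (s t : Fin N → ℂ) (v : Cm n) :
    Matrix (FI n × FI N) (FI n × FI N) ℂ :=
  (par : FM n) ⊗ₖ (epsV s + iotV t) + Complex.I • (cl w z v ⊗ₖ (1 : FM N))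

theorem Bm_sq (s t : Fin N → ℂ) (v : Cm n) :
    Bm w z s t v * Bm w z s t v = (t ⬝ᵥ s + v ⬝ᵥ flatV w z v) • 1 := by
  have h1 : (epsV s + iotV t) * (epsV s + iotV t) = (t ⬝ᵥ s) • (1 : FM N) := by
    rw [Matrix.add_mul, Matrix.mul_add, Matrix.mul_add, epsV_sq, iotV_sq, ← iotV_epsV]
    abel
  unfold Bm
  rw [Matrix.add_mul, Matrix.mul_add, Matrix.mul_add, Matrix.smul_mul, Matrix.smul_mul,
    Matrix.mul_smul, Matrix.mul_smul, kron_mul, kron_mul, kron_mul, kron_mul, par_sq, h1, cl_sq,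
    par_cl, Matrix.mul_one, Matrix.mul_one, Matrix.one_mul, smul_smul, Complex.I_mul_I]
  have h2 : (-(cl w z v * par)) ⊗ₖ (epsV s + iotV t) =
      -((cl w z v * par) ⊗ₖ (epsV s + iotV t)) := by
    rw [← neg_one_smul ℂ (cl w z v * par), Matrix.smul_kronecker, neg_one_smul]
  have h3 : (-((v ⬝ᵥ flatV w z v) • (1 : FM n))) ⊗ₖ (1 : FM N) =
      -((v ⬝ᵥ flatV w z v) • (1 : Matrix (FI n × FI N) (FI n × FI N) ℂ)) := by
    rw [← neg_smul, Matrix.smul_kronecker, Matrix.one_kronecker_one, neg_smul]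
  rw [h2, h3, Matrix.kronecker_smul, Matrix.one_kronecker_one, add_smul]
  simp only [smul_neg, neg_smul, one_smul, neg_neg]
  abel

theorem flatV_add (v v' : Cm n) : flatV w z (v + v') = flatV w z v + flatV w z v' := by
  rw [flatV, star_add, Matrix.mulVec_add]; rfl

theorem flatV_real_smul (c : ℝ) (v : Cm n) : flatV w z ((c : ℂ) • v) = (c : ℂ) • flatV w z v := by
  rw [flatV, star_smul, Matrix.mulVec_smul]
  congr 1
  exact Complex.conj_ofReal c

theorem cl_add (v v' : Cm n) : cl w z (v + v') = cl w z v + cl w z v' := by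
  rw [cl, iotV_add, flatV_add, epsV_add, cl, cl]
  abel

theorem cl_real_smul (c : ℝ) (v : Cm n) : cl w z ((c : ℂ) • v) = (c : ℂ) • cl w z v := by
  rw [cl, iotV_smul, flatV_real_smul, epsV_smul, cl, smul_sub]

theorem cl_zero_vec : cl w z 0 = 0 := by
  have := cl_real_smul (w := w) (z := z) 0 0
  simpa using this

theorem cl_sum {α : Type*} (A : Finset α) (c : α → ℝ) (v : α → Cm n) :
    cl w z (∑ a ∈ A, (c a : ℂ) • v a) = ∑ a ∈ A, (c a : ℂ) • cl w z (v a) := by
  classical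
  induction A using Finset.induction_on with
  | empty => simp [cl_zero_vec]
  | insert a A ha ih => rw [Finset.sum_insert ha, Finset.sum_insert ha, cl_add, cl_real_smul, ih]

/-- `|v|² ≥ 0` -/
theorem pair_flat_nonneg (h : (w z).PosDef) (v : Cm n) : 0 ≤ v ⬝ᵥ flatV w z v := by
  have h1 := h.posSemidef.dotProduct_mulVec_nonneg (star v)
  rwa [star_star] at h1

theorem pair_flat_pos (h : (w z).PosDef) {v : Cm n} (hv : v ≠ 0) : 0 < v ⬝ᵥ flatV w z v := by
  have h1 := h.dotProduct_mulVec_pos (x := star v) (by simpa using hv)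
  rwa [star_star] at h1

/-! ### `D' + δ` on the total space -/

/-- `D' + δ` on families of forms: on the block `S` it is `DD (1 + |S| k₀)` -/
def DDt (k0 : ℕ) (w : Cm n → Matrix (Fin n) (Fin n) ℂ) (u : Cm n → FI n × FI N → ℂ) (z : Cm n) :
    FI n × FI N → ℂ := fun p => Cl.DD (1 + p.2.card * k0) w (fun y J => u y (J, p.2)) z p.1

/-- the derivative along the real field `X`, on families of forms -/
def lieT (X : Cm n → Cm n) (u : Cm n → FI n × FI N → ℂ) (z : Cm n) : FI n × FI N → ℂ :=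
  ∑ l, X z l • DV l u z + ∑ b, star (X z b) • DVb b u z

variable {k0 : ℕ} {u : Cm n → FI n × FI N → ℂ} {X : Cm n → Cm n}

theorem VC_blk {m : WithTop ℕ∞} (hu : VC m u z) (S : FI N) : VC m (fun y J => u y (J, S)) z :=
  fun J => hu (J, S)

theorem DDt_add {v : Cm n → FI n × FI N → ℂ} (hu : VC 1 u z) (hv : VC 1 v z) :
    DDt k0 w (fun y => u y + v y) z = DDt k0 w u z + DDt k0 w v z := by
  funext p
  have h1 : Cl.DD (1 + p.2.card * k0) w (fun y J => (u y + v y) (J, p.2)) z =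
      Cl.DD (1 + p.2.card * k0) w (fun y J => u y (J, p.2)) z +
        Cl.DD (1 + p.2.card * k0) w (fun y J => v y (J, p.2)) z := by
    have h2 := Dp_sub (k := 1 + p.2.card * k0) (w := w) (VC_blk hu p.2) (VC_blk hv p.2).neg
    have h3 := De_sub (w := w) (VC_blk hu p.2) (VC_blk hv p.2).neg
    have h4 : ∀ l, DV l (fun y => -fun J => v y (J, p.2)) z = -DV l (fun y J => v y (J, p.2)) z :=
      fun l => DV_neg
    have h5 : ∀ l, DVb l (fun y => -fun J => v y (J, p.2)) z = -DVb l (fun y J => v y (J, p.2)) z :=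
      fun l => DVb_neg
    have h6 : Dp (1 + p.2.card * k0) w (fun y => -fun J => v y (J, p.2)) z =
        -Dp (1 + p.2.card * k0) w (fun y J => v y (J, p.2)) z := by
      unfold Dp
      rw [← Finset.sum_neg_distrib]
      refine Finset.sum_congr rfl fun l _ => ?_
      rw [h4, ← Matrix.mulVec_neg, neg_add, smul_neg]
    have h7 : De w (fun y => -fun J => v y (J, p.2)) z =
        -De w (fun y J => v y (J, p.2)) z := by
      unfold De
      simp only [h5, Matrix.mulVec_neg, Finset.sum_neg_distrib]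
    rw [h6] at h2
    rw [h7] at h3
    have h8 : (fun y J => (u y + v y) (J, p.2)) =
        fun y => (fun J => u y (J, p.2)) - -fun J => v y (J, p.2) := by
      ext y J
      simp
    rw [h8, Cl.DD, h2, h3, Cl.DD, Cl.DD]
    abel
  exact congrFun h1 p.1

/-- `DDt` in Kronecker form -/
theorem DDt_eq (u : Cm n → FI n × FI N → ℂ) (z : Cm n) :
    DDt k0 w u z = ∑ l, ((eps l ⊗ₖ (1 : FM N)) *ᵥ (DV l u z +
      tG l w z • (((1 : FM n) ⊗ₖ KK k0 N) *ᵥ u z))) -
      ∑ b, (epd b w z ⊗ₖ (1 : FM N)) *ᵥ DVb b u z := by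
  funext ⟨I, S⟩
  rw [Pi.sub_apply, Finset.sum_apply, Finset.sum_apply]
  simp only [kron_one_mulVec]
  show (Dp (1 + S.card * k0) w (fun y J => u y (J, S)) z +
    De w (fun y J => u y (J, S)) z) I = _
  rw [Pi.add_apply, Dp, De, Pi.neg_apply, Finset.sum_apply, Finset.sum_apply, ← sub_eq_add_neg]
  congr 1
  refine Finset.sum_congr rfl fun l _ => ?_
  congr 2
  funext J
  rw [Pi.smul_apply, Pi.smul_apply, smul_eq_mul, smul_eq_mul, KK, kron_dgl_mulVec]
  ring

theorem VC_smul_mulVec {κ : Type*} [Fintype κ] {m : WithTop ℕ∞} {f : Cm n → ℂ}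
    {u : Cm n → κ → ℂ} (hf : ContDiffAt ℝ m f z) (A : Matrix κ κ ℂ) (hu : VC m u z) :
    VC m (fun y => f y • (A *ᵥ u y)) z := by
  have h1 : VC m (fun y => A *ᵥ u y) z := by
    intro i
    simp only [Matrix.mulVec, dotProduct]
    exact ContDiffAt.sum fun q _ => contDiffAt_const.mul (hu q)
  exact fun i => hf.mul (h1 i)

theorem DV_cm {κ : Type*} [Fintype κ] {u : Cm n → κ → ℂ} (A : Matrix κ κ ℂ)
    (hu : VC 1 u z) (l : Fin n) : DV l (fun y => A *ᵥ u y) z = A *ᵥ DV l u z := by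
  rw [DV_mulVec (M := fun _ => A) (MC_const A) hu, DM_const, Matrix.zero_mulVec, zero_add]

theorem DVb_cm {κ : Type*} [Fintype κ] {u : Cm n → κ → ℂ} (A : Matrix κ κ ℂ)
    (hu : VC 1 u z) (l : Fin n) : DVb l (fun y => A *ᵥ u y) z = A *ᵥ DVb l u z := by
  rw [DVb_mulVec (M := fun _ => A) (MC_const A) hu, DMb_const, Matrix.zero_mulVec, zero_add]

theorem VC_cm {κ : Type*} [Fintype κ] {m : WithTop ℕ∞} {u : Cm n → κ → ℂ} (A : Matrix κ κ ℂ)
    (hu : VC m u z) : VC m (fun y => A *ᵥ u y) z := by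
  intro i
  simp only [Matrix.mulVec, dotProduct]
  exact ContDiffAt.sum fun q _ => contDiffAt_const.mul (hu q)

/-- **(A2)** the anticommutator of `D' + δ` with `f (par ⊗ E)`, `[k, E] = c E` -/
theorem anti_kron {f : Cm n → ℂ} (hf : ContDiffAt ℝ 1 f z) (hu : VC 1 u z) {E : FM N} {c : ℂ}
    (hE : KK k0 N * E = E * KK k0 N + c • E) :
    DDt k0 w (fun y => f y • (((par : FM n) ⊗ₖ E) *ᵥ u y)) z +
      f z • (((par : FM n) ⊗ₖ E) *ᵥ DDt k0 w u z) =
      ((symb w z (fun l => dz l f z + c * f z * tG l w z) (fun b => dzb b f z) * par) ⊗ₖ E) *ᵥ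
        u z := by
  set A : Matrix (FI n × FI N) (FI n × FI N) ℂ := (par : FM n) ⊗ₖ E with hA
  have h1 : VC 1 (fun y => A *ᵥ u y) z := VC_cm A hu
  have e1 : ∀ l, (eps l ⊗ₖ (1 : FM N)) *ᵥ (DV l (fun y => f y • (A *ᵥ u y)) z +
      tG l w z • (((1 : FM n) ⊗ₖ KK k0 N) *ᵥ (f z • (A *ᵥ u z)))) +
      f z • (A *ᵥ ((eps l ⊗ₖ (1 : FM N)) *ᵥ (DV l u z +
        tG l w z • (((1 : FM n) ⊗ₖ KK k0 N) *ᵥ u z)))) =
      (((dz l f z + c * f z * tG l w z) • (eps l * par)) ⊗ₖ E) *ᵥ u z := by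
    intro l
    have a1 : (eps l ⊗ₖ (1 : FM N)) * A = (eps l * par) ⊗ₖ E := by
      rw [hA, kron_mul, Matrix.one_mul]
    have a2 : A * (eps l ⊗ₖ (1 : FM N)) = -((eps l * par) ⊗ₖ E) := by
      rw [hA, kron_mul, Matrix.mul_one, par_eps, ← neg_one_smul ℂ (eps l * par),
        Matrix.smul_kronecker, neg_one_smul]
    have a3 : ((eps l * par) ⊗ₖ E) * ((1 : FM n) ⊗ₖ KK k0 N) = (eps l * par) ⊗ₖ (E * KK k0 N) := by
      rw [kron_mul, Matrix.mul_one]
    have a4 : (eps l ⊗ₖ (1 : FM N)) * (((1 : FM n) ⊗ₖ KK k0 N) * A) =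
        (eps l * par) ⊗ₖ (E * KK k0 N) + c • ((eps l * par) ⊗ₖ E) := by
      rw [hA, kron_mul, kron_mul, Matrix.one_mul, Matrix.one_mul, hE, Matrix.kronecker_add,
        Matrix.kronecker_smul]
    rw [DV_smul hf h1, DV_cm A hu, Matrix.smul_kronecker, Matrix.smul_mulVec]
    simp only [Matrix.mulVec_add, Matrix.mulVec_smul, Matrix.mulVec_mulVec, smul_add]
    rw [← Matrix.mul_assoc A, a2, a1, Matrix.neg_mul, a3, a4]
    simp only [Matrix.neg_mulVec, Matrix.add_mulVec, Matrix.smul_mulVec,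
      smul_add, smul_neg, add_smul, smul_smul]
    rw [show tG l w z * (f z * c) = c * f z * tG l w z by ring,
      show f z * tG l w z = tG l w z * f z by ring]
    abel
  have e2 : ∀ b, (epd b w z ⊗ₖ (1 : FM N)) *ᵥ DVb b (fun y => f y • (A *ᵥ u y)) z +
      f z • (A *ᵥ ((epd b w z ⊗ₖ (1 : FM N)) *ᵥ DVb b u z)) =
      ((dzb b f z • (epd b w z * par)) ⊗ₖ E) *ᵥ u z := by
    intro b
    have a1 : (epd b w z ⊗ₖ (1 : FM N)) * A = (epd b w z * par) ⊗ₖ E := by
      rw [hA, kron_mul, Matrix.one_mul]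
    have a2 : A * (epd b w z ⊗ₖ (1 : FM N)) = -((epd b w z * par) ⊗ₖ E) := by
      rw [hA, kron_mul, Matrix.mul_one, par_epd, ← neg_one_smul ℂ (epd b w z * par),
        Matrix.smul_kronecker, neg_one_smul]
    rw [DVb_smul hf h1, DVb_cm A hu]
    simp only [Matrix.mulVec_add, Matrix.mulVec_smul, Matrix.mulVec_mulVec]
    rw [a1, a2]
    simp only [Matrix.neg_mulVec, Matrix.smul_mulVec, Matrix.smul_kronecker, smul_neg]
    abel
  have e3 : (symb w z (fun l => dz l f z + c * f z * tG l w z) (fun b => dzb b f z) * par) ⊗ₖ E =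
      ∑ l, ((dz l f z + c * f z * tG l w z) • (eps l * par)) ⊗ₖ E -
        ∑ b, (dzb b f z • (epd b w z * par)) ⊗ₖ E := by
    have a1 : symb w z (fun l => dz l f z + c * f z * tG l w z) (fun b => dzb b f z) * par =
        ∑ l, (dz l f z + c * f z * tG l w z) • (eps l * par) -
          ∑ b, dzb b f z • (epd b w z * par) := by
      rw [symb, Matrix.sub_mul, epsV, Matrix.sum_mul, Matrix.sum_mul]
      simp only [Matrix.smul_mul]
    have a2 : ∀ (M : Fin n → FM n), (∑ l, M l) ⊗ₖ E = ∑ l, (M l ⊗ₖ E) := by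
      intro M
      ext p q
      simp only [Matrix.kroneckerMap_apply, Matrix.sum_apply, Finset.sum_mul]
    have a3 : ∀ (M M' : FM n), (M - M') ⊗ₖ E = M ⊗ₖ E - M' ⊗ₖ E := by
      intro M M'
      ext p q
      simp only [Matrix.kroneckerMap_apply, Matrix.sub_apply, sub_mul]
    rw [a1, a3, a2, a2]
  rw [DDt_eq, DDt_eq, e3, Matrix.sub_mulVec, Matrix.sum_mulVec, Matrix.sum_mulVec,
    Matrix.mulVec_sub, smul_sub, Matrix.mulVec_sum, Matrix.mulVec_sum, Finset.smul_sum,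
    Finset.smul_sum, ← Finset.sum_congr rfl fun l _ => e1 l,
    ← Finset.sum_congr rfl fun b _ => e2 b, Finset.sum_add_distrib, Finset.sum_add_distrib]
  abel

/-- **(A1)** on the total space -/
theorem anti_clT (h : KAt w z) (hX : VC 1 X z) (hol : ∀ b, DVb b X z = 0) {f : Cm n → ℂ}
    (hf : ContDiffAt ℝ 1 f z) (hu : VC 1 u z) :
    DDt k0 w (fun y => f y • ((cl w y (X y) ⊗ₖ (1 : FM N)) *ᵥ u y)) z +
      f z • ((cl w z (X z) ⊗ₖ (1 : FM N)) *ᵥ DDt k0 w u z) =
      f z • lieT X u z +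
        Matrix.blockDiagonal (fun S : FI N => RR (1 + S.card * k0) w X f z) *ᵥ u z := by
  funext ⟨I, S⟩
  have h1 := congrFun (anti_RR (k := 1 + S.card * k0) h hX hol hf (VC_blk hu S)) I
  have e1 : (fun y J => (f y • ((cl w y (X y) ⊗ₖ (1 : FM N)) *ᵥ u y)) (J, S)) =
      fun y => f y • (cl w y (X y) *ᵥ fun J => u y (J, S)) := by
    ext y J
    rw [Pi.smul_apply, Pi.smul_apply, kron_one_mulVec]
  have e2 : (fun J => DDt k0 w u z (J, S)) = Cl.DD (1 + S.card * k0) w (fun y J => u y (J, S)) z := rfl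
  have e3 : lieT X u z (I, S) = lie X (fun y J => u y (J, S)) z I := by
    simp only [lieT, lie, Pi.add_apply, Finset.sum_apply, Pi.smul_apply]
    rfl
  simp only [Pi.add_apply, Pi.smul_apply] at h1 ⊢
  rw [kron_one_mulVec, e2, e3, Bun.blockDiagonal_mulVec]
  show Cl.DD (1 + S.card * k0) w (fun y J => (f y • ((cl w y (X y) ⊗ₖ (1 : FM N)) *ᵥ u y)) (J, S)) z I
    + _ = _
  rw [e1]
  exact h1

end algebra

end Vale.Agent.P299.IX.Kz
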