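import Vale.Agent.P299.H835.IX.Kz

/-!
# P299, index theorem: `A_t = D' + δ + t B`, `B = Σ_j (s_j ε_j + s̄_j (det w)^{k₀} ι_j) + i c(v)`:
the zeroth order term of `{D' + δ, B}`, and the operators on the total bundle
-/

open scoped Manifold ContDiff ComplexOrder Topology Matrix Kronecker
open Vale.Agent.P272.K Vale.Agent.P272.K.C2 Vale.Agent.P299.H954

noncomputable section

namespace Vale.Agent.P299.IX.Kz

open Fock Cl

section loc

variable {n N r : ℕ} {w : Cm n → Matrix (Fin n) (Fin n) ℂ} {z : Cm n} {k0 : ℕ}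
  {u : Cm n → FI n × FI N → ℂ}

/-- the dual section `s̄ (det w)^{k₀}` -/
def dual (k0 : ℕ) (w : Cm n → Matrix (Fin n) (Fin n) ℂ) (s : Cm n → ℂ) (z : Cm n) : ℂ :=
  (starRingEnd ℂ) (s z) * (w z).det ^ k0

/-- the total field `v = Σ f_a X_a` -/
def vtot (f : Fin r → Cm n → ℝ) (X : Fin r → Cm n → Cm n) (z : Cm n) : Cm n :=
  ∑ a, (f a z : ℂ) • X a z

/-- the operator `B` -/
def Bop (k0 : ℕ) (w : Cm n → Matrix (Fin n) (Fin n) ℂ) (s : Fin N → Cm n → ℂ)
    (f : Fin r → Cm n → ℝ) (X : Fin r → Cm n → Cm n) (z : Cm n) :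
    Matrix (FI n × FI N) (FI n × FI N) ℂ :=
  Bm w z (fun j => s j z) (fun j => dual k0 w (s j) z) (vtot f X z)

/-- the Koszul part of `{D' + δ, B}` -/
def RopK (k0 : ℕ) (w : Cm n → Matrix (Fin n) (Fin n) ℂ) (s : Fin N → Cm n → ℂ) (z : Cm n) :
    Matrix (FI n × FI N) (FI n × FI N) ℂ :=
  ∑ j, ((symb w z (fun l => dz l (s j) z + k0 * s j z * tG l w z)
    (fun b => dzb b (s j) z) * par) ⊗ₖ eps j) +
  ∑ j, ((symb w z (fun l => dz l (dual k0 w (s j)) z + -(k0 : ℂ) * dual k0 w (s j) z * tG l w z)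
    (fun b => dzb b (dual k0 w (s j)) z) * par) ⊗ₖ iot j)

/-- the Clifford part of `{D' + δ, B}` on invariant sections, block `k` -/
def Rk (k : ℕ) (w : Cm n → Matrix (Fin n) (Fin n) ℂ) (f : Fin r → Cm n → ℝ)
    (X : Fin r → Cm n → Cm n) (z : Cm n) : FM n :=
  Complex.I • ∑ a, (RR k w (X a) (fun y => (f a y : ℂ)) z - (f a z : ℂ) • dlam (dX (X a) z) +
    ((f a z : ℂ) * (k * (dX (X a) z).trace)) • 1)

/-- the zeroth order operator `{D' + δ, B}` on invariant sections -/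
def Rop (k0 : ℕ) (w : Cm n → Matrix (Fin n) (Fin n) ℂ) (s : Fin N → Cm n → ℂ)
    (f : Fin r → Cm n → ℝ) (X : Fin r → Cm n → Cm n) (z : Cm n) :
    Matrix (FI n × FI N) (FI n × FI N) ℂ :=
  RopK k0 w s z + Matrix.blockDiagonal fun S : FI N => Rk (1 + S.card * k0) w f X z

theorem kron_sum_right {α : Type*} (A : FM n) (s : Finset α) (B : α → FM N) :
    A ⊗ₖ (∑ a ∈ s, B a) = ∑ a ∈ s, A ⊗ₖ B a := by
  ext p q
  simp only [Matrix.kroneckerMap_apply, Matrix.sum_apply, Finset.mul_sum]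

theorem kron_sum_left {α : Type*} (s : Finset α) (A : α → FM n) (B : FM N) :
    (∑ a ∈ s, A a) ⊗ₖ B = ∑ a ∈ s, A a ⊗ₖ B := by
  ext p q
  simp only [Matrix.kroneckerMap_apply, Matrix.sum_apply, Finset.sum_mul]

theorem Bop_mulVec (s : Fin N → Cm n → ℂ) (f : Fin r → Cm n → ℝ) (X : Fin r → Cm n → Cm n)
    (v : FI n × FI N → ℂ) : Bop k0 w s f X z *ᵥ v =
      ∑ j, s j z • (((par : FM n) ⊗ₖ eps j) *ᵥ v) +
      ∑ j, dual k0 w (s j) z • (((par : FM n) ⊗ₖ iot j) *ᵥ v) +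
      ∑ a, (Complex.I * (f a z : ℂ)) • ((cl w z (X a z) ⊗ₖ (1 : FM N)) *ᵥ v) := by
  unfold Bop Bm vtot
  rw [cl_sum, epsV, iotV, Matrix.kronecker_add, kron_sum_right, kron_sum_right, kron_sum_left,
    Matrix.add_mulVec, Matrix.add_mulVec, Matrix.sum_mulVec, Matrix.sum_mulVec,
    Matrix.smul_mulVec, Matrix.sum_mulVec, Finset.smul_sum]
  simp only [Matrix.kronecker_smul, Matrix.smul_kronecker, Matrix.smul_mulVec, smul_smul]

theorem contDiffAt_dual (h : KAt w z) {m : WithTop ℕ∞} (hm : m ≤ ∞) {s : Cm n → ℂ}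
    (hs : ContDiffAt ℝ m s z) : ContDiffAt ℝ m (dual k0 w s) z :=
  (contDiffAt_conj hs).mul ((h.sm.det.of_le hm).pow _)

theorem DDt_sum {α : Type*} (t : Finset α) {F : α → Cm n → FI n × FI N → ℂ}
    (hF : ∀ a ∈ t, VC 1 (F a) z) :
    DDt k0 w (fun y => ∑ a ∈ t, F a y) z = ∑ a ∈ t, DDt k0 w (F a) z := by
  classical
  induction t using Finset.induction_on with
  | empty =>
    simp only [Finset.sum_empty]
    rw [DDt_eq]
    have h1 : ∀ l, DV l (fun _ : Cm n => (0 : FI n × FI N → ℂ)) z = 0 := by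
      intro l; ext i; exact dz_const l 0
    have h2 : ∀ l, DVb l (fun _ : Cm n => (0 : FI n × FI N → ℂ)) z = 0 := by
      intro l; ext i; exact dzb_const l 0
    simp [h1, h2]
  | insert a t ha ih =>
    have h1 : (fun y => ∑ b ∈ insert a t, F b y) = fun y => F a y + ∑ b ∈ t, F b y := by
      ext1 y; rw [Finset.sum_insert ha]
    rw [h1, DDt_add (hF a (Finset.mem_insert_self a t))
      (VC.sum t fun b hb => hF b (Finset.mem_insert_of_mem hb)), Finset.sum_insert ha,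
      ih fun b hb => hF b (Finset.mem_insert_of_mem hb)]

/-- **the anticommutator** `{D' + δ, B}` on invariant sections is the zeroth order operator `Rop` -/
theorem anti_total (h : KAt w z) {s : Fin N → Cm n → ℂ} (hs : ∀ j, ContDiffAt ℝ 1 (s j) z)
    {X : Fin r → Cm n → Cm n} (hX : ∀ a, VC 1 (X a) z) (hol : ∀ a b, DVb b (X a) z = 0)
    {f : Fin r → Cm n → ℝ} (hf : ∀ a, ContDiffAt ℝ 1 (f a) z) (hu : VC 1 u z)
    (hinv : ∀ a (S : FI N), lie (X a) (fun y J => u y (J, S)) z +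
      dlam (dX (X a) z) *ᵥ (fun J => u z (J, S)) =
        ((1 + S.card * k0 : ℕ) * (dX (X a) z).trace) • fun J => u z (J, S)) :
    DDt k0 w (fun y => Bop k0 w s f X y *ᵥ u y) z + Bop k0 w s f X z *ᵥ DDt k0 w u z =
      Rop k0 w s f X z *ᵥ u z := by
  have hfc : ∀ a, ContDiffAt ℝ 1 (fun y => Complex.I * (f a y : ℂ)) z := fun a =>
    contDiffAt_const.mul (contDiffAt_ofReal (hf a))
  have hd : ∀ j, ContDiffAt ℝ 1 (dual k0 w (s j)) z := fun j =>
    contDiffAt_dual h (by exact_mod_cast le_top) (hs j)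
  have v1 : ∀ j, VC 1 (fun y => s j y • (((par : FM n) ⊗ₖ eps j) *ᵥ u y)) z := fun j =>
    VC_smul_mulVec (hs j) _ hu
  have v2 : ∀ j : Fin N, VC 1 (fun y => dual k0 w (s j) y •
      (((par : FM n) ⊗ₖ iot j) *ᵥ u y)) z := fun j => VC_smul_mulVec (hd j) _ hu
  have hcl : ∀ a, C2.MC 1 (fun y => (cl w y (X a y) ⊗ₖ (1 : FM N))) z := by
    intro a p q
    exact (MC_cl h (by exact_mod_cast le_top) (hX a) p.1 q.1).mul contDiffAt_const
  have v3 : ∀ a, VC 1 (fun y => (Complex.I * (f a y : ℂ)) •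
      ((cl w y (X a y) ⊗ₖ (1 : FM N)) *ᵥ u y)) z := fun a =>
    VC.smul (hfc a) (VC.mulVec (hcl a) hu)
  have e1 : ∀ j : Fin N, DDt k0 w (fun y => s j y • (((par : FM n) ⊗ₖ eps j) *ᵥ u y)) z +
      s j z • (((par : FM n) ⊗ₖ eps j) *ᵥ DDt k0 w u z) =
      ((symb w z (fun l => dz l (s j) z + k0 * s j z * tG l w z)
        (fun b => dzb b (s j) z) * par) ⊗ₖ eps j) *ᵥ u z := fun j =>
    anti_kron (hs j) hu (KK_eps k0 j)
  have e2 : ∀ j : Fin N, DDt k0 w (fun y => dual k0 w (s j) y • (((par : FM n) ⊗ₖ iot j) *ᵥ u y)) z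
      + dual k0 w (s j) z • (((par : FM n) ⊗ₖ iot j) *ᵥ DDt k0 w u z) =
      ((symb w z (fun l => dz l (dual k0 w (s j)) z + -(k0 : ℂ) * dual k0 w (s j) z * tG l w z)
        (fun b => dzb b (dual k0 w (s j)) z) * par) ⊗ₖ iot j) *ᵥ u z := fun j =>
    anti_kron (hd j) hu (KK_iot k0 j)
  have e3 : ∀ a, DDt k0 w (fun y => (Complex.I * (f a y : ℂ)) •
      ((cl w y (X a y) ⊗ₖ (1 : FM N)) *ᵥ u y)) z +
      (Complex.I * (f a z : ℂ)) • ((cl w z (X a z) ⊗ₖ (1 : FM N)) *ᵥ DDt k0 w u z) =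
      Matrix.blockDiagonal (fun S : FI N => Complex.I •
        (RR (1 + S.card * k0) w (X a) (fun y => (f a y : ℂ)) z - (f a z : ℂ) • dlam (dX (X a) z) +
        ((f a z : ℂ) * ((1 + S.card * k0 : ℕ) * (dX (X a) z).trace)) • (1 : FM n))) *ᵥ u z := by
    intro a
    have h1 := anti_clT (k0 := k0) (N := N) h (hX a) (hol a) (hfc a) hu
    rw [h1]
    funext ⟨I, S⟩
    rw [Pi.add_apply, Bun.blockDiagonal_mulVec, Bun.blockDiagonal_mulVec, Pi.smul_apply]
    have h2 : lieT (X a) u z (I, S) = lie (X a) (fun y J => u y (J, S)) z I := by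
      simp only [lieT, lie, Pi.add_apply, Finset.sum_apply, Pi.smul_apply]
      rfl
    have h3 := congrFun (eq_sub_of_add_eq (hinv a S)) I
    have h4 : RR (1 + S.card * k0) w (X a) (fun y => Complex.I * (f a y : ℂ)) z =
        Complex.I • RR (1 + S.card * k0) w (X a) (fun y => (f a y : ℂ)) z := by
      have hd : DifferentiableAt ℝ (fun y => (f a y : ℂ)) z :=
        (contDiffAt_ofReal (hf a)).differentiableAt one_ne_zero
      have h5 : (fun l => dz l (fun y => Complex.I * (f a y : ℂ)) z) =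
          Complex.I • fun l => dz l (fun y => (f a y : ℂ)) z := by
        ext l; exact dz_const_mul l _ hd
      have h6 : (fun l => dzb l (fun y => Complex.I * (f a y : ℂ)) z) =
          Complex.I • fun l => dzb l (fun y => (f a y : ℂ)) z := by
        ext l; exact dzb_const_mul l _ hd
      have h7 : symb w z (Complex.I • fun l => dz l (fun y => (f a y : ℂ)) z)
          (Complex.I • fun l => dzb l (fun y => (f a y : ℂ)) z) =
          Complex.I • symb w z (fun l => dz l (fun y => (f a y : ℂ)) z)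
            (fun l => dzb l (fun y => (f a y : ℂ)) z) := by
        rw [symb, epsV_smul, symb, smul_sub, Finset.smul_sum]
        congr 1
        refine Finset.sum_congr rfl fun l _ => ?_
        rw [Pi.smul_apply, smul_eq_mul, mul_smul]
      rw [RR, RR, h5, h6, h7, smul_add, mul_smul, Matrix.smul_mul]
    rw [h2, h3, h4]
    simp only [Pi.sub_apply, Pi.smul_apply, Matrix.smul_mulVec, Matrix.add_mulVec,
      Matrix.sub_mulVec, Pi.add_apply, smul_eq_mul, Matrix.one_mulVec]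
    ring
  have e0 : (fun y => Bop k0 w s f X y *ᵥ u y) = fun y =>
      (∑ j, s j y • (((par : FM n) ⊗ₖ eps j) *ᵥ u y) +
      ∑ j, dual k0 w (s j) y • (((par : FM n) ⊗ₖ iot j) *ᵥ u y)) +
      ∑ a, (Complex.I * (f a y : ℂ)) • ((cl w y (X a y) ⊗ₖ (1 : FM N)) *ᵥ u y) := by
    ext1 y; rw [Bop_mulVec]
  have e4 : Rop k0 w s f X z *ᵥ u z =
      ∑ j, ((symb w z (fun l => dz l (s j) z + k0 * s j z * tG l w z)
        (fun b => dzb b (s j) z) * par) ⊗ₖ eps j) *ᵥ u z +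
      ∑ j, ((symb w z (fun l => dz l (dual k0 w (s j)) z +
        -(k0 : ℂ) * dual k0 w (s j) z * tG l w z)
        (fun b => dzb b (dual k0 w (s j)) z) * par) ⊗ₖ iot j) *ᵥ u z +
      ∑ a, Matrix.blockDiagonal (fun S : FI N => Complex.I •
        (RR (1 + S.card * k0) w (X a) (fun y => (f a y : ℂ)) z - (f a z : ℂ) • dlam (dX (X a) z) +
        ((f a z : ℂ) * ((1 + S.card * k0 : ℕ) * (dX (X a) z).trace)) • (1 : FM n))) *ᵥ u z := by
    rw [Rop, RopK, Matrix.add_mulVec, Matrix.add_mulVec, Matrix.sum_mulVec, Matrix.sum_mulVec]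
    congr 1
    funext ⟨I, S⟩
    rw [Bun.blockDiagonal_mulVec, Finset.sum_apply]
    simp only [Bun.blockDiagonal_mulVec]
    rw [Rk, Finset.smul_sum, Matrix.sum_mulVec, Finset.sum_apply]
  rw [e0, DDt_add ((VC.sum _ fun j _ => v1 j).add (VC.sum _ fun j _ => v2 j))
    (VC.sum _ fun a _ => v3 a), DDt_add (VC.sum _ fun j _ => v1 j) (VC.sum _ fun j _ => v2 j),
    DDt_sum _ fun j _ => v1 j, DDt_sum _ fun j _ => v2 j, DDt_sum _ fun a _ => v3 a, Bop_mulVec,
    e4, ← Finset.sum_congr rfl fun j _ => e1 j, ← Finset.sum_congr rfl fun j _ => e2 j,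
    ← Finset.sum_congr rfl fun a _ => e3 a, Finset.sum_add_distrib, Finset.sum_add_distrib,
    Finset.sum_add_distrib]
  abel

/-- `B² = (|s|² + |v|²) • 1` -/
theorem Bop_sq (s : Fin N → Cm n → ℂ) (f : Fin r → Cm n → ℝ) (X : Fin r → Cm n → Cm n) :
    Bop k0 w s f X z * Bop k0 w s f X z =
      ((fun j => dual k0 w (s j) z) ⬝ᵥ (fun j => s j z) +
        vtot f X z ⬝ᵥ flatV w z (vtot f X z)) • 1 := Bm_sq _ _ _

/-- smoothness of `B` -/
theorem MC_Bop (h : KAt w z) {m : WithTop ℕ∞} (hm : m ≤ ∞) {s : Fin N → Cm n → ℂ}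
    (hs : ∀ j, ContDiffAt ℝ m (s j) z) {f : Fin r → Cm n → ℝ} (hf : ∀ a, ContDiffAt ℝ m (f a) z)
    {X : Fin r → Cm n → Cm n} (hX : ∀ a, VC m (X a) z) : C2.MC m (Bop k0 w s f X) z := by
  have h1 : VC m (vtot f X) z := VC.sum _ fun a _ => VC.smul (contDiffAt_ofReal (hf a)) (hX a)
  intro p q
  have h3 : ContDiffAt ℝ m (fun y => (epsV (fun j => s j y) +
      iotV (fun j => dual k0 w (s j) y) : FM N) p.2 q.2) z := by
    have a1 : (fun y => (epsV (fun j => s j y) +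
        iotV (fun j => dual k0 w (s j) y) : FM N) p.2 q.2) = fun y =>
        ∑ j, s j y * eps j p.2 q.2 + ∑ j, dual k0 w (s j) y * iot j p.2 q.2 := by
      ext y
      rw [Matrix.add_apply, epsV_apply]
      congr 1
      unfold iotV
      rw [Matrix.sum_apply]
      exact Finset.sum_congr rfl fun l _ => by rw [Matrix.smul_apply, smul_eq_mul]
    rw [a1]
    exact (ContDiffAt.sum fun j _ => (hs j).mul contDiffAt_const).add
      (ContDiffAt.sum fun j _ => (contDiffAt_dual h hm (hs j)).mul contDiffAt_const)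
  exact (contDiffAt_const.mul h3).add
    (contDiffAt_const.mul ((MC_cl h hm h1 p.1 q.1).mul contDiffAt_const))

theorem MC_kron {m : WithTop ℕ∞} {A : Cm n → FM n} {B : FM N} (hA : C2.MC m A z) :
    C2.MC m (fun y => A y ⊗ₖ B) z := fun p q => (hA p.1 q.1).mul contDiffAt_const

theorem MC_RopK (h : KAt w z) {s : Fin N → Cm n → ℂ} (hs : ∀ j, ContDiffAt ℝ ∞ (s j) z) :
    C2.MC ∞ (RopK k0 w s) z := by
  refine MC.add (MC_sum _ fun j _ => MC_kron (MC.mul ?_ (MC_const _)))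
    (MC_sum _ fun j _ => MC_kron (MC.mul ?_ (MC_const _)))
  · refine MC_symb h le_rfl (fun l => ?_) (fun b => contDiffAt_dzb b (hs j) inf_add_one)
    exact (contDiffAt_dz l (hs j) inf_add_one).add
      ((contDiffAt_const.mul (hs j)).mul (contDiffAt_tG h))
  · have hd := contDiffAt_dual (k0 := k0) h le_rfl (hs j)
    refine MC_symb h le_rfl (fun l => ?_) (fun b => contDiffAt_dzb b hd inf_add_one)
    exact (contDiffAt_dz l hd inf_add_one).add
      ((contDiffAt_const.mul hd).mul (contDiffAt_tG h))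

theorem MC_Rk (h : KAt w z) {k : ℕ} {f : Fin r → Cm n → ℝ} (hf : ∀ a, ContDiffAt ℝ ∞ (f a) z)
    {X : Fin r → Cm n → Cm n} (hX : ∀ a, VC ∞ (X a) z) : C2.MC ∞ (Rk k w f X) z := by
  have hfc : ∀ a, ContDiffAt ℝ ∞ (fun y => (f a y : ℂ)) z := fun a => contDiffAt_ofReal (hf a)
  refine MC_smul contDiffAt_const (MC_sum _ fun a _ => ?_)
  refine MC.add (MC.sub (MC_RR h (hX a) (hfc a)) (MC_smul (hfc a) (MC_dlam (MC_dX (hX a))))) ?_
  exact MC_smul ((hfc a).mul (contDiffAt_const.mul (MC_dX (hX a)).trace)) (MC_const _)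

/-- smoothness of `Rop` -/
theorem MC_Rop (h : KAt w z) {s : Fin N → Cm n → ℂ} (hs : ∀ j, ContDiffAt ℝ ∞ (s j) z)
    {f : Fin r → Cm n → ℝ} (hf : ∀ a, ContDiffAt ℝ ∞ (f a) z)
    {X : Fin r → Cm n → Cm n} (hX : ∀ a, VC ∞ (X a) z) : C2.MC ∞ (Rop k0 w s f X) z := by
  refine MC.add (MC_RopK h hs) ?_
  rintro ⟨I, S⟩ ⟨J, T⟩
  simp only [Matrix.blockDiagonal_apply]
  by_cases hST : S = T
  · simp only [if_pos hST]
    exact MC_Rk h hf hX I J
  · simp only [if_neg hST]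
    exact contDiffAt_const

theorem symb_zero : symb w z 0 0 = 0 := by
  rw [symb, epsV_zero]
  simp

/-- the Koszul part vanishes where all `s_j` vanish identically nearby -/
theorem RopK_zero {s : Fin N → Cm n → ℂ} (hs : ∀ j, ∀ᶠ y in 𝓝 z, s j y = 0) :
    RopK k0 w s z = 0 := by
  have h1 : ∀ j, (fun l => dz l (s j) z + k0 * s j z * tG l w z) = 0 ∧
      (fun b => dzb b (s j) z) = 0 := by
    intro j
    have h2 : s j =ᶠ[𝓝 z] fun _ => 0 := hs j
    constructor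
    · ext l
      rw [dz_congr l h2, C2.dz_const, h2.self_of_nhds]
      simp
    · ext l
      rw [dzb_congr l h2, C2.dzb_const]
      simp
  have h3 : ∀ j, (fun l => dz l (dual k0 w (s j)) z +
      -(k0 : ℂ) * dual k0 w (s j) z * tG l w z) = 0 ∧
      (fun b => dzb b (dual k0 w (s j)) z) = 0 := by
    intro j
    have h2 : dual k0 w (s j) =ᶠ[𝓝 z] fun _ => 0 := by
      filter_upwards [hs j] with y hy
      rw [dual, hy, map_zero, zero_mul]
    constructor
    · ext l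
      rw [dz_congr l h2, C2.dz_const, h2.self_of_nhds]
      simp
    · ext l
      rw [dzb_congr l h2, C2.dzb_const]
      simp
  unfold RopK
  have h4 : ∀ j, ((symb w z (fun l => dz l (s j) z + k0 * s j z * tG l w z)
    (fun b => dzb b (s j) z) * par) ⊗ₖ (eps j : FM N)) = 0 := by
    intro j
    rw [(h1 j).1, (h1 j).2, symb_zero, Matrix.zero_mul, Matrix.zero_kronecker]
  have h5 : ∀ j, ((symb w z (fun l => dz l (dual k0 w (s j)) z +
    -(k0 : ℂ) * dual k0 w (s j) z * tG l w z)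
    (fun b => dzb b (dual k0 w (s j)) z) * par) ⊗ₖ (iot j : FM N)) = 0 := by
    intro j
    rw [(h3 j).1, (h3 j).2, symb_zero, Matrix.zero_mul, Matrix.zero_kronecker]
  rw [Finset.sum_congr rfl fun j _ => h4 j, Finset.sum_congr rfl fun j _ => h5 j]
  simp

theorem gX_sum (c : Fin r → ℂ) (v : Fin r → Cm n) :
    gX w z (∑ a, c a • v a) = ∑ a, c a • gX w z (v a) := by
  unfold gX
  simp only [Finset.sum_apply, Pi.smul_apply, smul_eq_mul, Finset.sum_smul, Finset.smul_sum,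
    smul_smul]
  rw [Finset.sum_comm]

/-- **the zeroth order term at a zero of `v`** where all `df_a` vanish -/
theorem Rk_bad (h : KAt w z) {k : ℕ} {f : Fin r → Cm n → ℝ} {X : Fin r → Cm n → Cm n}
    (hX : ∀ a, VC 1 (X a) z) (hK : ∀ a, Kil w (X a) z) (hv : vtot f X z = 0)
    (hf : ∀ a, fderiv ℝ (f a) z = 0) (hfd : ∀ a, DifferentiableAt ℝ (f a) z) :
    Rk k w f X z = Complex.I • (((k - 1) * (∑ a, (f a z : ℂ) • dX (X a) z).trace) • 1 +
      dlam (∑ a, (f a z : ℂ) • dX (X a) z)) := by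
  have hfc : ∀ a, fderiv ℝ (fun y => (f a y : ℂ)) z = 0 := by
    intro a
    have h1 : HasFDerivAt (fun y => (f a y : ℂ)) (Complex.ofRealCLM.comp (fderiv ℝ (f a) z)) z :=
      Complex.ofRealCLM.hasFDerivAt.comp z (hfd a).hasFDerivAt
    rw [h1.fderiv, hf a]
    ext; simp
  have h1 : ∀ a, (fun l => dz l (fun y => (f a y : ℂ)) z) = 0 := by
    intro a; ext l; simp [dz, hfc a]
  have h2 : ∀ a, (fun l => dzb l (fun y => (f a y : ℂ)) z) = 0 := by
    intro a; ext l; simp [dzb, hfc a]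
  have h3 : ∀ a, RR k w (X a) (fun y => (f a y : ℂ)) z - (f a z : ℂ) • dlam (dX (X a) z) +
      ((f a z : ℂ) * (k * (dX (X a) z).trace)) • 1 =
      (f a z : ℂ) • (((k - 1) * (nabX w (X a) z).trace) • 1 + dlam (nabX w (X a) z)) := by
    intro a
    rw [RR_kil h (hX a) (hK a), h1, h2, symb_zero, Matrix.zero_mul, add_zero]
  have h4 : ∑ a, (f a z : ℂ) • nabX w (X a) z = ∑ a, (f a z : ℂ) • dX (X a) z := by
    have h5 : ∑ a, (f a z : ℂ) • gX w z (X a z) = 0 := by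
      rw [← gX_sum]
      have : ∑ a, (f a z : ℂ) • X a z = 0 := hv
      rw [this, gX]
      simp
    simp only [nabX, smul_add, Finset.sum_add_distrib, h5, add_zero]
  unfold Rk
  congr 1
  rw [Finset.sum_congr rfl fun a _ => h3 a, ← h4, Matrix.trace_sum, dlam_sum, Finset.mul_sum,
    Finset.sum_smul, ← Finset.sum_add_distrib]
  refine Finset.sum_congr rfl fun a _ => ?_
  rw [smul_add, smul_smul, dlam_smul, Matrix.trace_smul, smul_eq_mul]
  congr 2
  ring

/-- `Rop` at a bad point -/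
theorem Rop_bad (h : KAt w z) {s : Fin N → Cm n → ℂ} (hs : ∀ j, ∀ᶠ y in 𝓝 z, s j y = 0)
    {f : Fin r → Cm n → ℝ} {X : Fin r → Cm n → Cm n}
    (hX : ∀ a, VC 1 (X a) z) (hK : ∀ a, Kil w (X a) z) (hv : vtot f X z = 0)
    (hf : ∀ a, fderiv ℝ (f a) z = 0) (hfd : ∀ a, DifferentiableAt ℝ (f a) z) :
    Rop k0 w s f X z = Matrix.blockDiagonal fun S : FI N => Complex.I •
      ((((S.card * k0 : ℕ) : ℂ) * (∑ a, (f a z : ℂ) • dX (X a) z).trace) • 1 +
      dlam (∑ a, (f a z : ℂ) • dX (X a) z)) := by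
  rw [Rop, RopK_zero hs, zero_add]
  congr 1
  funext S
  rw [Rk_bad h hX hK hv hf hfd]
  congr 4
  push_cast
  ring

/-- the derivative of the total field at a point where all `df_a` vanish -/
theorem dX_vtot {f : Fin r → Cm n → ℝ} {X : Fin r → Cm n → Cm n}
    (hX : ∀ a, VC 1 (X a) z) (hf : ∀ a, fderiv ℝ (f a) z = 0)
    (hfd : ∀ a, ContDiffAt ℝ 1 (f a) z) :
    dX (vtot f X) z = ∑ a, (f a z : ℂ) • dX (X a) z := by
  have hfc : ∀ a, fderiv ℝ (fun y => (f a y : ℂ)) z = 0 := by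
    intro a
    have h1 : HasFDerivAt (fun y => (f a y : ℂ)) (Complex.ofRealCLM.comp (fderiv ℝ (f a) z)) z :=
      Complex.ofRealCLM.hasFDerivAt.comp z ((hfd a).differentiableAt one_ne_zero).hasFDerivAt
    rw [h1.fderiv, hf a]
    ext; simp
  ext l m
  rw [Matrix.sum_apply]
  show DV l (vtot f X) z m = _
  have h1 : DV l (vtot f X) z = ∑ a, DV l (fun y => (f a y : ℂ) • X a y) z :=
    DV_sum _ fun a _ => VC.smul (contDiffAt_ofReal (hfd a)) (hX a)
  rw [h1, Finset.sum_apply]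
  refine Finset.sum_congr rfl fun a _ => ?_
  rw [DV_smul (contDiffAt_ofReal (hfd a)) (hX a)]
  have h2 : dz l (fun y => (f a y : ℂ)) z = 0 := by simp [dz, hfc a]
  rw [h2, zero_smul, zero_add]
  rfl

end loc

end Vale.Agent.P299.IX.Kz
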