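import Vale.Agent.P299.H835.IX.Inv
import Vale.Agent.P299.H598.IX.OpS

/-!
# P299, index theorem: the parity operator `par ⊗ par` on the total bundle and the projections
onto the invariant sections of even and odd parity
-/

open scoped Manifold ContDiff ComplexOrder Topology Matrix Kronecker
open Set Filter
open Vale.Agent.P272.K Vale.Agent.P272.K.C2 Vale.Agent.P299.H954 Vale.Agent.P299.H863

set_option linter.unusedSectionVars false

noncomputable section

namespace Vale.Agent.P299.IX.Kz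

open Fock Cl

section point

variable {n N : ℕ} {w : Cm n → Matrix (Fin n) (Fin n) ℂ} {z : Cm n}

/-- the parity -/
def Ppar (n N : ℕ) : Matrix (FI n × FI N) (FI n × FI N) ℂ := (par : FM n) ⊗ₖ (par : FM N)

theorem Ppar_sq : Ppar n N * Ppar n N = 1 := by
  rw [Ppar, kron_mul, par_sq, par_sq, Matrix.one_kronecker_one]

theorem Ppar_conjTranspose : (Ppar n N)ᴴ = Ppar n N := by
  rw [Ppar, kron_conjTranspose, par_conjTranspose, par_conjTranspose]

theorem par_dgl (c : ℕ → ℂ) : (par : FM N) * dgl c = dgl c * par := by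
  rw [par, dgl, dgl, Matrix.diagonal_mul_diagonal, Matrix.diagonal_mul_diagonal]
  congr 1
  funext i
  exact mul_comm _ _

theorem Ppar_kron (J : Matrix (Fin n) (Fin n) ℂ) (c : ℕ → ℂ) :
    Ppar n N * (lam J ⊗ₖ (dgl c : FM N)) = (lam J ⊗ₖ (dgl c : FM N)) * Ppar n N := by
  rw [Ppar, kron_mul, kron_mul, par_lam, par_dgl]

theorem neg_kron (A : FM n) (B : FM N) : (-A) ⊗ₖ B = -(A ⊗ₖ B) := by
  rw [← neg_one_smul ℂ A, Matrix.smul_kronecker, neg_one_smul]

theorem kron_neg (A : FM n) (B : FM N) : A ⊗ₖ (-B) = -(A ⊗ₖ B) := by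
  rw [← neg_one_smul ℂ B, Matrix.kronecker_smul, neg_one_smul]

/-- the parity anticommutes with `B` -/
theorem Ppar_Bm (s t : Fin N → ℂ) (v : Cm n) :
    Ppar n N * Bm w z s t v = -(Bm w z s t v * Ppar n N) := by
  have h1 : (par : FM N) * (epsV s + iotV t) = -((epsV s + iotV t) * par) := by
    rw [Matrix.mul_add, Matrix.add_mul, par_epsV, par_iotV]
    abel
  unfold Bm Ppar
  rw [Matrix.mul_add, Matrix.add_mul, kron_mul, kron_mul, Matrix.mul_smul, Matrix.smul_mul,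
    kron_mul, kron_mul, h1, par_cl, Matrix.mul_one, Matrix.one_mul, kron_neg, neg_kron]
  simp only [smul_neg]
  abel

variable {k0 : ℕ} {u : Cm n → FI n × FI N → ℂ}

/-- the parity anticommutes with `D' + δ` -/
theorem DDt_par (hu : VC 1 u z) :
    DDt k0 w (fun y => Ppar n N *ᵥ u y) z = -(Ppar n N *ᵥ DDt k0 w u z) := by
  have hE : KK k0 N * (par : FM N) = par * KK k0 N + (0 : ℂ) • par := by
    rw [zero_smul, add_zero, KK, par_dgl]
  have h1 := anti_kron (k0 := k0) (w := w) (f := fun _ => 1) contDiffAt_const hu hE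
  have h2 : symb w z (fun l => dz l (fun _ => (1 : ℂ)) z + 0 * 1 * tG l w z)
      (fun b => dzb b (fun _ => (1 : ℂ)) z) = 0 := by
    have h3 : (fun l => dz l (fun _ => (1 : ℂ)) z + 0 * 1 * tG l w z) = 0 := by
      funext l
      have : dz l (fun _ : Cm n => (1 : ℂ)) z = 0 := by simp [dz]
      rw [this]; simp
    have h4 : (fun b => dzb b (fun _ : Cm n => (1 : ℂ)) z) = 0 := by
      funext b
      simp [dzb]
    rw [h3, h4, symb_zero]
  simp only [one_smul] at h1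
  rw [h2, Matrix.zero_mul] at h1
  have h5 : (0 : FM n) ⊗ₖ (par : FM N) = 0 := Matrix.zero_kronecker _
  rw [h5, Matrix.zero_mulVec] at h1
  exact eq_neg_of_add_eq_zero_left h1

end point

section glob

variable {n N r : ℕ} {Z : Type*} [TopologicalSpace Z] [ChartedSpace (Cm n) Z]
  [IsManifold 𝓘(ℂ, Cm n) ω Z] {w : D.FormM n Z}

/-- the parity operator of the total bundle -/
def PZ (hw : IsKahler w) (k0 N : ℕ) : ZOp (Btot hw k0 N) where
  M := fun _ _ => Ppar n N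
  smooth := fun _ _ _ _ _ => contDiffAt_const
  change := fun e e' x _ _ => by rw [Btot_tr]; exact Ppar_kron _ _

theorem PZ_adj (hw : IsKahler w) (k0 : ℕ) {e : Chart n Z} {x : Z} :
    (Ppar n N)ᴴ * (Btot hw k0 N).H e (e x) = (Btot hw k0 N).H e (e x) * Ppar n N := by
  rw [Btot_H, Ppar_conjTranspose]
  exact Ppar_kron _ _

theorem BopX_par (k0 : ℕ) (w : D.FormM n Z) (s : Fin N → Chart n Z → Cm n → ℂ)
    (f : Fin r → Z → ℝ) (X : Fin r → D.VField n Z) (e : Chart n Z) (z : Cm n) :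
    BopX k0 w s f X e z * Ppar n N = -(Ppar n N * BopX k0 w s f X e z) := by
  rw [BopX, Bop, Ppar_Bm, neg_neg]

end glob

end Vale.Agent.P299.IX.Kz

namespace Vale.Agent.P299.IX

section zop

variable {n : ℕ} {Z : Type*} [TopologicalSpace Z] [ChartedSpace (Cm n) Z] {κ : Type*}
  [Fintype κ] [DecidableEq κ] {B : Bun n Z κ}

/-- products of operators of order `0` -/
theorem ZOp.op_op (M₁ M₂ : ZOp B) (s : B.S) {e : Chart n Z} {x : Z} (hx : At e x) :
    (M₁.op (M₂.op s)).f e (e x) = (M₁.M e (e x) * M₂.M e (e x)) *ᵥ s.f e (e x) := by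
  rw [M₁.op_at _ hx, M₂.op_at _ hx, Matrix.mulVec_mulVec]

end zop

section zsymm

variable {n : ℕ} {Z : Type*} [TopologicalSpace Z] [ChartedSpace (Cm n) Z] [T2Space Z]
  [CompactSpace Z] [IsManifold 𝓘(ℂ, Cm n) ω Z] {κ : Type*} [Fintype κ] [DecidableEq κ]
  {B : Bun n Z κ}

/-- pointwise self-adjoint operators of order `0` are symmetric -/
theorem ZOp.inner_symm (M : ZOp B) (hM : ∀ (e : Chart n Z) x, At e x →
      (M.M e (e x))ᴴ * B.H e (e x) = B.H e (e x) * M.M e (e x)) (s t : B.S) :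
    inner ℂ (M.op s) t = inner ℂ s (M.op t) := by
  rw [M.inner_adj]
  congr 1
  refine Bun.S.ext_f fun e x h => ?_
  have hHu : IsUnit (B.H e (e x)).det := isUnit_iff_ne_zero.2 (B.H_pos e x h).det_pos.ne'
  rw [M.adj.op_at _ h, M.op_at _ h]
  show ((B.H e (e x))⁻¹ * (M.M e (e x))ᴴ * B.H e (e x)) *ᵥ _ = _
  rw [Matrix.mul_assoc, hM e x h, Matrix.nonsing_inv_mul_cancel_left _ _ hHu]

end zsymm

section pb

variable {r n : ℕ} {Z : Type} [TopologicalSpace Z] [ChartedSpace (Cm n) Z] {w : D.FormM n Z}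
  {T : D.TorusAct r n Z w} {κ : Type*} [Fintype κ] [DecidableEq κ] {B : Bun n Z κ}

/-- invariant operators of order `0` commute with the pull backs -/
theorem ZOp.op_pb (L : Lift T B) (M : ZOp B)
    (hM : ∀ t (e e' : Chart n Z) x, At e x → At e' (T.a t x) →
      M.M e (e x) * L.R t e e' x = L.R t e e' x * M.M e' (e' (T.a t x)))
    (t : Fin r → ℝ) (s : B.S) : M.op (L.pb t s) = L.pb t (M.op s) := by
  refine Bun.S.ext_f fun e x h => ?_
  have hc : At (chartAt (Cm n) (T.a t x)) (T.a t x) := at_chartAt' _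
  rw [M.op_at _ h, L.pb_at _ h hc, L.pb_at _ h hc, M.op_at _ hc, Matrix.mulVec_mulVec,
    Matrix.mulVec_mulVec, hM t e _ x h hc]

end pb

section pbc

variable {r n : ℕ} {Z : Type} [TopologicalSpace Z] [ChartedSpace (Cm n) Z]
  [IsManifold 𝓘(ℂ, Cm n) ω Z] [T2Space Z] [CompactSpace Z] {w : D.FormM n Z}
  {T : D.TorusAct r n Z w} {κ : Type*} [Fintype κ] [DecidableEq κ] {B : Bun n Z κ}

/-- symmetric operators commuting with the pull backs commute with the averages -/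
theorem Lift.avg_comm_symm (L : Lift T B) {E : B.S →ₗ[ℂ] B.S}
    (hE : ∀ s u, inner ℂ (E s) u = inner ℂ s (E u))
    (hcomm : ∀ t s, E (L.pb t s) = L.pb t (E s)) (s : B.S) : E (L.avg s) = L.avg (E s) :=
  L.avg_comm L hE hcomm s

theorem Lift.oProj_avg (L : Lift T B) : OProj ℂ L.avg := ⟨L.avg_avg, L.avg_symm⟩

end pbc

/-! ### the projections -/

section proj

variable {S : Type*} [NormedAddCommGroup S] [InnerProductSpace ℂ S]

/-- `A (1 + c Π) / 2` -/
def pj (A P : S →ₗ[ℂ] S) (c : ℂ) : S →ₗ[ℂ] S := (2⁻¹ : ℂ) • (A + c • (P ∘ₗ A))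

theorem pj_apply (A P : S →ₗ[ℂ] S) (c : ℂ) (u : S) : pj A P c u = (2⁻¹ : ℂ) • (A u + c • P (A u)) :=
  rfl

variable {A P : S →ₗ[ℂ] S}

/-- the projections onto the sections fixed by `A` of parity `c = ± 1` -/
theorem oProj_pj (hA : OProj ℂ A) (hP : ∀ u, P (P u) = u)
    (hPs : ∀ u v, inner ℂ (P u) v = inner ℂ u (P v)) (hAP : ∀ u, P (A u) = A (P u)) {c : ℂ}
    (hc : c * c = 1) (hcr : star c = c) : OProj ℂ (pj A P c) where
  idem u := by
    simp only [pj_apply, map_smul, map_add, hA.idem, hAP, hP, smul_add, smul_smul]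
    generalize A u = a
    generalize A (P u) = b
    have h3 : (2⁻¹ * c * (2⁻¹ * c) : ℂ) = 4⁻¹ := by
      rw [show (2⁻¹ * c * (2⁻¹ * c) : ℂ) = 4⁻¹ * (c * c) by ring, hc, mul_one]
    rw [h3]
    module
  symm u v := by
    have e1 : inner ℂ (P (A u)) v = inner ℂ u (P (A v)) := by
      rw [hPs, hA.symm, ← hAP]
    rw [pj_apply, pj_apply, inner_smul_left, inner_smul_right, inner_add_left, inner_add_right,
      inner_smul_left, inner_smul_right, hA.symm, e1]
    have h1 : (starRingEnd ℂ) (2⁻¹ : ℂ) = 2⁻¹ := by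
      rw [map_inv₀, Complex.conj_ofNat]
    have h2 : (starRingEnd ℂ) c = c := hcr
    rw [h1, h2]

/-- operators which anticommute with the parity exchange the projections -/
theorem pj_comm {D : S →ₗ[ℂ] S} (hDA : ∀ u, D (A u) = A (D u)) (hDP : ∀ u, D (P u) = -P (D u))
    (c : ℂ) (u : S) : D (pj A P c u) = pj A P (-c) (D u) := by
  simp only [pj_apply, map_smul, map_add, hDP, hDA, smul_neg, neg_smul]

theorem pj_fix (hA : ∀ u, A (A u) = A u) (hAP : ∀ u, P (A u) = A (P u)) {c : ℂ} {u : S}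
    (h : pj A P c u = u) : A u = u := by
  rw [← h]
  simp only [pj_apply, map_smul, map_add, hA, ← hAP]

theorem pj_fix_par (hP : ∀ u, P (P u) = u) {c : ℂ} (hc : c * c = 1) {u : S}
    (h : pj A P c u = u) : P u = c • u := by
  have h1 : P (pj A P c u) = c • pj A P c u := by
    simp only [pj_apply, map_smul, map_add, hP, smul_add, smul_smul]
    rw [show c * (2⁻¹ * c) = 2⁻¹ * (c * c) by ring, hc, mul_one, mul_comm c 2⁻¹, add_comm]
  rwa [h] at h1

/-- fixed sections -/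
theorem pj_fix_iff (hA : ∀ u, A (A u) = A u) (hP : ∀ u, P (P u) = u)
    (hAP : ∀ u, P (A u) = A (P u)) {c : ℂ} (hc : c * c = 1) (u : S) :
    pj A P c u = u ↔ A u = u ∧ P u = c • u := by
  constructor
  · exact fun h => ⟨pj_fix hA hAP h, pj_fix_par hP hc h⟩
  · rintro ⟨h1, h2⟩
    rw [pj_apply, h1, h2, smul_smul, hc, one_smul, ← two_smul ℂ u, smul_smul]
    norm_num

end proj

end Vale.Agent.P299.IX

/-! ### the parity operator and `B` on the invariant sections of the total bundle -/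

namespace Vale.Agent.P299.IX.Kz

open Fock Cl

section tot

variable {r n : ℕ} {Z : Type} [TopologicalSpace Z] [ChartedSpace (Cm n) Z]
  [IsManifold 𝓘(ℂ, Cm n) ω Z] {w : D.FormM n Z}
  (T : D.TorusAct r n Z w) (hw : IsKahler w) {k0 N q : ℕ}

theorem PZ_op_op (s : (Btot hw k0 N).S) : (PZ hw k0 N).op ((PZ hw k0 N).op s) = s := by
  refine Bun.S.ext_f fun e x h => ?_
  rw [ZOp.op_op _ _ _ h]
  show (Ppar n N * Ppar n N) *ᵥ _ = _
  rw [Ppar_sq, Matrix.one_mulVec]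

theorem PZ_pb (t : Fin r → ℝ) (s : (Btot hw k0 N).S) :
    (PZ hw k0 N).op ((Ltot T hw k0 N).pb t s) = (Ltot T hw k0 N).pb t ((PZ hw k0 N).op s) :=
  ZOp.op_pb _ _ (fun t e e' x _ _ => by
    rw [Ltot_R]
    exact Ppar_kron _ _) t s

theorem wsec_kSec {T : D.TorusAct r n Z w} {s : Chart n Z → Cm n → ℂ}
    (hs : H800.Kir.Wsec T k0 0 s) : KSec k0 s := ⟨hs.smooth, hs.change⟩

variable {s : Fin N → Chart n Z → Cm n → ℂ} (hs : ∀ j, KSec k0 (s j))
  {f : Fin q → Z → ℝ}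
  (hf : ∀ a (e : Chart n Z) x, At e x → ContDiffAt ℝ ∞ (fun z => f a (e.symm z)) (e x))
  {X : Fin q → D.VField n Z} (hX : ∀ a, SField (X a))

theorem BZ_pb {T : D.TorusAct r n Z w} (hsT : ∀ j, H800.Kir.Wsec T k0 0 (s j))
    (hfT : ∀ a t x, f a (T.a t x) = f a x) (hXT : ∀ a, VInv T (X a)) (t : Fin r → ℝ)
    (u : (Btot hw k0 N).S) : (BZ hw hs hf hX).op ((Ltot T hw k0 N).pb t u) =
      (Ltot T hw k0 N).pb t ((BZ hw hs hf hX).op u) :=
  ZOp.op_pb _ _ (fun t _ _ _ h h' => BopX_act T hw hsT hfT hXT t h h') t u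

theorem BZ_par (u : (Btot hw k0 N).S) :
    (BZ hw hs hf hX).op ((PZ hw k0 N).op u) = -(PZ hw k0 N).op ((BZ hw hs hf hX).op u) := by
  refine Bun.S.ext_f fun e x h => ?_
  rw [Bun.S.neg_f, Pi.neg_apply, Pi.neg_apply, ZOp.op_op _ _ _ h, ZOp.op_op _ _ _ h]
  show (BopX k0 w s f X e (e x) * Ppar n N) *ᵥ _ = -((Ppar n N * BopX k0 w s f X e (e x)) *ᵥ _)
  rw [BopX_par, Matrix.neg_mulVec]

variable [T2Space Z] [CompactSpace Z]

theorem PZ_symm (s t : (Btot hw k0 N).S) :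
    inner ℂ ((PZ hw k0 N).op s) t = inner ℂ s ((PZ hw k0 N).op t) := by
  refine (PZ hw k0 N).inner_symm (fun e x _ => ?_) s t
  exact PZ_adj hw k0

theorem PZ_avg (s : (Btot hw k0 N).S) :
    (PZ hw k0 N).op ((Ltot T hw k0 N).avg s) = (Ltot T hw k0 N).avg ((PZ hw k0 N).op s) :=
  Lift.avg_comm_symm _ (PZ_symm hw) (PZ_pb T hw) s

theorem BZ_symm (u v : (Btot hw k0 N).S) :
    inner ℂ ((BZ hw hs hf hX).op u) v = inner ℂ u ((BZ hw hs hf hX).op v) := by
  refine (BZ hw hs hf hX).inner_symm (fun e x h => ?_) u v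
  exact BopX_adj hw s f X h

theorem BZ_avg {T : D.TorusAct r n Z w} (hsT : ∀ j, H800.Kir.Wsec T k0 0 (s j))
    (hfT : ∀ a t x, f a (T.a t x) = f a x) (hXT : ∀ a, VInv T (X a)) (u : (Btot hw k0 N).S) :
    (BZ hw hs hf hX).op ((Ltot T hw k0 N).avg u) =
      (Ltot T hw k0 N).avg ((BZ hw hs hf hX).op u) :=
  Lift.avg_comm_symm _ (BZ_symm hw hs hf hX) (BZ_pb hw hs hf hX hsT hfT hXT) u

/-- the projection onto the invariant sections of parity `c = ± 1` -/
def PT (k0 N : ℕ) (c : ℂ) : (Btot hw k0 N).S →ₗ[ℂ] (Btot hw k0 N).S :=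
  pj (Ltot T hw k0 N).avg (PZ hw k0 N).op c

theorem oProj_PT {c : ℂ} (hc : c * c = 1) (hcr : star c = c) : OProj ℂ (PT T hw k0 N c) :=
  oProj_pj (Lift.oProj_avg _) (PZ_op_op hw) (PZ_symm hw) (PZ_avg T hw) hc hcr

theorem PT_comm {D : (Btot hw k0 N).S →ₗ[ℂ] (Btot hw k0 N).S}
    (hA : ∀ u, D ((Ltot T hw k0 N).avg u) = (Ltot T hw k0 N).avg (D u))
    (hP : ∀ u, D ((PZ hw k0 N).op u) = -(PZ hw k0 N).op (D u)) (c : ℂ) (u : (Btot hw k0 N).S) :
    D (PT T hw k0 N c u) = PT T hw k0 N (-c) (D u) :=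
  pj_comm hA hP c u

theorem PT_fix_iff {c : ℂ} (hc : c * c = 1) (u : (Btot hw k0 N).S) :
    PT T hw k0 N c u = u ↔ (∀ t, (Ltot T hw k0 N).pb t u = u) ∧ (PZ hw k0 N).op u = c • u := by
  rw [PT, pj_fix_iff (Lift.avg_avg _) (PZ_op_op hw) (PZ_avg T hw) hc, Lift.avg_eq_iff]

theorem BZ_PT {T : D.TorusAct r n Z w} (hsT : ∀ j, H800.Kir.Wsec T k0 0 (s j))
    (hfT : ∀ a t x, f a (T.a t x) = f a x) (hXT : ∀ a, VInv T (X a)) (c : ℂ)
    (u : (Btot hw k0 N).S) : (BZ hw hs hf hX).op (PT T hw k0 N c u) =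
      PT T hw k0 N (-c) ((BZ hw hs hf hX).op u) :=
  PT_comm T hw (BZ_avg hw hs hf hX hsT hfT hXT) (BZ_par hw hs hf hX) c u

end tot

end Vale.Agent.P299.IX.Kz
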