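import Vale.Agent.P299.H835.IX.Par
import Vale.Agent.P299.H908.Lie.Lie

/-!
# P299, index theorem: `B² = V`, and `{D' + δ, B} = R` on the invariant sections
-/

open scoped Manifold ContDiff ComplexOrder Topology Matrix Kronecker
open Set Filter
open Vale.Agent.P272.K Vale.Agent.P272.K.C2 Vale.Agent.P299.H954 Vale.Agent.P299.H863

set_option linter.unusedSectionVars false

noncomputable section

namespace Vale.Agent.P299.IX.Kz

open Fock Cl

/-! ### the function `V` -/

section V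

variable {n N q : ℕ} {Z : Type*} [TopologicalSpace Z] [ChartedSpace (Cm n) Z]
  [IsManifold 𝓘(ℂ, Cm n) ω Z] {w : D.FormM n Z} {k0 : ℕ}
  {s : Fin N → Chart n Z → Cm n → ℂ} {f : Fin q → Z → ℝ} {X : Fin q → D.VField n Z}
  {e e' : Chart n Z} {x : Z}

theorem VX_change (hw : IsKahler w) (hs : ∀ j, KSec k0 (s j)) (hX : ∀ a, SField (X a))
    (hx : At e x) (hx' : At e' x) :
    VX k0 w s f X e (e x) = VX k0 w s f X e' (e' x) := by
  set t := (Btot hw k0 N).tr e e' x with ht
  set t' := (Btot hw k0 N).tr e' e x with ht'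
  have h1 := BopX_change (k0 := k0) hw hs f hX hx hx'
  have h2 := BopX_sq (k0 := k0) hw s f X hx
  have h3 := BopX_sq (k0 := k0) hw s f X hx'
  have htt : t * t' = 1 := by
    rw [ht, ht', (Btot hw k0 N).tr_mul e e' e x hx hx' hx,
      (Btot hw k0 N).tr_self e x hx]
  have h4 : (VX k0 w s f X e (e x) : ℂ) • t = (VX k0 w s f X e' (e' x) : ℂ) • t := by
    have e1 : (VX k0 w s f X e (e x) : ℂ) • t =
        (BopX k0 w s f X e (e x) * BopX k0 w s f X e (e x)) * t := by
      rw [h2, Matrix.smul_mul, Matrix.one_mul]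
    rw [e1, Matrix.mul_assoc, h1, ← Matrix.mul_assoc, h1, Matrix.mul_assoc, h3, Matrix.mul_smul,
      Matrix.mul_one]
  have h5 := congrArg (· * t') h4
  simp only [Matrix.smul_mul, htt] at h5
  have h6 := congrFun (congrFun h5 (∅, ∅)) (∅, ∅)
  simp only [Matrix.smul_apply, Matrix.one_apply_eq, smul_eq_mul, mul_one] at h6
  exact_mod_cast h6

/-- the function `V` on `Z` -/
def VZ (k0 : ℕ) (w : D.FormM n Z) (s : Fin N → Chart n Z → Cm n → ℂ) (f : Fin q → Z → ℝ)
    (X : Fin q → D.VField n Z) (x : Z) : ℝ :=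
  VX k0 w s f X (chartAt (Cm n) x) ((chartAt (Cm n) x : Chart n Z) x)

theorem VZ_eq (hw : IsKahler w) (hs : ∀ j, KSec k0 (s j)) (hX : ∀ a, SField (X a))
    (hx : At e x) : VZ k0 w s f X x = VX k0 w s f X e (e x) :=
  VX_change hw hs hX ⟨chart_mem_atlas _ x, mem_chart_source _ x⟩ hx

omit [IsManifold 𝓘(ℂ, Cm n) ω Z] in
theorem VX_smooth (hw : IsKahler w) (hs : ∀ j, KSec k0 (s j))
    (hf : ∀ a (e : Chart n Z) x, At e x → ContDiffAt ℝ ∞ (fun z => f a (e.symm z)) (e x))
    (hX : ∀ a, SField (X a)) (hx : At e x) :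
    ContDiffAt ℝ ∞ (VX k0 w s f X e) (e x) := by
  have h1 := BopX_smooth (k0 := k0) hw hs hf hX hx
  have h2 : ContDiffAt ℝ ∞ (fun z => (BopX k0 w s f X e z * BopX k0 w s f X e z)
      (∅, ∅) (∅, ∅)) (e x) := (h1.mul h1) _ _
  have h3 : ContDiffAt ℝ ∞ (fun z => ((BopX k0 w s f X e z * BopX k0 w s f X e z)
      (∅, ∅) (∅, ∅)).re) (e x) := Complex.reCLM.contDiff.contDiffAt.comp (e x) h2
  refine h3.congr_of_eventuallyEq ?_
  filter_upwards [hx.nhds_target] with z hz
  have h4 := BopX_sq (k0 := k0) hw s f X (e := e) (x := e.symm z) (At.of_target hx.1 hz)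
  rw [e.right_inv hz] at h4
  rw [h4]
  simp

theorem VZ_cont (hw : IsKahler w) (hs : ∀ j, KSec k0 (s j))
    (hf : ∀ a (e : Chart n Z) x, At e x → ContDiffAt ℝ ∞ (fun z => f a (e.symm z)) (e x))
    (hX : ∀ a, SField (X a)) : Continuous (VZ k0 w s f X) := by
  rw [continuous_iff_continuousAt]
  intro x
  set e : Chart n Z := chartAt (Cm n) x with he
  have hx : At e x := ⟨chart_mem_atlas _ x, mem_chart_source _ x⟩
  have h1 : VZ k0 w s f X =ᶠ[𝓝 x] fun y => VX k0 w s f X e (e y) := by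
    filter_upwards [e.open_source.mem_nhds hx.2] with y hy
    exact VZ_eq hw hs hX ⟨hx.1, hy⟩
  refine ContinuousAt.congr ?_ h1.symm
  exact ContinuousAt.comp (g := VX k0 w s f X e) (VX_smooth hw hs hf hX hx).continuousAt
    (e.continuousAt hx.2)

/-- `B² = V` -/
theorem BZ_BZ (hw : IsKahler w) (hs : ∀ j, KSec k0 (s j))
    (hf : ∀ a (e : Chart n Z) x, At e x → ContDiffAt ℝ ∞ (fun z => f a (e.symm z)) (e x))
    (hX : ∀ a, SField (X a)) (u : (Btot hw k0 N).S) (hx : At e x) :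
    ((BZ hw hs hf hX).op ((BZ hw hs hf hX).op u)).f e (e x) =
      ((VZ k0 w s f X x : ℝ) : ℂ) • u.f e (e x) := by
  rw [ZOp.op_op _ _ _ hx]
  show (BopX k0 w s f X e (e x) * BopX k0 w s f X e (e x)) *ᵥ _ = _
  rw [BopX_sq hw s f X hx, VZ_eq hw hs hX hx, Matrix.smul_mulVec, Matrix.one_mulVec]

/-- the anticommutator in the charts -/
def RopX (k0 : ℕ) (w : D.FormM n Z) (s : Fin N → Chart n Z → Cm n → ℂ) (f : Fin q → Z → ℝ)
    (X : Fin q → D.VField n Z) : Chart n Z → Cm n → Matrix (FI n × FI N) (FI n × FI N) ℂ :=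
  fun e z => Rop k0 (w e) (fun j => s j e) (fun a y => f a (e.symm y)) (fun a => X a e) z

omit [IsManifold 𝓘(ℂ, Cm n) ω Z] in
theorem RopX_smooth (hw : IsKahler w) (hs : ∀ j, KSec k0 (s j))
    (hf : ∀ a (e : Chart n Z) x, At e x → ContDiffAt ℝ ∞ (fun z => f a (e.symm z)) (e x))
    (hX : ∀ a, SField (X a)) (hx : At e x) : C2.MC ∞ (RopX k0 w s f X e) (e x) :=
  MC_Rop (kat hw hx) (fun j => (hs j).smooth e x hx) (fun a => hf a e x hx)
    (fun a => (hX a).smooth e x hx)

end V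

/-! ### congruence -/

section congr

variable {n N : ℕ} {w : Cm n → Matrix (Fin n) (Fin n) ℂ} {z : Cm n} {k0 : ℕ}
  {u v : Cm n → FI n × FI N → ℂ}

theorem DDt_congr (h : u =ᶠ[𝓝 z] v) : DDt k0 w u z = DDt k0 w v z := by
  rw [DDt_eq, DDt_eq, h.self_of_nhds]
  congr 1
  · exact Finset.sum_congr rfl fun l _ => by rw [DV_congr h]
  · exact Finset.sum_congr rfl fun l _ => by rw [DVb_congr h]

end congr

/-! ### invariant sections -/

section inv

variable {r n : ℕ} {Z : Type} [TopologicalSpace Z] [ChartedSpace (Cm n) Z]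
  [IsManifold 𝓘(ℂ, Cm n) ω Z] {w : D.FormM n Z} (T : D.TorusAct r n Z w) (hw : IsKahler w)
  {k0 N : ℕ} {e e' : Chart n Z} {x : Z}

theorem sField_vf (ξ : Fin r → ℝ) : SField (H582.vf T ξ) where
  smooth _ _ h := fun i => contDiffAt_pi.1 (H582.vf_smooth T h ξ) i
  change _ _ _ h h' := H582.vf_change T h h' ξ

theorem vf_hol (h : At e x) (ξ : Fin r → ℝ) (b : Fin n) : DVb b (H582.vf T ξ e) (e x) = 0 := by
  ext p
  exact INT.dzb_of_holo
    (differentiableAt_pi.1 (H582.vf_analytic T h ξ).differentiableAt p) b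

theorem dX_vf (ξ : Fin r → ℝ) (z : Cm n) :
    dX (H582.vf T ξ e) z = (H908.Lie.Bv (H582.vf T ξ e) z)ᵀ := rfl

/-- the Killing equation -/
theorem kil_vf (hw : IsKahler w) (h : At e x) (ξ : Fin r → ℝ) :
    Kil (w e) (H582.vf T ξ e) (e x) := by
  have h1 := H908.Lie.lie_met_kahler T hw ξ h
  unfold Kil
  rw [← h1, Finset.sum_add_distrib]
  congr 1

/-- an invariant section of the total bundle satisfies the Lie equation on every block -/
theorem blk_lie {u : (Btot hw k0 N).S} (hu : ∀ t, (Ltot T hw k0 N).pb t u = u)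
    (S : FI N) (ξ : Fin r → ℝ) (h : At e x) :
    lie (H582.vf T ξ e) (fun y J => u.f e y (J, S)) (e x) +
      dlam (dX (H582.vf T ξ e) (e x)) *ᵥ (fun J => u.f e (e x) (J, S)) =
        ((1 + S.card * k0 : ℕ) * (dX (H582.vf T ξ e) (e x)).trace) •
          fun J => u.f e (e x) (J, S) := by
  have h1 : IX.IsSec (1 + S.card * k0) (Bun.blk u.f S) :=
    isSec_FB_iff.1 (Bun.isSec_blk u.isSec S)
  have h2 := H908.Lie.lie_inv T h1 (fun t e e' x hx hx' => ?_) ξ h
  · have h3 := sub_eq_zero.1 h2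
    rw [dX_vf, Matrix.trace_transpose]
    refine Eq.trans ?_ h3
    rw [lie, ← Finset.sum_add_distrib]
    rfl
  · refine (liftFB_iff T (1 + S.card * k0) hw t hx hx' _ _).1 ?_
    have h3 : (Ltot T hw k0 N).R t e e' x *ᵥ u.f e' (e' (T.a t x)) = u.f e (e x) := by
      rw [← (Ltot T hw k0 N).pb_at u hx hx', hu t]
    funext I
    have h4 := congrFun h3 (I, S)
    rw [Lift.sum_mulVec] at h4
    exact h4

/-- **`{D' + δ, B} = R` on the invariant sections** -/
theorem anti_inv {s : Fin N → Chart n Z → Cm n → ℂ} (hs : ∀ j, KSec k0 (s j))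
    {f : Fin r → Z → ℝ}
    (hf : ∀ a (e : Chart n Z) x, At e x → ContDiffAt ℝ ∞ (fun z => f a (e.symm z)) (e x))
    {u : (Btot hw k0 N).S} (hu : ∀ t, (Ltot T hw k0 N).pb t u = u) (h : At e x) :
    DDt k0 (w e) (((BZ hw hs hf fun a => sField_vf T (Pi.single a 1)).op u).f e) (e x) +
      BopX k0 w s f (fun a => H582.vf T (Pi.single a 1)) e (e x) *ᵥ
        DDt k0 (w e) (u.f e) (e x) =
      RopX k0 w s f (fun a => H582.vf T (Pi.single a 1)) e (e x) *ᵥ u.f e (e x) := by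
  have h1 : ((BZ hw hs hf fun a => sField_vf T (Pi.single a 1)).op u).f e =ᶠ[𝓝 (e x)]
      fun y => BopX k0 w s f (fun a => H582.vf T (Pi.single a 1)) e y *ᵥ u.f e y := by
    filter_upwards [h.nhds_target] with z hz
    have h2 := (BZ hw hs hf fun a => sField_vf T (Pi.single a 1)).op_at u
      (e := e) (x := e.symm z) (At.of_target h.1 hz)
    rw [e.right_inv hz] at h2
    exact h2
  rw [DDt_congr h1]
  exact anti_total (kat hw h) (fun j => ((hs j).smooth e x h).of_le (by simp))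
    (fun a i => ((sField_vf T (Pi.single a 1)).smooth e x h i).of_le (by simp))
    (fun a b => vf_hol T h _ b) (fun a => (hf a e x h).of_le (by simp)) (u.isSec.vc1 h)
    (fun a S => blk_lie T hw hu S _ h)

end inv

end Vale.Agent.P299.IX.Kz
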